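import Crest.Agent.R132.Avg

-- ▼ part R132/Kernel
section

/-!
The double layer kernel of a convex curve parametrised by the exterior conformal map
`G(1/u) = φ(u)/u`.
-/

namespace Crest.Agent.R132

open Complex MeasureTheory Metric Set Filter Topology
open scoped Real ComplexConjugate

/-- `psi φ u = φ u - u φ'(u)`; with `G(t) = t φ(1/t)`, `t G'(t) = psi φ u / u` at `u = 1/t`. -/
noncomputable def psi (φ : ℂ → ℂ) (w : ℂ) : ℂ := φ w - w * deriv φ w

/-- The basic assumptions on the exterior map. -/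
structure Ext0 (φ : ℂ → ℂ) (ρ : ℝ) : Prop where
  one_lt : 1 < ρ
  diff : DifferentiableOn ℂ φ (ball 0 ρ)
  ne0 : φ 0 ≠ 0

/-- The standing assumptions on the exterior map. -/
structure Ext (φ : ℂ → ℂ) (ρ : ℝ) : Prop extends Ext0 φ ρ where
  inj : ∀ u ∈ ball (0 : ℂ) ρ, ∀ v ∈ ball (0 : ℂ) ρ, u ≠ 0 → v ≠ 0 → φ u / u = φ v / v → u = v
  psi_ne : ∀ u ∈ ball (0 : ℂ) ρ, psi φ u ≠ 0
  conv : ∀ u v : ℂ, ‖u‖ = 1 → ‖v‖ = 1 → 0 ≤ (conj (psi φ u) * (φ u - u * (φ v / v))).re

variable {φ : ℂ → ℂ} {ρ : ℝ}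

theorem Ext0.mem_of_norm (h : Ext0 φ ρ) {u : ℂ} (hu : ‖u‖ = 1) : u ∈ ball (0 : ℂ) ρ := by
  simpa [hu] using h.one_lt

theorem Ext0.differentiableAt (h : Ext0 φ ρ) {u : ℂ} (hu : u ∈ ball (0 : ℂ) ρ) :
    DifferentiableAt ℂ φ u := h.diff.differentiableAt (isOpen_ball.mem_nhds hu)

theorem Ext0.diff_psi (h : Ext0 φ ρ) : DifferentiableOn ℂ (psi φ) (ball 0 ρ) := by
  have h1 : DifferentiableOn ℂ (deriv φ) (ball 0 ρ) := h.diff.deriv isOpen_ball
  exact h.diff.sub (differentiableOn_id.mul h1)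

/-- numerator `v φ(u) - u φ(v)` as a function of `u`. -/
noncomputable def num (φ : ℂ → ℂ) (v u : ℂ) : ℂ := v * φ u - u * φ v

theorem num_self (v : ℂ) : num φ v v = 0 := by simp [num]

/-- `DD φ v u = (v φ(u) - u φ(v)) / (v - u)`, extended to `u = v`. -/
noncomputable def DD (φ : ℂ → ℂ) (v u : ℂ) : ℂ := -dslope (num φ v) v u

theorem Ext.diff_num (h : Ext φ ρ) (v : ℂ) : DifferentiableOn ℂ (num φ v) (ball 0 ρ) := by
  unfold num
  exact (h.diff.const_mul v).sub (differentiableOn_id.mul_const _)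

theorem Ext.diff_DD (h : Ext φ ρ) {v : ℂ} (hv : v ∈ ball (0 : ℂ) ρ) :
    DifferentiableOn ℂ (DD φ v) (ball 0 ρ) := by
  unfold DD
  exact ((Complex.differentiableOn_dslope (isOpen_ball.mem_nhds hv)).2 (h.diff_num v)).neg

theorem Ext.DD_self (h : Ext φ ρ) {v : ℂ} (hv : v ∈ ball (0 : ℂ) ρ) : DD φ v v = psi φ v := by
  unfold DD psi
  rw [dslope_same]
  have h1 : HasDerivAt (num φ v) (v * deriv φ v - 1 * φ v) v := by
    unfold num
    exact ((h.differentiableAt hv).hasDerivAt.const_mul v).sub ((hasDerivAt_id v).mul_const _)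
  rw [h1.deriv]; ring

theorem mul_DD (v u : ℂ) : (v - u) * DD φ v u = num φ v u := by
  unfold DD
  have := sub_smul_dslope (num φ v) v u
  rw [num_self, sub_zero, smul_eq_mul] at this
  linear_combination this

theorem Ext.DD_ne (h : Ext φ ρ) {v u : ℂ} (hv : v ∈ ball (0 : ℂ) ρ) (hu : u ∈ ball (0 : ℂ) ρ)
    (hv0 : v ≠ 0) : DD φ v u ≠ 0 := by
  intro h0
  by_cases huv : u = v
  · subst huv
    rw [h.DD_self hu] at h0
    exact h.psi_ne u hu h0
  · have h1 := mul_DD (φ := φ) v u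
    rw [h0, mul_zero] at h1
    by_cases hu0 : u = 0
    · subst hu0
      simp only [num, zero_mul, sub_zero] at h1
      exact h.ne0 ((mul_eq_zero.1 h1.symm).resolve_left hv0)
    · apply huv
      apply h.inj u hu v hv hu0 hv0
      rw [div_eq_div_iff hu0 hv0]
      unfold num at h1
      linear_combination -h1

/-- The kernel `κ(u,v) = t G'(t)/(G(t) - G(s))`, `u = 1/t`, `v = 1/s`. -/
noncomputable def kap (φ : ℂ → ℂ) (u v : ℂ) : ℂ := v * psi φ u / num φ v u

/-- `μ = 2 Re κ`. -/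
noncomputable def mu (φ : ℂ → ℂ) (u v : ℂ) : ℝ := 2 * (kap φ u v).re

theorem Ext.mu_nonneg (h : Ext φ ρ) {u v : ℂ} (hu : ‖u‖ = 1) (hv : ‖v‖ = 1) : 0 ≤ mu φ u v := by
  have hv0 : v ≠ 0 := by rintro rfl; simp at hv
  have h1 : kap φ u v = psi φ u / (φ u - u * (φ v / v)) := by
    unfold kap num
    have : v * φ u - u * φ v = v * (φ u - u * (φ v / v)) := by field_simp
    rw [this, mul_div_mul_left _ _ hv0]
  unfold mu
  rw [h1, Complex.div_re]
  have h2 := h.conv u v hu hv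
  simp only [Complex.mul_re, Complex.conj_re, Complex.conj_im] at h2
  have h3 : 0 ≤ Complex.normSq (φ u - u * (φ v / v)) := Complex.normSq_nonneg _
  have h4 : (psi φ u).re * (φ u - u * (φ v / v)).re / Complex.normSq (φ u - u * (φ v / v)) +
      (psi φ u).im * (φ u - u * (φ v / v)).im / Complex.normSq (φ u - u * (φ v / v))
      = ((psi φ u).re * (φ u - u * (φ v / v)).re + (psi φ u).im * (φ u - u * (φ v / v)).im)
        / Complex.normSq (φ u - u * (φ v / v)) := by ring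
  rw [h4]
  apply mul_nonneg (by norm_num)
  apply div_nonneg _ h3
  linarith

/-- on the unit circle, `v/(v-u)` has real part `1/2`. -/
theorem conj_div_sub {u v : ℂ} (hu : ‖u‖ = 1) (hv : ‖v‖ = 1) (huv : u ≠ v) :
    conj (v / (v - u)) = 1 - v / (v - u) := by
  have hu0 : u ≠ 0 := by rintro rfl; simp at hu
  have hv0 : v ≠ 0 := by rintro rfl; simp at hv
  have hcu : conj u = u⁻¹ := by
    rw [Complex.inv_def, Complex.normSq_eq_norm_sq, hu]; simp
  have hcv : conj v = v⁻¹ := by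
    rw [Complex.inv_def, Complex.normSq_eq_norm_sq, hv]; simp
  have h1 : v - u ≠ 0 := sub_ne_zero.2 huv.symm
  have h2 : u - v ≠ 0 := sub_ne_zero.2 huv
  rw [map_div₀, map_sub, hcu, hcv]
  have h3 : v⁻¹ - u⁻¹ = (u - v) / (u * v) := by field_simp
  rw [h3]
  field_simp
  ring

theorem two_re_div_sub {u v : ℂ} (hu : ‖u‖ = 1) (hv : ‖v‖ = 1) (huv : u ≠ v) :
    2 * (v / (v - u)).re = 1 := by
  have h := congrArg Complex.re (conj_div_sub hu hv huv)
  rw [Complex.conj_re, Complex.sub_re, Complex.one_re] at h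
  linarith

theorem ae_ne (v : ℂ) : ∀ᵐ θ ∂nu, e θ ≠ v := by
  have h1 : (e ⁻¹' {v}).Countable := (countable_singleton v).preimage_circleMap 0 one_ne_zero
  have h2 : nu (e ⁻¹' {v}) = 0 := by
    rw [nu, Measure.smul_apply]
    have : (volume.restrict (Ioc 0 (2 * π))) (e ⁻¹' {v}) = 0 := h1.measure_zero _
    rw [this, smul_zero]
  rw [ae_iff]
  convert h2 using 2
  ext θ; simp

/-! ### the regular part, as a function of `u` for fixed `v` -/

/-- `H(u) = v ψ(u)/DD(u,v)`. -/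
noncomputable def HH (φ : ℂ → ℂ) (v u : ℂ) : ℂ := v * psi φ u / DD φ v u

theorem Ext.diff_HH (h : Ext φ ρ) {v : ℂ} (hv : v ∈ ball (0 : ℂ) ρ) (hv0 : v ≠ 0) :
    DifferentiableOn ℂ (HH φ v) (ball 0 ρ) := by
  unfold HH
  exact (h.diff_psi.const_mul v).div (h.diff_DD hv) (fun u hu => h.DD_ne hv hu hv0)

theorem Ext.HH_self (h : Ext φ ρ) {v : ℂ} (hv : v ∈ ball (0 : ℂ) ρ) : HH φ v v = v := by
  unfold HH
  rw [h.DD_self hv, mul_div_cancel_right₀ _ (h.psi_ne v hv)]

theorem Ext.HH_zero (h : Ext φ ρ) {v : ℂ} (hv0 : v ≠ 0) : HH φ v 0 = v := by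
  have h1 := mul_DD (φ := φ) v 0
  simp only [sub_zero, num, zero_mul] at h1
  have h2 : DD φ v 0 = φ 0 := mul_left_cancel₀ hv0 h1
  unfold HH
  rw [h2]
  simp only [psi, zero_mul, sub_zero]
  rw [mul_div_cancel_right₀ _ h.ne0]

/-- `L(u,v)` for fixed `v`. -/
noncomputable def LL (φ : ℂ → ℂ) (v u : ℂ) : ℂ := -dslope (HH φ v) v u

theorem Ext.diff_LL (h : Ext φ ρ) {v : ℂ} (hv : v ∈ ball (0 : ℂ) ρ) (hv0 : v ≠ 0) :
    DifferentiableOn ℂ (LL φ v) (ball 0 ρ) := by
  unfold LL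
  exact ((Complex.differentiableOn_dslope (isOpen_ball.mem_nhds hv)).2 (h.diff_HH hv hv0)).neg

theorem Ext.LL_zero (h : Ext φ ρ) {v : ℂ} (hv : v ∈ ball (0 : ℂ) ρ) (hv0 : v ≠ 0) :
    LL φ v 0 = 0 := by
  unfold LL
  rw [dslope_of_ne _ (Ne.symm hv0), slope_def_field, h.HH_self hv, h.HH_zero hv0]
  simp

theorem Ext.kap_eq (h : Ext φ ρ) {u v : ℂ} (hv : v ∈ ball (0 : ℂ) ρ) (hu : u ∈ ball (0 : ℂ) ρ)
    (hv0 : v ≠ 0) (huv : u ≠ v) : kap φ u v = LL φ v u + v / (v - u) := by
  have h1 : v - u ≠ 0 := sub_ne_zero.2 huv.symm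
  have h2 := h.DD_ne hv hu hv0
  have h3 : kap φ u v = HH φ v u / (v - u) := by
    unfold kap HH
    rw [← mul_DD, div_div, mul_comm (v - u)]
  have h4 : LL φ v u = (HH φ v u - v) / (v - u) := by
    unfold LL
    rw [dslope_of_ne _ huv, slope_def_field, h.HH_self hv, ← neg_sub v u, div_neg, neg_neg]
  rw [h3, h4]
  field_simp
  ring

theorem Ext.mu_eq (h : Ext φ ρ) {u v : ℂ} (hu : ‖u‖ = 1) (hv : ‖v‖ = 1) (huv : u ≠ v) :
    mu φ u v = 1 + 2 * (LL φ v u).re := by
  have hv0 : v ≠ 0 := by rintro rfl; simp at hv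
  unfold mu
  rw [h.kap_eq (h.mem_of_norm hv) (h.mem_of_norm hu) hv0 huv, Complex.add_re, mul_add,
    two_re_div_sub hu hv huv]
  ring

/-- complex form -/
theorem Ext.mu_eq' (h : Ext φ ρ) {u v : ℂ} (hu : ‖u‖ = 1) (hv : ‖v‖ = 1) (huv : u ≠ v) :
    (mu φ u v : ℂ) = 1 + LL φ v u + conj (LL φ v u) := by
  rw [h.mu_eq hu hv huv]
  push_cast
  have := Complex.add_conj (LL φ v u)
  push_cast at this
  linear_combination -this

theorem Ext.mu_ae (h : Ext φ ρ) {v : ℂ} (hv : ‖v‖ = 1) :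
    (fun θ => mu φ (e θ) v) =ᵐ[nu] fun θ => 1 + 2 * (LL φ v (e θ)).re := by
  filter_upwards [ae_ne v] with θ hθ
  exact h.mu_eq (norm_e θ) hv hθ

theorem Ext.continuous_LL (h : Ext φ ρ) {v : ℂ} (hv : ‖v‖ = 1) :
    Continuous fun θ => LL φ v (e θ) := by
  have hv0 : v ≠ 0 := by rintro rfl; simp at hv
  exact continuous_comp_e h.one_lt (h.diff_LL (h.mem_of_norm hv) hv0)

theorem Ext.integral_LL (h : Ext φ ρ) {v : ℂ} (hv : ‖v‖ = 1) :
    ∫ θ, LL φ v (e θ) ∂nu = 0 := by
  have hv0 : v ≠ 0 := by rintro rfl; simp at hv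
  rw [mean_value h.one_lt (h.diff_LL (h.mem_of_norm hv) hv0), h.LL_zero (h.mem_of_norm hv) hv0]

theorem Ext.integrable_mu (h : Ext φ ρ) {v : ℂ} (hv : ‖v‖ = 1) :
    Integrable (fun θ => mu φ (e θ) v) nu := by
  rw [integrable_congr (h.mu_ae hv)]
  apply integrable_of_continuous
  exact continuous_const.add (continuous_const.mul (Complex.continuous_re.comp (h.continuous_LL hv)))

/-- first marginal of the kernel. -/
theorem Ext.integral_mu_left (h : Ext φ ρ) {v : ℂ} (hv : ‖v‖ = 1) :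
    ∫ θ, mu φ (e θ) v ∂nu = 1 := by
  rw [integral_congr_ae (h.mu_ae hv)]
  have hc := h.continuous_LL hv
  have hc2 : Continuous fun θ => 2 * (LL φ v (e θ)).re :=
    continuous_const.mul (Complex.continuous_re.comp hc)
  rw [integral_add (integrable_const _) (integrable_of_continuous hc2), integral_const_mul]
  have h1 : ∫ θ, (LL φ v (e θ)).re ∂nu = (∫ θ, LL φ v (e θ) ∂nu).re :=
    integral_re (integrable_of_continuous hc)
  rw [h1, h.integral_LL hv]
  simp

/-! ### the regular part, as a function of `v` for fixed `u` -/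

/-- `H̃(v) = v ψ(u)/DD(u,v)`, minus `v`. -/
noncomputable def HT (φ : ℂ → ℂ) (u v : ℂ) : ℂ := v * psi φ u / DD φ u v - v

theorem Ext.diff_HT (h : Ext φ ρ) {u : ℂ} (hu : u ∈ ball (0 : ℂ) ρ) (hu0 : u ≠ 0) :
    DifferentiableOn ℂ (HT φ u) (ball 0 ρ) := by
  unfold HT
  exact ((differentiableOn_id.mul_const _).div (h.diff_DD hu)
    (fun v hv => h.DD_ne hu hv hu0)).sub differentiableOn_id

theorem Ext.HT_self (h : Ext φ ρ) {u : ℂ} (hu : u ∈ ball (0 : ℂ) ρ) : HT φ u u = 0 := by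
  unfold HT
  rw [h.DD_self hu, mul_div_cancel_right₀ _ (h.psi_ne u hu), sub_self]

/-- `L(u,v)` for fixed `u`. -/
noncomputable def LT (φ : ℂ → ℂ) (u v : ℂ) : ℂ := dslope (HT φ u) u v

theorem Ext.diff_LT (h : Ext φ ρ) {u : ℂ} (hu : u ∈ ball (0 : ℂ) ρ) (hu0 : u ≠ 0) :
    DifferentiableOn ℂ (LT φ u) (ball 0 ρ) := by
  unfold LT
  exact (Complex.differentiableOn_dslope (isOpen_ball.mem_nhds hu)).2 (h.diff_HT hu hu0)

theorem Ext.LT_zero (h : Ext φ ρ) {u : ℂ} (hu : u ∈ ball (0 : ℂ) ρ) (hu0 : u ≠ 0) :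
    LT φ u 0 = 0 := by
  unfold LT
  rw [dslope_of_ne _ (Ne.symm hu0), slope_def_field, h.HT_self hu]
  simp [HT]

theorem num_symm (u v : ℂ) : num φ v u = -num φ u v := by unfold num; ring

theorem Ext.kap_eq2 (h : Ext φ ρ) {u v : ℂ} (hu : u ∈ ball (0 : ℂ) ρ) (hv : v ∈ ball (0 : ℂ) ρ)
    (hu0 : u ≠ 0) (huv : u ≠ v) : kap φ u v = LT φ u v + v / (v - u) := by
  have h1 : v - u ≠ 0 := sub_ne_zero.2 huv.symm
  have h2 := h.DD_ne hu hv hu0
  have h4 : LT φ u v = (v * psi φ u / DD φ u v - v) / (v - u) := by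
    unfold LT
    rw [dslope_of_ne _ huv.symm, slope_def_field, h.HT_self hu, sub_zero]; rfl
  have h5 : num φ v u = (v - u) * DD φ u v := by
    rw [num_symm, ← mul_DD (φ := φ) u v]; ring
  unfold kap
  rw [h4, h5]
  field_simp
  ring

/-- second marginal of the kernel. -/
theorem Ext.integral_mu_right (h : Ext φ ρ) {u : ℂ} (hu : ‖u‖ = 1) :
    Integrable (fun θ => mu φ u (e θ)) nu ∧ ∫ θ, mu φ u (e θ) ∂nu = 1 := by
  have hu0 : u ≠ 0 := by rintro rfl; simp at hu
  have hae : (fun θ => mu φ u (e θ)) =ᵐ[nu] fun θ => 1 + 2 * (LT φ u (e θ)).re := by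
    filter_upwards [ae_ne u] with θ hθ
    unfold mu
    rw [h.kap_eq2 (h.mem_of_norm hu) (h.mem_of_norm (norm_e θ)) hu0 hθ.symm, Complex.add_re, mul_add,
      two_re_div_sub hu (norm_e θ) hθ.symm]
    ring
  have hc : Continuous fun θ => LT φ u (e θ) :=
    continuous_comp_e h.one_lt (h.diff_LT (h.mem_of_norm hu) hu0)
  constructor
  · rw [integrable_congr hae]
    apply integrable_of_continuous
    exact continuous_const.add (continuous_const.mul (Complex.continuous_re.comp hc))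
  · rw [integral_congr_ae hae]
    have hc2 : Continuous fun θ => 2 * (LT φ u (e θ)).re :=
      continuous_const.mul (Complex.continuous_re.comp hc)
    rw [integral_add (integrable_const _) (integrable_of_continuous hc2), integral_const_mul]
    have h1 : ∫ θ, (LT φ u (e θ)).re ∂nu = (∫ θ, LT φ u (e θ) ∂nu).re :=
      integral_re (integrable_of_continuous hc)
    rw [h1, mean_value h.one_lt (h.diff_LT (h.mem_of_norm hu) hu0), h.LT_zero (h.mem_of_norm hu) hu0]
    simp

end Crest.Agent.R132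
end

-- ▼ part R132/Markov
section

/-!
Contraction property of the double layer operator, Cauchy integrals, Faber polynomials.
-/

namespace Crest.Agent.R132

open Complex MeasureTheory Metric Set Filter Topology
open scoped Real ComplexConjugate

variable {φ : ℂ → ℂ} {ρ : ℝ}

theorem Ext0.continuous_phi (h : Ext0 φ ρ) : Continuous fun θ => φ (e θ) :=
  continuous_comp_e h.one_lt h.diff

theorem Ext0.continuous_psi (h : Ext0 φ ρ) : Continuous fun θ => psi φ (e θ) :=
  continuous_comp_e h.one_lt h.diff_psi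

theorem Ext.measurable_mu (h : Ext φ ρ) : Measurable (fun p : ℝ × ℝ => mu φ (e p.1) (e p.2)) := by
  have h1 : Continuous fun p : ℝ × ℝ => e p.2 * psi φ (e p.1) :=
    (continuous_e.comp continuous_snd).mul (h.continuous_psi.comp continuous_fst)
  have h2 : Continuous fun p : ℝ × ℝ => num φ (e p.2) (e p.1) :=
    ((continuous_e.comp continuous_snd).mul (h.continuous_phi.comp continuous_fst)).sub
      ((continuous_e.comp continuous_fst).mul (h.continuous_phi.comp continuous_snd))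
  have h3 : Measurable fun p : ℝ × ℝ => kap φ (e p.1) (e p.2) := h1.measurable.div h2.measurable
  exact (Complex.measurable_re.comp h3).const_mul 2

/-- Pointwise Cauchy–Schwarz for the Markov kernel. -/
theorem Ext.sq_le (h : Ext φ ρ) {f : ℝ → ℂ} (hf : Continuous f) {v : ℂ} (hv : ‖v‖ = 1) :
    Integrable (fun θ => ‖f θ‖ ^ 2 * mu φ (e θ) v) nu ∧
    ‖∫ θ, f θ * (mu φ (e θ) v : ℂ) ∂nu‖ ^ 2 ≤ ∫ θ, ‖f θ‖ ^ 2 * mu φ (e θ) v ∂nu := by
  have hmuC : Integrable (fun θ => (mu φ (e θ) v : ℂ)) nu := (h.integrable_mu hv).ofReal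
  -- continuous functions are a.e. bounded: compare with the continuous version
  have hae := h.mu_ae hv
  have hc := h.continuous_LL hv
  have hcm : Continuous fun θ => 1 + 2 * (LL φ v (e θ)).re :=
    continuous_const.add (continuous_const.mul (Complex.continuous_re.comp hc))
  have hi1 : Integrable (fun θ => ‖f θ‖ ^ 2 * mu φ (e θ) v) nu := by
    have : (fun θ => ‖f θ‖ ^ 2 * mu φ (e θ) v) =ᵐ[nu]
        fun θ => ‖f θ‖ ^ 2 * (1 + 2 * (LL φ v (e θ)).re) := by
      filter_upwards [hae] with θ hθ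
      rw [hθ]
    rw [integrable_congr this]
    exact integrable_of_continuous ((hf.norm.pow 2).mul hcm)
  have hi2 : Integrable (fun θ => f θ * (mu φ (e θ) v : ℂ)) nu := by
    have : (fun θ => f θ * (mu φ (e θ) v : ℂ)) =ᵐ[nu]
        fun θ => f θ * ((1 + 2 * (LL φ v (e θ)).re : ℝ) : ℂ) := by
      filter_upwards [hae] with θ hθ
      rw [hθ]
    rw [integrable_congr this]
    exact integrable_of_continuous (hf.mul (Complex.continuous_ofReal.comp hcm))
  refine ⟨hi1, ?_⟩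
  set c := ∫ θ, f θ * (mu φ (e θ) v : ℂ) ∂nu with hcdef
  have key : 0 ≤ ∫ θ, ‖f θ - c‖ ^ 2 * mu φ (e θ) v ∂nu :=
    integral_nonneg (fun θ => mul_nonneg (sq_nonneg _) (h.mu_nonneg (norm_e θ) hv))
  have hexp : ∀ θ, ‖f θ - c‖ ^ 2 * mu φ (e θ) v
      = ‖f θ‖ ^ 2 * mu φ (e θ) v - 2 * (conj c * (f θ * (mu φ (e θ) v : ℂ))).re
        + ‖c‖ ^ 2 * mu φ (e θ) v := by
    intro θ
    rw [← Complex.normSq_eq_norm_sq, ← Complex.normSq_eq_norm_sq, ← Complex.normSq_eq_norm_sq,
      Complex.normSq_apply, Complex.normSq_apply, Complex.normSq_apply]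
    simp only [Complex.sub_re, Complex.sub_im, Complex.mul_re, Complex.mul_im, Complex.conj_re,
      Complex.conj_im, Complex.ofReal_re, Complex.ofReal_im]
    ring
  have hi3 : Integrable (fun θ => 2 * (conj c * (f θ * (mu φ (e θ) v : ℂ))).re) nu :=
    ((hi2.const_mul (conj c)).re).const_mul 2
  have hi4 : Integrable (fun θ => ‖c‖ ^ 2 * mu φ (e θ) v) nu := (h.integrable_mu hv).const_mul _
  have e1 : ∫ θ, ‖f θ - c‖ ^ 2 * mu φ (e θ) v ∂nu
      = ∫ θ, ‖f θ‖ ^ 2 * mu φ (e θ) v ∂nu - 2 * (conj c * c).re + ‖c‖ ^ 2 := by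
    rw [integral_congr_ae (Eventually.of_forall hexp),
      integral_add (show Integrable (fun θ => ‖f θ‖ ^ 2 * mu φ (e θ) v -
        2 * (conj c * (f θ * (mu φ (e θ) v : ℂ))).re) nu from hi1.sub hi3) hi4,
      integral_sub hi1 hi3, integral_const_mul, integral_const_mul, h.integral_mu_left hv, mul_one]
    congr 2
    have h5 : ∫ θ, (conj c * (f θ * (mu φ (e θ) v : ℂ))).re ∂nu
        = (∫ θ, conj c * (f θ * (mu φ (e θ) v : ℂ)) ∂nu).re :=
      integral_re (hi2.const_mul (conj c))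
    rw [h5, integral_const_mul, ← hcdef]
  have e2 : (conj c * c).re = ‖c‖ ^ 2 := by
    rw [mul_comm, Complex.mul_conj, Complex.ofReal_re, Complex.normSq_eq_norm_sq]
  rw [e1, e2] at key
  linarith

/-- The double layer operator is a contraction of `L²`. -/
theorem Ext.contraction (h : Ext φ ρ) {f q : ℝ → ℂ} (hf : Continuous f) (hq : Continuous q)
    (hfq : ∀ τ, q τ = ∫ θ, f θ * (mu φ (e θ) (e τ) : ℂ) ∂nu) :
    ∫ τ, ‖q τ‖ ^ 2 ∂nu ≤ ∫ θ, ‖f θ‖ ^ 2 ∂nu := by
  have hqi : Integrable (fun τ => ‖q τ‖ ^ 2) nu := integrable_of_continuous (hq.norm.pow 2)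
  have hfi : Integrable (fun τ => ‖f τ‖ ^ 2) nu := integrable_of_continuous (hf.norm.pow 2)
  rw [← ENNReal.ofReal_le_ofReal_iff (integral_nonneg fun θ => sq_nonneg _),
    ofReal_integral_eq_lintegral_ofReal hqi (Eventually.of_forall fun τ => sq_nonneg _),
    ofReal_integral_eq_lintegral_ofReal hfi (Eventually.of_forall fun τ => sq_nonneg _)]
  have hm : Measurable (fun p : ℝ × ℝ => ENNReal.ofReal (‖f p.2‖ ^ 2 * mu φ (e p.2) (e p.1))) := by
    have h1 : Measurable fun p : ℝ × ℝ => ‖f p.2‖ ^ 2 :=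
      ((hf.comp continuous_snd).norm.pow 2).measurable
    have h2 : Measurable fun p : ℝ × ℝ => mu φ (e p.2) (e p.1) := by
      have := h.measurable_mu.comp (measurable_swap (α := ℝ) (β := ℝ))
      simpa only [Function.comp_def, Prod.fst_swap, Prod.snd_swap] using this
    exact (h1.mul h2).ennreal_ofReal
  calc ∫⁻ τ, ENNReal.ofReal (‖q τ‖ ^ 2) ∂nu
      ≤ ∫⁻ τ, ∫⁻ θ, ENNReal.ofReal (‖f θ‖ ^ 2 * mu φ (e θ) (e τ)) ∂nu ∂nu := by
        apply lintegral_mono
        intro τ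
        obtain ⟨h1, h2⟩ := h.sq_le hf (norm_e τ)
        dsimp only
        rw [← ofReal_integral_eq_lintegral_ofReal h1 (Eventually.of_forall fun θ =>
          mul_nonneg (sq_nonneg _) (h.mu_nonneg (norm_e θ) (norm_e τ))), hfq τ]
        exact ENNReal.ofReal_le_ofReal h2
    _ = ∫⁻ θ, ∫⁻ τ, ENNReal.ofReal (‖f θ‖ ^ 2 * mu φ (e θ) (e τ)) ∂nu ∂nu := by
        exact lintegral_lintegral_swap hm.aemeasurable
    _ = ∫⁻ θ, ENNReal.ofReal (‖f θ‖ ^ 2) ∂nu := by
        apply lintegral_congr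
        intro θ
        obtain ⟨h1, h2⟩ := h.integral_mu_right (norm_e θ)
        rw [← ofReal_integral_eq_lintegral_ofReal (h1.const_mul _) (Eventually.of_forall fun τ =>
          mul_nonneg (sq_nonneg _) (h.mu_nonneg (norm_e θ) (norm_e τ))), integral_const_mul, h2,
          mul_one]

/-- Cauchy's theorem for the curve `Γ`. -/
theorem Ext0.integral_comp (h : Ext0 φ ρ) {V : Set ℂ} (hV : IsOpen V) (hVc : Convex ℝ V)
    (hΓ : ∀ u : ℂ, ‖u‖ = 1 → φ u / u ∈ V) {F : ℂ → ℂ} (hF : DifferentiableOn ℂ F V) :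
    ∫ θ, F (φ (e θ) / e θ) * (psi φ (e θ) / e θ) ∂nu = 0 := by
  obtain ⟨P, hP⟩ := hVc.exists_forall_hasDerivWithinAt hF
  have hd : ∀ θ, HasDerivAt (fun u => P (φ u / u))
      ((fun u => - (F (φ u / u) * (psi φ u / u ^ 2))) (e θ)) (e θ) := by
    intro θ
    have h1 : HasDerivAt P (F (φ (e θ) / e θ)) (φ (e θ) / e θ) :=
      (hP _ (hΓ _ (norm_e θ))).hasDerivAt (hV.mem_nhds (hΓ _ (norm_e θ)))
    have h2 : HasDerivAt (fun u => φ u / u)
        ((deriv φ (e θ) * e θ - φ (e θ) * 1) / (e θ) ^ 2) (e θ) :=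
      ((h.differentiableAt (h.mem_of_norm (norm_e θ))).hasDerivAt).div (hasDerivAt_id _) (e_ne_zero θ)
    have h3 : HasDerivAt (fun u => P (φ u / u)) _ (e θ) := HasDerivAt.comp (e θ) (h₂ := P) h1 h2
    refine h3.congr_deriv ?_
    simp only [psi]
    ring
  have hcF : Continuous fun θ => F (φ (e θ) / e θ) :=
    hF.continuousOn.comp_continuous (h.continuous_phi.div continuous_e e_ne_zero)
      (fun θ => hΓ _ (norm_e θ))
  have hc : Continuous fun θ => (fun u => - (F (φ u / u) * (psi φ u / u ^ 2))) (e θ) := by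
    exact (hcF.mul (h.continuous_psi.div (continuous_e.pow 2)
      (fun θ => pow_ne_zero 2 (e_ne_zero θ)))).neg
  have := avg_deriv (f := fun u => P (φ u / u))
    (f' := fun u => - (F (φ u / u) * (psi φ u / u ^ 2))) hd hc
  have h4 : ∀ θ, F (φ (e θ) / e θ) * (psi φ (e θ) / e θ)
      = - (e θ * (fun u => - (F (φ u / u) * (psi φ u / u ^ 2))) (e θ)) := by
    intro θ
    have := e_ne_zero θ
    field_simp
  rw [integral_congr_ae (Eventually.of_forall h4), integral_neg, this, neg_zero]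

theorem Ext0.integral_poly (h : Ext0 φ ρ) (P : Polynomial ℂ) :
    ∫ θ, P.eval (φ (e θ) / e θ) * (psi φ (e θ) / e θ) ∂nu = 0 :=
  h.integral_comp isOpen_univ convex_univ (fun _ _ => mem_univ _) P.differentiable.differentiableOn

/-- The regularised Cauchy integral of a polynomial at a boundary point vanishes. -/
theorem Ext.integral_kap (h : Ext φ ρ) {v : ℂ} (hv : ‖v‖ = 1) (S : Polynomial ℂ) :
    ∫ θ, (S.eval (φ (e θ) / e θ) - S.eval (φ v / v)) * kap φ (e θ) v ∂nu = 0 := by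
  have hv0 : v ≠ 0 := by rintro rfl; simp at hv
  obtain ⟨S', hS'⟩ : ∃ S' : Polynomial ℂ,
      S - Polynomial.C (S.eval (φ v / v)) = (Polynomial.X - Polynomial.C (φ v / v)) * S' := by
    have := Polynomial.dvd_iff_isRoot.2
      (show (S - Polynomial.C (S.eval (φ v / v))).IsRoot (φ v / v) by simp)
    exact this
  have hS'' : ∀ w, S.eval w - S.eval (φ v / v) = (w - φ v / v) * S'.eval w := by
    intro w
    have := congrArg (Polynomial.eval w) hS'
    simpa using this
  rw [← h.integral_poly S']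
  apply integral_congr_ae
  filter_upwards [ae_ne v] with θ hθ
  have hu := e_ne_zero θ
  have h1 : φ (e θ) / e θ - φ v / v ≠ 0 := by
    intro h0
    exact hθ (h.inj _ (h.mem_of_norm (norm_e θ)) v (h.mem_of_norm hv) hu hv0 (sub_eq_zero.1 h0))
  have h2 : num φ v (e θ) = v * e θ * (φ (e θ) / e θ - φ v / v) := by
    unfold num; field_simp
  rw [hS'', kap, h2]
  generalize φ (e θ) / e θ - φ v / v = X at h1
  field_simp

/-- The relation between the Cauchy integral and the double layer operator (`N1`). -/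
theorem Ext.conj_mu (h : Ext φ ρ) {T E : ℂ → ℂ} (hT : DifferentiableOn ℂ T (ball 0 ρ))
    (hE : DifferentiableOn ℂ E (ball 0 ρ)) (hE0 : E 0 = 0) {S : Polynomial ℂ}
    (hS : ∀ u : ℂ, ‖u‖ = 1 → S.eval (φ u / u) = conj (T u) + E u) {v : ℂ} (hv : ‖v‖ = 1) :
    ∫ θ, conj (T (e θ)) * (mu φ (e θ) v : ℂ) ∂nu = conj (T 0) + E v := by
  have hv0 : v ≠ 0 := by rintro rfl; simp at hv
  have hvb := h.mem_of_norm hv
  have hLc := h.continuous_LL hv
  have hTc : Continuous fun θ => T (e θ) := continuous_comp_e h.one_lt hT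
  have hEc : Continuous fun θ => E (e θ) := continuous_comp_e h.one_lt hE
  have hcTc : Continuous fun θ => conj (T (e θ)) := Complex.continuous_conj.comp hTc
  have hLL := h.diff_LL hvb hv0
  have hdT : DifferentiableOn ℂ (fun u => u * dslope T v u) (ball 0 ρ) :=
    differentiableOn_id.mul ((Complex.differentiableOn_dslope (isOpen_ball.mem_nhds hvb)).2 hT)
  have hdE : DifferentiableOn ℂ (dslope E v) (ball 0 ρ) :=
    (Complex.differentiableOn_dslope (isOpen_ball.mem_nhds hvb)).2 hE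
  have hdTc : Continuous fun θ => e θ * dslope T v (e θ) := continuous_comp_e h.one_lt hdT
  have hdEc : Continuous fun θ => dslope E v (e θ) := continuous_comp_e h.one_lt hdE
  -- the regularised Cauchy integral
  have h1 := h.integral_kap hv S
  have h2 : (fun θ => (S.eval (φ (e θ) / e θ) - S.eval (φ v / v)) * kap φ (e θ) v) =ᵐ[nu]
      fun θ => conj (T (e θ)) * LL φ v (e θ) + E (e θ) * LL φ v (e θ)
        - S.eval (φ v / v) * LL φ v (e θ) + conj (e θ * dslope T v (e θ))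
        - v * dslope E v (e θ) := by
    filter_upwards [ae_ne v] with θ hθ
    have hvu : v - e θ ≠ 0 := sub_ne_zero.2 hθ.symm
    have huv : e θ - v ≠ 0 := sub_ne_zero.2 hθ
    rw [h.kap_eq hvb (h.mem_of_norm (norm_e θ)) hv0 hθ]
    have a1 := hS (e θ) (norm_e θ)
    have a2 := hS v hv
    have a3 : conj (T (e θ) - T v) * (v / (v - e θ)) = conj (e θ * dslope T v (e θ)) := by
      have b1 : v / (v - e θ) = conj (e θ / (e θ - v)) := by
        have := conj_div_sub (norm_e θ) hv hθ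
        have b2 : e θ / (e θ - v) = 1 - v / (v - e θ) := by
          field_simp
          ring
        rw [b2, map_sub, map_one, this]; ring
      rw [b1, ← map_mul, dslope_of_ne _ hθ, slope_def_field]
      congr 1
      field_simp
    have a4 : (E (e θ) - E v) * (v / (v - e θ)) = - (v * dslope E v (e θ)) := by
      rw [dslope_of_ne _ hθ, slope_def_field]
      rw [← neg_sub (e θ) v]
      field_simp
    have a5 : (S.eval (φ (e θ) / e θ) - S.eval (φ v / v)) * (v / (v - e θ))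
        = conj (e θ * dslope T v (e θ)) - v * dslope E v (e θ) := by
      rw [a1, a2]
      have : conj (T (e θ)) + E (e θ) - (conj (T v) + E v)
          = conj (T (e θ) - T v) + (E (e θ) - E v) := by rw [map_sub]; ring
      rw [this, add_mul, a3, a4]; ring
    rw [mul_add, a5, a1]; ring
  rw [integral_congr_ae h2] at h1
  have i1 : Integrable (fun θ => conj (T (e θ)) * LL φ v (e θ)) nu :=
    integrable_of_continuous (hcTc.mul hLc)
  have i2 : Integrable (fun θ => E (e θ) * LL φ v (e θ)) nu :=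
    integrable_of_continuous (hEc.mul hLc)
  have i3 : Integrable (fun θ => S.eval (φ v / v) * LL φ v (e θ)) nu :=
    integrable_of_continuous (continuous_const.mul hLc)
  have i4 : Integrable (fun θ => conj (e θ * dslope T v (e θ))) nu :=
    integrable_of_continuous (Complex.continuous_conj.comp hdTc)
  have i5 : Integrable (fun θ => v * dslope E v (e θ)) nu :=
    integrable_of_continuous (continuous_const.mul hdEc)
  have j1 : Integrable (fun θ => conj (T (e θ)) * LL φ v (e θ) + E (e θ) * LL φ v (e θ)) nu :=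
    i1.add i2
  have j2 : Integrable (fun θ => conj (T (e θ)) * LL φ v (e θ) + E (e θ) * LL φ v (e θ)
        - S.eval (φ v / v) * LL φ v (e θ)) nu := j1.sub i3
  have j3 : Integrable (fun θ => conj (T (e θ)) * LL φ v (e θ) + E (e θ) * LL φ v (e θ)
        - S.eval (φ v / v) * LL φ v (e θ) + conj (e θ * dslope T v (e θ))) nu := j2.add i4
  rw [integral_sub j3 i5, integral_add j2 i4,
    integral_sub j1 i3, integral_add i1 i2, integral_const_mul, integral_const_mul,
    h.integral_LL hv, mean_value h.one_lt (h := fun u => E u * LL φ v u) (hE.mul hLL), hE0,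
    mean_value h.one_lt hdE, mean_value_conj h.one_lt hdT] at h1
  rw [dslope_of_ne E (Ne.symm hv0), slope_def_field, hE0] at h1
  have h3 : ∫ θ, conj (T (e θ)) * LL φ v (e θ) ∂nu = E v := by
    have : v * ((0 - E v) / (0 - v)) = E v := by field_simp; ring
    rw [this] at h1
    simp only [zero_mul, mul_zero, map_zero, add_zero, sub_zero] at h1
    linear_combination h1
  -- now the kernel
  have h4 : (fun θ => conj (T (e θ)) * (mu φ (e θ) v : ℂ)) =ᵐ[nu]
      fun θ => conj (T (e θ)) + conj (T (e θ)) * LL φ v (e θ) + conj (T (e θ) * LL φ v (e θ)) := by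
    filter_upwards [ae_ne v] with θ hθ
    rw [h.mu_eq' (norm_e θ) hv hθ, map_mul]; ring
  have i6 : Integrable (fun θ => conj (T (e θ))) nu := integrable_of_continuous hcTc
  have i7 : Integrable (fun θ => conj (T (e θ) * LL φ v (e θ))) nu :=
    integrable_of_continuous (Complex.continuous_conj.comp (hTc.mul hLc))
  rw [integral_congr_ae h4, integral_add (show Integrable (fun θ => conj (T (e θ)) +
    conj (T (e θ)) * LL φ v (e θ)) nu from i6.add i1) i7, integral_add i6 i1, h3,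
    mean_value_conj h.one_lt hT,
    mean_value_conj h.one_lt (h := fun u => T u * LL φ v u) (hT.mul hLL), h.LL_zero hvb hv0]
  simp

/-- Faber polynomials. -/
theorem Ext.faber_mono (h : Ext φ ρ) (n : ℕ) : ∃ (S : Polynomial ℂ) (E : ℂ → ℂ),
    DifferentiableOn ℂ E (ball 0 ρ) ∧ E 0 = 0 ∧
      ∀ u ∈ ball (0 : ℂ) ρ, u ≠ 0 → S.eval (φ u / u) = (u ^ n)⁻¹ + E u := by
  -- more generally: for every analytic `f`, `f(u)/u^n` can be written as `S(g(u)) + E(u)`
  suffices H : ∀ n : ℕ, ∀ f : ℂ → ℂ, DifferentiableOn ℂ f (ball 0 ρ) →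
      ∃ (S : Polynomial ℂ) (E : ℂ → ℂ), DifferentiableOn ℂ E (ball 0 ρ) ∧ E 0 = 0 ∧
        ∀ u ∈ ball (0 : ℂ) ρ, u ≠ 0 → S.eval (φ u / u) = f u / u ^ n + E u by
    obtain ⟨S, E, h1, h2, h3⟩ := H n (fun _ => 1) (differentiableOn_const _)
    refine ⟨S, E, h1, h2, fun u hu hu0 => ?_⟩
    rw [h3 u hu hu0, one_div]
  intro n
  have h0b : (0 : ℂ) ∈ ball (0 : ℂ) ρ := by simpa using lt_trans one_pos h.one_lt
  induction n with
  | zero =>
    intro f hf
    refine ⟨Polynomial.C (f 0), fun u => f 0 - f u, (differentiableOn_const _).sub hf, sub_self _,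
      fun u _ _ => ?_⟩
    simp
  | succ n ih =>
    intro f hf
    -- subtract c * g^(n+1) with c = f 0 / φ 0 ^ (n+1)
    set c := f 0 / φ 0 ^ (n + 1) with hc
    set k : ℂ → ℂ := fun u => f u - c * φ u ^ (n + 1) with hk
    have hkd : DifferentiableOn ℂ k (ball 0 ρ) := hf.sub ((h.diff.pow _).const_mul _)
    have hk0 : k 0 = 0 := by
      simp only [hk, hc]
      rw [div_mul_cancel₀ _ (pow_ne_zero _ h.ne0), sub_self]
    have hds : DifferentiableOn ℂ (dslope k 0) (ball 0 ρ) :=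
      (Complex.differentiableOn_dslope (isOpen_ball.mem_nhds h0b)).2 hkd
    obtain ⟨S, E, h1, h2, h3⟩ := ih (dslope k 0) hds
    refine ⟨S + Polynomial.C c * Polynomial.X ^ (n + 1), E, h1, h2, fun u hu hu0 => ?_⟩
    rw [Polynomial.eval_add, h3 u hu hu0, dslope_of_ne _ hu0, slope_def_field, hk0]
    simp only [hk, Polynomial.eval_mul, Polynomial.eval_C, Polynomial.eval_pow, Polynomial.eval_X,
      div_pow]
    field_simp
    ring

theorem Ext.faber (h : Ext φ ρ) (T : Polynomial ℂ) : ∃ (S : Polynomial ℂ) (E : ℂ → ℂ),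
    DifferentiableOn ℂ E (ball 0 ρ) ∧ E 0 = 0 ∧
      ∀ u : ℂ, ‖u‖ = 1 → S.eval (φ u / u) = conj (T.eval u) + E u := by
  induction T using Polynomial.induction_on' with
  | add p q hp hq =>
    obtain ⟨S1, E1, h1, h2, h3⟩ := hp
    obtain ⟨S2, E2, h4, h5, h6⟩ := hq
    refine ⟨S1 + S2, fun u => E1 u + E2 u, h1.add h4, by simp [h2, h5], fun u hu => ?_⟩
    rw [Polynomial.eval_add, h3 u hu, h6 u hu, Polynomial.eval_add, map_add]; ring
  | monomial n a =>
    obtain ⟨S, E, h1, h2, h3⟩ := h.faber_mono n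
    refine ⟨Polynomial.C (conj a) * S, fun u => conj a * E u, h1.const_mul _, by simp [h2],
      fun u hu => ?_⟩
    have hu0 : u ≠ 0 := by rintro rfl; simp at hu
    have hcu : conj u = u⁻¹ := by
      rw [Complex.inv_def, Complex.normSq_eq_norm_sq, hu]; simp
    rw [Polynomial.eval_mul, Polynomial.eval_C, h3 u (h.mem_of_norm hu) hu0,
      Polynomial.eval_monomial, map_mul, map_pow, hcu, inv_pow]
    ring

end Crest.Agent.R132
end

-- ▼ part R132/Resolvent

/-!
The resolvent in exterior coordinates and the functional calculus.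
-/

namespace Crest.Agent.R132

open Complex MeasureTheory Metric Set Filter Topology
open scoped Real ComplexConjugate InnerProductSpace

variable {φ : ℂ → ℂ} {ρ : ℝ}
variable {H : Type*} [NormedAddCommGroup H] [InnerProductSpace ℂ H] [CompleteSpace H]

set_option linter.unusedSectionVars false

/-- `R(w) = ψ(w) (φ(w) - w A)⁻¹ = t G'(t) (G(t) - A)⁻¹`, `t = 1/w`. -/
noncomputable def Rz (φ : ℂ → ℂ) (A : H →L[ℂ] H) (w : ℂ) : H →L[ℂ] H :=
  psi φ w • Ring.inverse (φ w • (1 : H →L[ℂ] H) - w • A)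

/-- The functional calculus `f[A] = avg f(G(t)) R(t)`. -/
noncomputable def funcalc (φ : ℂ → ℂ) (A : H →L[ℂ] H) (f : ℂ → ℂ) : H →L[ℂ] H :=
  (2 * π)⁻¹ • ∫ θ in (0)..(2 * π),
    (f (φ (circleMap 0 1 θ) / circleMap 0 1 θ) * psi φ (circleMap 0 1 θ)) •
      Ring.inverse (φ (circleMap 0 1 θ) • (1 : H →L[ℂ] H) - circleMap 0 1 θ • A)

theorem funcalc_eq (φ : ℂ → ℂ) (A : H →L[ℂ] H) (f : ℂ → ℂ) :
    funcalc φ A f = ∫ θ, f (φ (e θ) / e θ) • Rz φ A (e θ) ∂nu := by
  rw [integral_nu, funcalc]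
  congr 1
  apply intervalIntegral.integral_congr
  intro θ _
  simp only [Rz, e, smul_smul]

/-- The spectral assumption. -/
def Res (φ : ℂ → ℂ) (ρ : ℝ) (A : H →L[ℂ] H) : Prop :=
  ∀ w ∈ ball (0 : ℂ) ρ, IsUnit (φ w • (1 : H →L[ℂ] H) - w • A)

variable {A : H →L[ℂ] H}

theorem Ext0.diff_Rz (h : Ext0 φ ρ) (hA : Res φ ρ A) : DifferentiableOn ℂ (Rz φ A) (ball 0 ρ) := by
  intro w hw
  have hwn := isOpen_ball.mem_nhds hw
  apply DifferentiableAt.differentiableWithinAt
  unfold Rz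
  have h1 : DifferentiableAt ℂ (psi φ) w := h.diff_psi.differentiableAt hwn
  have h2 : DifferentiableAt ℂ (fun w => φ w • (1 : H →L[ℂ] H) - w • A) w :=
    ((h.differentiableAt hw).smul_const _).sub (differentiableAt_id.smul_const _)
  have h3 : DifferentiableAt ℂ (fun w => Ring.inverse (φ w • (1 : H →L[ℂ] H) - w • A)) w :=
    DifferentiableAt.comp w (g := Ring.inverse) (differentiableAt_inverse (𝕜 := ℂ) (hA w hw)) h2
  exact h1.smul h3

theorem Ext0.Rz_zero (h : Ext0 φ ρ) (hA : Res φ ρ A) : Rz φ A 0 = 1 := by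
  have h0b : (0 : ℂ) ∈ ball (0 : ℂ) ρ := by simpa using lt_trans one_pos h.one_lt
  have h1 := Ring.mul_inverse_cancel _ (hA 0 h0b)
  unfold Rz psi
  simp only [zero_mul, sub_zero, zero_smul] at h1 ⊢
  rwa [smul_mul_assoc, one_mul] at h1

/-- `g R = A R + ψ/w`, left version. -/
theorem Rz_left {w : ℂ} (hw : w ≠ 0) (hA : IsUnit (φ w • (1 : H →L[ℂ] H) - w • A)) :
    (φ w / w) • Rz φ A w = A * Rz φ A w + (psi φ w / w) • (1 : H →L[ℂ] H) := by
  have h1 := Ring.mul_inverse_cancel _ hA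
  rw [sub_mul, smul_mul_assoc, one_mul, smul_mul_assoc] at h1
  unfold Rz
  set Q := Ring.inverse (φ w • (1 : H →L[ℂ] H) - w • A)
  have h2 : (1 : H →L[ℂ] H) = φ w • Q - w • (A * Q) := h1.symm
  rw [h2, mul_smul_comm, smul_sub, smul_smul, smul_smul, smul_smul]
  have h3 : psi φ w / w * w = psi φ w := div_mul_cancel₀ _ hw
  rw [h3]
  have h4 : φ w / w * psi φ w = psi φ w / w * φ w := by ring
  rw [h4]
  abel

/-- `g R = R A + ψ/w`, right version. -/
theorem Rz_right {w : ℂ} (hw : w ≠ 0) (hA : IsUnit (φ w • (1 : H →L[ℂ] H) - w • A)) :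
    (φ w / w) • Rz φ A w = Rz φ A w * A + (psi φ w / w) • (1 : H →L[ℂ] H) := by
  have h1 := Ring.inverse_mul_cancel _ hA
  rw [mul_sub, mul_smul_comm, mul_one, mul_smul_comm] at h1
  unfold Rz
  set Q := Ring.inverse (φ w • (1 : H →L[ℂ] H) - w • A)
  have h2 : (1 : H →L[ℂ] H) = φ w • Q - w • (Q * A) := h1.symm
  rw [h2, smul_mul_assoc, smul_sub, smul_smul, smul_smul, smul_smul]
  have h3 : psi φ w / w * w = psi φ w := div_mul_cancel₀ _ hw
  rw [h3]
  have h4 : φ w / w * psi φ w = psi φ w / w * φ w := by ring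
  rw [h4]
  abel

/-- Curve data for a function `F`: continuous along the curve and analytic on a convex open
neighbourhood. -/
structure OnCurve (φ : ℂ → ℂ) (V : Set ℂ) : Prop where
  isOpen : IsOpen V
  convex : Convex ℝ V
  mem : ∀ u : ℂ, ‖u‖ = 1 → φ u / u ∈ V

variable {V : Set ℂ}

theorem Ext0.continuous_F (h : Ext0 φ ρ) (hV : OnCurve φ V) {F : ℂ → ℂ}
    (hF : DifferentiableOn ℂ F V) : Continuous fun θ => F (φ (e θ) / e θ) :=
  hF.continuousOn.comp_continuous (h.continuous_phi.div continuous_e e_ne_zero)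
      (fun θ => hV.mem _ (norm_e θ))

theorem Ext0.continuous_Rz (h : Ext0 φ ρ) (hA : Res φ ρ A) : Continuous fun θ => Rz φ A (e θ) :=
  continuous_comp_e h.one_lt (h.diff_Rz hA)

theorem Ext0.integrable_F (h : Ext0 φ ρ) (hA : Res φ ρ A) (hV : OnCurve φ V) {F : ℂ → ℂ}
    (hF : DifferentiableOn ℂ F V) :
    Integrable (fun θ => F (φ (e θ) / e θ) • Rz φ A (e θ)) nu :=
  integrable_of_continuous ((h.continuous_F hV hF).smul (h.continuous_Rz hA))

theorem Ext0.funcalc_add (h : Ext0 φ ρ) (hA : Res φ ρ A) (hV : OnCurve φ V) {F F' : ℂ → ℂ}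
    (hF : DifferentiableOn ℂ F V) (hF' : DifferentiableOn ℂ F' V) :
    funcalc φ A (fun z => F z + F' z) = funcalc φ A F + funcalc φ A F' := by
  rw [funcalc_eq, funcalc_eq, funcalc_eq,
    ← integral_add (h.integrable_F hA hV hF) (h.integrable_F hA hV hF')]
  simp only [add_smul]

theorem funcalc_const_mul (c : ℂ) (F : ℂ → ℂ) :
    funcalc φ A (fun z => c * F z) = c • funcalc φ A F := by
  rw [funcalc_eq, funcalc_eq, ← integral_smul]
  simp only [smul_smul]

theorem Ext0.funcalc_X_left (h : Ext0 φ ρ) (hA : Res φ ρ A) (hV : OnCurve φ V) {F : ℂ → ℂ}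
    (hF : DifferentiableOn ℂ F V) :
    funcalc φ A (fun z => z * F z) = A * funcalc φ A F := by
  have hi := h.integrable_F hA hV hF
  have h1 : ∀ θ, (φ (e θ) / e θ * F (φ (e θ) / e θ)) • Rz φ A (e θ)
      = A * (F (φ (e θ) / e θ) • Rz φ A (e θ))
        + (F (φ (e θ) / e θ) * (psi φ (e θ) / e θ)) • (1 : H →L[ℂ] H) := by
    intro θ
    rw [mul_comm (φ (e θ) / e θ), mul_smul, Rz_left (e_ne_zero θ)
      (hA _ (h.mem_of_norm (norm_e θ))), smul_add, mul_smul_comm, smul_smul]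
  have hi2 : Integrable (fun θ => A * (F (φ (e θ) / e θ) • Rz φ A (e θ))) nu :=
    integrable_of_continuous (continuous_const.mul ((h.continuous_F hV hF).smul (h.continuous_Rz hA)))
  have hi3 : Integrable (fun θ => (F (φ (e θ) / e θ) * (psi φ (e θ) / e θ)) • (1 : H →L[ℂ] H)) nu :=
    integrable_of_continuous (((h.continuous_F hV hF).mul
      (h.continuous_psi.div continuous_e e_ne_zero)).smul continuous_const)
  rw [funcalc_eq, funcalc_eq]
  simp only [h1]
  rw [integral_add hi2 hi3, integral_smul_const, h.integral_comp hV.isOpen hV.convex hV.mem hF,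
    zero_smul, add_zero]
  exact (ContinuousLinearMap.integral_comp_comm (ContinuousLinearMap.mul ℂ (H →L[ℂ] H) A) hi)

theorem Ext0.funcalc_X_right (h : Ext0 φ ρ) (hA : Res φ ρ A) (hV : OnCurve φ V) {F : ℂ → ℂ}
    (hF : DifferentiableOn ℂ F V) :
    funcalc φ A (fun z => z * F z) = funcalc φ A F * A := by
  have hi := h.integrable_F hA hV hF
  have h1 : ∀ θ, (φ (e θ) / e θ * F (φ (e θ) / e θ)) • Rz φ A (e θ)
      = (F (φ (e θ) / e θ) • Rz φ A (e θ)) * A
        + (F (φ (e θ) / e θ) * (psi φ (e θ) / e θ)) • (1 : H →L[ℂ] H) := by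
    intro θ
    rw [mul_comm (φ (e θ) / e θ), mul_smul, Rz_right (e_ne_zero θ)
      (hA _ (h.mem_of_norm (norm_e θ))), smul_add, smul_mul_assoc, smul_smul]
  have hi2 : Integrable (fun θ => (F (φ (e θ) / e θ) • Rz φ A (e θ)) * A) nu :=
    integrable_of_continuous (((h.continuous_F hV hF).smul (h.continuous_Rz hA)).mul continuous_const)
  have hi3 : Integrable (fun θ => (F (φ (e θ) / e θ) * (psi φ (e θ) / e θ)) • (1 : H →L[ℂ] H)) nu :=
    integrable_of_continuous (((h.continuous_F hV hF).mul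
      (h.continuous_psi.div continuous_e e_ne_zero)).smul continuous_const)
  rw [funcalc_eq, funcalc_eq]
  simp only [h1]
  rw [integral_add hi2 hi3, integral_smul_const, h.integral_comp hV.isOpen hV.convex hV.mem hF,
    zero_smul, add_zero]
  exact (ContinuousLinearMap.integral_comp_comm ((ContinuousLinearMap.mul ℂ (H →L[ℂ] H)).flip A) hi)

theorem Ext0.funcalc_one (h : Ext0 φ ρ) (hA : Res φ ρ A) : funcalc φ A (fun _ => 1) = 1 := by
  rw [funcalc_eq]
  simp only [one_smul]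
  rw [mean_value h.one_lt (h.diff_Rz hA), h.Rz_zero hA]

/-- multiplication by a polynomial on the left. -/
theorem Ext0.funcalc_poly_left (h : Ext0 φ ρ) (hA : Res φ ρ A) (hV : OnCurve φ V) {F : ℂ → ℂ}
    (hF : DifferentiableOn ℂ F V) (S : Polynomial ℂ) :
    funcalc φ A (fun z => S.eval z * F z) = Polynomial.aeval A S * funcalc φ A F := by
  have hS : ∀ S : Polynomial ℂ, DifferentiableOn ℂ (fun z => S.eval z * F z) V :=
    fun S => S.differentiable.differentiableOn.mul hF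
  induction S using Polynomial.induction_on with
  | C a =>
    simp only [Polynomial.eval_C]
    rw [funcalc_const_mul, Polynomial.aeval_C, Algebra.algebraMap_eq_smul_one, smul_mul_assoc,
      one_mul]
  | add p q hp hq =>
    simp only [Polynomial.eval_add, add_mul, map_add]
    rw [h.funcalc_add hA hV (hS p) (hS q), hp, hq]
  | monomial n a ih =>
    have h1 : (fun z => (Polynomial.C a * Polynomial.X ^ (n + 1)).eval z * F z)
        = fun z => z * ((Polynomial.C a * Polynomial.X ^ n).eval z * F z) := by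
      ext z; simp only [Polynomial.eval_mul, Polynomial.eval_C, Polynomial.eval_pow,
        Polynomial.eval_X]; ring
    rw [h1, h.funcalc_X_left hA hV (hS _), ih, ← mul_assoc]
    congr 1
    have h2 : Polynomial.C a * Polynomial.X ^ (n + 1)
        = Polynomial.X * (Polynomial.C a * Polynomial.X ^ n) := by ring
    rw [h2, map_mul _ Polynomial.X _, Polynomial.aeval_X]

/-- multiplication by a polynomial on the right. -/
theorem Ext0.funcalc_poly_right (h : Ext0 φ ρ) (hA : Res φ ρ A) (hV : OnCurve φ V) {F : ℂ → ℂ}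
    (hF : DifferentiableOn ℂ F V) (S : Polynomial ℂ) :
    funcalc φ A (fun z => S.eval z * F z) = funcalc φ A F * Polynomial.aeval A S := by
  have hS : ∀ S : Polynomial ℂ, DifferentiableOn ℂ (fun z => S.eval z * F z) V :=
    fun S => S.differentiable.differentiableOn.mul hF
  induction S using Polynomial.induction_on with
  | C a =>
    simp only [Polynomial.eval_C]
    rw [funcalc_const_mul, Polynomial.aeval_C, Algebra.algebraMap_eq_smul_one, mul_smul_comm,
      mul_one]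
  | add p q hp hq =>
    simp only [Polynomial.eval_add, add_mul, map_add]
    rw [h.funcalc_add hA hV (hS p) (hS q), hp, hq, mul_add]
  | monomial n a ih =>
    have h1 : (fun z => (Polynomial.C a * Polynomial.X ^ (n + 1)).eval z * F z)
        = fun z => z * ((Polynomial.C a * Polynomial.X ^ n).eval z * F z) := by
      ext z; simp only [Polynomial.eval_mul, Polynomial.eval_C, Polynomial.eval_pow,
        Polynomial.eval_X]; ring
    rw [h1, h.funcalc_X_right hA hV (hS _), ih, mul_assoc]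
    congr 1
    have h2 : Polynomial.C a * Polynomial.X ^ (n + 1)
        = (Polynomial.C a * Polynomial.X ^ n) * Polynomial.X := by ring
    rw [h2, map_mul _ _ Polynomial.X, Polynomial.aeval_X]

/-- The functional calculus extends the polynomial one. -/
theorem Ext0.funcalc_aeval (h : Ext0 φ ρ) (hA : Res φ ρ A) (S : Polynomial ℂ) :
    funcalc φ A (fun z => S.eval z) = Polynomial.aeval A S := by
  have hV : OnCurve φ (univ : Set ℂ) := ⟨isOpen_univ, convex_univ, fun _ _ => mem_univ _⟩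
  have := h.funcalc_poly_left hA hV (F := fun _ => 1) (differentiableOn_const _) S
  simpa [h.funcalc_one hA] using this

/-! ### sesquilinear version -/

/-- `r(x,y)(w) = ⟪x, R(w) y⟫`. -/
noncomputable def rr (φ : ℂ → ℂ) (A : H →L[ℂ] H) (x y : H) (w : ℂ) : ℂ := ⟪x, Rz φ A w y⟫_ℂ

theorem Ext0.diff_rr (h : Ext0 φ ρ) (hA : Res φ ρ A) (x y : H) :
    DifferentiableOn ℂ (rr φ A x y) (ball 0 ρ) := by
  have h1 : DifferentiableOn ℂ (fun w => Rz φ A w y) (ball 0 ρ) :=
    (h.diff_Rz hA).clm_apply (differentiableOn_const _)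
  have h2 : DifferentiableOn ℂ (fun w => innerSL ℂ x (Rz φ A w y)) (ball 0 ρ) :=
    (innerSL ℂ x).differentiable.comp_differentiableOn h1
  exact h2

theorem Ext0.rr_zero (h : Ext0 φ ρ) (hA : Res φ ρ A) (x y : H) : rr φ A x y 0 = ⟪x, y⟫_ℂ := by
  unfold rr
  rw [h.Rz_zero hA]; simp

theorem Ext0.continuous_rr (h : Ext0 φ ρ) (hA : Res φ ρ A) (x y : H) :
    Continuous fun θ => rr φ A x y (e θ) :=
  continuous_comp_e h.one_lt (h.diff_rr hA x y)

theorem Ext0.inner_funcalc (h : Ext0 φ ρ) (hA : Res φ ρ A) (hV : OnCurve φ V) {F : ℂ → ℂ}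
    (hF : DifferentiableOn ℂ F V) (x y : H) :
    ⟪x, funcalc φ A F y⟫_ℂ = ∫ θ, F (φ (e θ) / e θ) * rr φ A x y (e θ) ∂nu := by
  have hi := h.integrable_F hA hV hF
  rw [funcalc_eq]
  have h1 : (∫ θ, F (φ (e θ) / e θ) • Rz φ A (e θ) ∂nu) y
      = ∫ θ, F (φ (e θ) / e θ) • Rz φ A (e θ) y ∂nu := by
    have := (ContinuousLinearMap.integral_comp_comm
      (ContinuousLinearMap.apply ℂ H y : (H →L[ℂ] H) →L[ℂ] H) hi).symm
    simpa using this
  have hi2 : Integrable (fun θ => F (φ (e θ) / e θ) • Rz φ A (e θ) y) nu :=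
    integrable_of_continuous ((h.continuous_F hV hF).smul
      ((h.continuous_Rz hA).clm_apply continuous_const))
  rw [h1]
  have h2 := (ContinuousLinearMap.integral_comp_comm (innerSL ℂ x) hi2).symm
  simp only [innerSL_apply_apply, inner_smul_right] at h2
  exact h2

/-- Positivity of the real part of the resolvent. -/
theorem rr_re_nonneg {w : ℂ} (hw : ‖w‖ = 1) (hA : IsUnit (φ w • (1 : H →L[ℂ] H) - w • A))
    (hW : ∀ x : H, ‖x‖ = 1 → 0 ≤ (conj (psi φ w) * (φ w - w * ⟪x, A x⟫_ℂ)).re) (x : H) :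
    0 ≤ (rr φ A x x w).re := by
  unfold rr Rz
  set Q := Ring.inverse (φ w • (1 : H →L[ℂ] H) - w • A) with hQ
  have h1 := Ring.mul_inverse_cancel _ hA
  set u := Q x with hu
  have hx : x = φ w • u - w • A u := by
    have := congrArg (fun T : H →L[ℂ] H => T x) h1
    simpa [← hQ, ← hu] using this.symm
  have h2 : ⟪x, (psi φ w • Q) x⟫_ℂ
      = psi φ w * conj (φ w * ⟪u, u⟫_ℂ - w * ⟪u, A u⟫_ℂ) := by
    have : (psi φ w • Q) x = psi φ w • u := rfl
    rw [this, inner_smul_right]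
    congr 1
    conv_lhs => rw [hx]
    rw [inner_sub_left, inner_smul_left, inner_smul_left, map_sub, map_mul, map_mul,
      inner_conj_symm, inner_conj_symm]
  rw [h2]
  by_cases hu0 : u = 0
  · rw [hu0]; simp
  have hn : 0 < ‖u‖ := norm_pos_iff.2 hu0
  have h3 := hW ((‖u‖⁻¹ : ℂ) • u) (by
    rw [norm_smul, norm_inv, Complex.norm_real, norm_norm, inv_mul_cancel₀ hn.ne'])
  have hnC : (‖u‖ : ℂ) ≠ 0 := by exact_mod_cast hn.ne'
  have h4 : ⟪(‖u‖⁻¹ : ℂ) • u, A ((‖u‖⁻¹ : ℂ) • u)⟫_ℂ = (‖u‖ : ℂ)⁻¹ ^ 2 * ⟪u, A u⟫_ℂ := by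
    rw [map_smul, inner_smul_left, inner_smul_right, map_inv₀, Complex.conj_ofReal]
    ring
  rw [h4] at h3
  have h5 : φ w * ⟪u, u⟫_ℂ - w * ⟪u, A u⟫_ℂ
      = ((‖u‖ ^ 2 : ℝ) : ℂ) * (φ w - w * ((‖u‖ : ℂ)⁻¹ ^ 2 * ⟪u, A u⟫_ℂ)) := by
    have hin : ⟪u, u⟫_ℂ = ((‖u‖ ^ 2 : ℝ) : ℂ) := by
      rw [inner_self_eq_norm_sq_to_K]; norm_cast
    rw [hin]
    push_cast
    field_simp
  rw [h5]
  have h6 : psi φ w * conj (((‖u‖ ^ 2 : ℝ) : ℂ) * (φ w - w * ((‖u‖ : ℂ)⁻¹ ^ 2 * ⟪u, A u⟫_ℂ)))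
      = ((‖u‖ ^ 2 : ℝ) : ℂ) *
        conj (conj (psi φ w) * (φ w - w * ((‖u‖ : ℂ)⁻¹ ^ 2 * ⟪u, A u⟫_ℂ))) := by
    rw [map_mul, map_mul, Complex.conj_ofReal, Complex.conj_conj]; ring
  rw [h6, Complex.re_ofReal_mul, Complex.conj_re]
  positivity

end Crest.Agent.R132
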