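import Crest.Agent.R132.Avg
import Crest.Agent.R132.Resolvent
import Crest.Agent.Lib.InjHolo

-- ▼ part R132/Gram
section

/-!
Frobenius norms of blocks of a positive semidefinite matrix, and `L²` Cauchy–Schwarz.
-/

namespace Crest.Agent.R132

open Complex MeasureTheory Metric Set Filter Topology
open scoped Real ComplexConjugate

/-- finite Cauchy–Schwarz for complex sums. -/
theorem norm_sum_mul_sq_le {α : Type*} [Fintype α] (a b : α → ℂ) :
    ‖∑ p, a p * b p‖ ^ 2 ≤ (∑ p, ‖a p‖ ^ 2) * ∑ p, ‖b p‖ ^ 2 := by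
  have h1 : ‖∑ p, a p * b p‖ ≤ ∑ p, ‖a p‖ * ‖b p‖ := by
    refine (norm_sum_le _ _).trans (le_of_eq ?_)
    simp only [norm_mul]
  calc ‖∑ p, a p * b p‖ ^ 2 ≤ (∑ p, ‖a p‖ * ‖b p‖) ^ 2 :=
        pow_le_pow_left₀ (norm_nonneg _) h1 2
    _ ≤ _ := Finset.sum_mul_sq_le_sq_mul_sq _ _ _

/-- squared Frobenius norm. -/
noncomputable def fro {m n : Type*} [Fintype m] [Fintype n] (M : Matrix m n ℂ) : ℝ :=
  ∑ p : m × n, ‖M p.1 p.2‖ ^ 2

open Matrix in
theorem trace_conjTranspose_mul_self_eq {m n : Type*} [Fintype m] [Fintype n] (M : Matrix m n ℂ) :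
    (Mᴴ * M).trace = (fro M : ℂ) := by
  simp only [Matrix.trace, Matrix.diag, Matrix.mul_apply, Matrix.conjTranspose_apply, fro]
  rw [Fintype.sum_prod_type, Finset.sum_comm]
  push_cast
  apply Finset.sum_congr rfl; intro i _
  apply Finset.sum_congr rfl; intro j _
  have := Complex.mul_conj (M i j)
  rw [Complex.normSq_eq_norm_sq] at this
  rw [mul_comm]
  push_cast at this
  exact this

open Matrix in
theorem norm_trace_mul_sq_le {m n : Type*} [Fintype m] [Fintype n] (M : Matrix m n ℂ)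
    (N : Matrix n m ℂ) : ‖(M * N).trace‖ ^ 2 ≤ fro M * fro N := by
  have h1 : (M * N).trace = ∑ p : m × n, M p.1 p.2 * N p.2 p.1 := by
    simp only [Matrix.trace, Matrix.diag, Matrix.mul_apply]
    rw [Fintype.sum_prod_type]
  rw [h1]
  refine (norm_sum_mul_sq_le _ _).trans (le_of_eq ?_)
  unfold fro
  congr 1
  rw [Fintype.sum_prod_type, Fintype.sum_prod_type, Finset.sum_comm]

open Matrix in
open scoped ComplexOrder MatrixOrder in
/-- The block inequality. -/
theorem gram_block {m : Type*} [Fintype m] [DecidableEq m] {G : Matrix (m ⊕ m) (m ⊕ m) ℂ}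
    (hG : G.PosSemidef) :
    (∑ p : m × m, ‖G (Sum.inl p.1) (Sum.inr p.2)‖ ^ 2) ^ 2
      ≤ (∑ p : m × m, ‖G (Sum.inl p.1) (Sum.inl p.2)‖ ^ 2)
        * (∑ p : m × m, ‖G (Sum.inr p.1) (Sum.inr p.2)‖ ^ 2) := by
  obtain ⟨B, hB⟩ : ∃ B : Matrix (m ⊕ m) (m ⊕ m) ℂ, G = Bᴴ * B := by
    refine ⟨CFC.sqrt G, ?_⟩
    have h1 : (CFC.sqrt G)ᴴ = CFC.sqrt G := (CFC.sqrt_nonneg G).posSemidef.isHermitian
    rw [h1, CFC.sqrt_mul_sqrt_self G hG.nonneg]
  set X : Matrix (m ⊕ m) m ℂ := B.submatrix id Sum.inl with hX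
  set Y : Matrix (m ⊕ m) m ℂ := B.submatrix id Sum.inr with hY
  have e1 : ∑ p : m × m, ‖G (Sum.inl p.1) (Sum.inr p.2)‖ ^ 2 = fro (Xᴴ * Y) := by
    unfold fro
    apply Finset.sum_congr rfl; intro p _
    rw [hB]; rfl
  have e2 : ∑ p : m × m, ‖G (Sum.inl p.1) (Sum.inl p.2)‖ ^ 2 = fro (Xᴴ * X) := by
    unfold fro
    apply Finset.sum_congr rfl; intro p _
    rw [hB]; rfl
  have e3 : ∑ p : m × m, ‖G (Sum.inr p.1) (Sum.inr p.2)‖ ^ 2 = fro (Yᴴ * Y) := by
    unfold fro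
    apply Finset.sum_congr rfl; intro p _
    rw [hB]; rfl
  rw [e1, e2, e3]
  have swap : ∀ Z : Matrix (m ⊕ m) m ℂ, fro (Z * Zᴴ) = fro (Zᴴ * Z) := by
    intro Z
    have h1 := trace_conjTranspose_mul_self_eq (Z * Zᴴ)
    have h2 := trace_conjTranspose_mul_self_eq (Zᴴ * Z)
    rw [conjTranspose_mul, conjTranspose_conjTranspose] at h1 h2
    have h3 : (Z * Zᴴ * (Z * Zᴴ)).trace = (Zᴴ * Z * (Zᴴ * Z)).trace := by
      rw [Matrix.mul_assoc, Matrix.trace_mul_comm]
      simp only [Matrix.mul_assoc]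
    rw [h3, h2] at h1
    exact_mod_cast h1.symm
  have h4 : (fro (Xᴴ * Y) : ℂ) = ((X * Xᴴ) * (Y * Yᴴ)).trace := by
    rw [← trace_conjTranspose_mul_self_eq, conjTranspose_mul, conjTranspose_conjTranspose]
    rw [Matrix.mul_assoc, Matrix.trace_mul_comm]
    simp only [Matrix.mul_assoc]
  have h5 := norm_trace_mul_sq_le (X * Xᴴ) (Y * Yᴴ)
  rw [← h4, swap, swap, Complex.norm_real, Real.norm_eq_abs, sq_abs] at h5
  exact h5

/-- real `L²` Cauchy–Schwarz on the circle. -/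
theorem integral_mul_sq_le {α β : ℝ → ℝ} (hα : Continuous α) (hβ : Continuous β) :
    (∫ θ, α θ * β θ ∂nu) ^ 2 ≤ (∫ θ, α θ ^ 2 ∂nu) * ∫ θ, β θ ^ 2 ∂nu := by
  have i1 : Integrable (fun θ => α θ ^ 2) nu := integrable_of_continuous (hα.pow 2)
  have i2 : Integrable (fun θ => β θ ^ 2) nu := integrable_of_continuous (hβ.pow 2)
  have i3 : Integrable (fun θ => α θ * β θ) nu := integrable_of_continuous (hα.mul hβ)
  have key : ∀ t : ℝ, 0 ≤ (∫ θ, α θ ^ 2 ∂nu) * (t * t) + (-(2 * ∫ θ, α θ * β θ ∂nu)) * t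
      + ∫ θ, β θ ^ 2 ∂nu := by
    intro t
    have h1 : 0 ≤ ∫ θ, (t * α θ - β θ) ^ 2 ∂nu := integral_nonneg fun θ => sq_nonneg _
    have h2 : ∀ θ, (t * α θ - β θ) ^ 2 = (t * t) * α θ ^ 2 - (2 * t) * (α θ * β θ) + β θ ^ 2 := by
      intro θ; ring
    have j1 : Integrable (fun θ => (t * t) * α θ ^ 2) nu := i1.const_mul _
    have j2 : Integrable (fun θ => (2 * t) * (α θ * β θ)) nu := i3.const_mul _
    have j3 : Integrable (fun θ => (t * t) * α θ ^ 2 - (2 * t) * (α θ * β θ)) nu := j1.sub j2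
    rw [integral_congr_ae (Eventually.of_forall h2), integral_add j3 i2, integral_sub j1 j2,
      integral_const_mul, integral_const_mul] at h1
    linarith
  have := discrim_le_zero key
  unfold discrim at this
  nlinarith

/-- `L²` Cauchy–Schwarz for finite families of continuous complex functions. -/
theorem norm_integral_sum_sq_le {α : Type*} [Fintype α] {a b : α → ℝ → ℂ}
    (ha : ∀ p, Continuous (a p)) (hb : ∀ p, Continuous (b p)) :
    ‖∫ θ, ∑ p, a p θ * b p θ ∂nu‖ ^ 2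
      ≤ (∫ θ, ∑ p, ‖a p θ‖ ^ 2 ∂nu) * ∫ θ, ∑ p, ‖b p θ‖ ^ 2 ∂nu := by
  have hcA : Continuous fun θ => ∑ p, ‖a p θ‖ ^ 2 :=
    continuous_finsetSum _ fun p _ => (ha p).norm.pow 2
  have hcB : Continuous fun θ => ∑ p, ‖b p θ‖ ^ 2 :=
    continuous_finsetSum _ fun p _ => (hb p).norm.pow 2
  have hcs : Continuous fun θ => ∑ p, a p θ * b p θ :=
    continuous_finsetSum _ fun p _ => (ha p).mul (hb p)
  have h1 : ‖∫ θ, ∑ p, a p θ * b p θ ∂nu‖
      ≤ ∫ θ, Real.sqrt (∑ p, ‖a p θ‖ ^ 2) * Real.sqrt (∑ p, ‖b p θ‖ ^ 2) ∂nu := by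
    refine (norm_integral_le_integral_norm _).trans ?_
    apply integral_mono (integrable_of_continuous hcs.norm)
      (integrable_of_continuous (hcA.sqrt.mul hcB.sqrt))
    intro θ
    show ‖∑ p, a p θ * b p θ‖ ≤ √(∑ p, ‖a p θ‖ ^ 2) * √(∑ p, ‖b p θ‖ ^ 2)
    rw [← Real.sqrt_mul (Finset.sum_nonneg fun p _ => sq_nonneg _)]
    exact Real.le_sqrt_of_sq_le (norm_sum_mul_sq_le _ _)
  have h2 := integral_mul_sq_le hcA.sqrt hcB.sqrt
  have h3 : ∀ f : ℝ → ℝ, (∀ θ, 0 ≤ f θ) → (fun θ => Real.sqrt (f θ) ^ 2) = f :=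
    fun f hf => by ext θ; exact Real.sq_sqrt (hf θ)
  rw [h3 (fun θ => ∑ p, ‖a p θ‖ ^ 2) (fun θ => Finset.sum_nonneg fun p _ => sq_nonneg _),
    h3 (fun θ => ∑ p, ‖b p θ‖ ^ 2) (fun θ => Finset.sum_nonneg fun p _ => sq_nonneg _)] at h2
  exact (pow_le_pow_left₀ (norm_nonneg _) h1 2).trans h2

end Crest.Agent.R132
end

-- ▼ part R132/Test
section

/-!
The norm inequality `‖X_p‖ ≤ ‖p‖` for Hermitian matrix valued trigonometric polynomials `p`.
-/

namespace Crest.Agent.R132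

open Complex MeasureTheory Metric Set Filter Topology
open scoped Real ComplexConjugate

variable {φ : ℂ → ℂ} {ρ : ℝ}

/-- The Hermitian trigonometric polynomial attached to a matrix of polynomials. -/
noncomputable def pp {ι : Type*} (T : ι → ι → Polynomial ℂ) (i j : ι) (u : ℂ) : ℂ :=
  ((T j i).eval u + conj ((T i j).eval u)) / 2

theorem conj_pp {ι : Type*} (T : ι → ι → Polynomial ℂ) (i j : ι) (u : ℂ) :
    conj (pp T i j u) = pp T j i u := by
  unfold pp
  rw [map_div₀, map_add, Complex.conj_conj, map_ofNat, add_comm]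

theorem continuous_poly (T : Polynomial ℂ) : Continuous fun θ => T.eval (e θ) :=
  T.continuous.comp continuous_e

theorem continuous_pp {ι : Type*} (T : ι → ι → Polynomial ℂ) (i j : ι) :
    Continuous fun θ => pp T i j (e θ) := by
  unfold pp
  exact ((continuous_poly _).add (Complex.continuous_conj.comp (continuous_poly _))).div_const _

theorem integral_sum_cont {α F : Type*} [Fintype α] [NormedAddCommGroup F] [NormedSpace ℝ F]
    (f : α → ℝ → F) (hf : ∀ p, Continuous (f p)) :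
    ∫ θ, ∑ p, f p θ ∂nu = ∑ p, ∫ θ, f p θ ∂nu :=
  integral_finsetSum _ (fun p _ => integrable_of_continuous (hf p))

/-- pointwise algebraic identity behind `avg |X|² = (avg |p|² + avg |Np|²)/2`. -/
theorem pointwise_identity {ι : Type*} [Fintype ι] (a b : ι → ι → ℂ)
    (ha : ∀ i j, conj (a i j) = a j i) :
    ∑ p : ι × ι, ‖a p.1 p.2 + b p.1 p.2‖ ^ 2
      = (∑ p : ι × ι, ‖a p.1 p.2‖ ^ 2) / 2
        + (∑ p : ι × ι, ‖a p.1 p.2 + b p.1 p.2 + conj (b p.2 p.1)‖ ^ 2) / 2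
        - ∑ p : ι × ι, (b p.1 p.2 * b p.2 p.1).re := by
  set f : ι × ι → ℝ := fun p => ‖b p.1 p.2‖ ^ 2 + 2 * (conj (a p.1 p.2) * b p.1 p.2).re with hf
  have h1 : ∀ p : ι × ι, ‖a p.1 p.2 + b p.1 p.2‖ ^ 2
      = ‖a p.1 p.2‖ ^ 2 / 2 + ‖a p.1 p.2 + b p.1 p.2 + conj (b p.2 p.1)‖ ^ 2 / 2
        - (b p.1 p.2 * b p.2 p.1).re + (f p - f p.swap) / 2 := by
    intro p
    simp only [hf, Prod.fst_swap, Prod.snd_swap]
    rw [← ha p.1 p.2, Complex.conj_conj]
    simp only [← Complex.normSq_eq_norm_sq, Complex.normSq_apply, Complex.add_re, Complex.add_im,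
      Complex.mul_re, Complex.conj_re, Complex.conj_im]
    ring
  have h2 : ∑ p : ι × ι, f p.swap = ∑ p : ι × ι, f p :=
    Equiv.sum_comp (Equiv.prodComm ι ι) f
  rw [Finset.sum_congr rfl fun p _ => h1 p, Finset.sum_add_distrib, Finset.sum_sub_distrib,
    Finset.sum_add_distrib, ← Finset.sum_div, ← Finset.sum_div, ← Finset.sum_div,
    Finset.sum_sub_distrib, h2]
  ring

/-- Existence of the test polynomials with the `L²` bound. -/
theorem Ext.test_norm (h : Ext φ ρ) {ι : Type*} [Fintype ι] (T : ι → ι → Polynomial ℂ) :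
    ∃ (X : ι → ι → Polynomial ℂ) (E : ι → ι → ℂ → ℂ),
      (∀ i j, DifferentiableOn ℂ (E i j) (ball 0 ρ)) ∧ (∀ i j, E i j 0 = 0) ∧
      (∀ i j u, ‖u‖ = 1 → (X i j).eval (φ u / u) = pp T i j u + E i j u) ∧
      ∫ θ, ∑ p : ι × ι, ‖(X p.1 p.2).eval (φ (e θ) / e θ)‖ ^ 2 ∂nu
        ≤ ∫ θ, ∑ p : ι × ι, ‖pp T p.1 p.2 (e θ)‖ ^ 2 ∂nu := by
  classical
  choose S E0 hE0d hE00 hS using fun i j => h.faber (T i j)
  have h0b : (0 : ℂ) ∈ ball (0 : ℂ) ρ := by simpa using lt_trans one_pos h.one_lt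
  have hTd : ∀ i j, DifferentiableOn ℂ (fun u => (T i j).eval u) (ball 0 ρ) :=
    fun i j => (T i j).differentiable.differentiableOn
  set X : ι → ι → Polynomial ℂ := fun i j =>
    Polynomial.C (1 / 2 : ℂ) * (Polynomial.C ((T j i).eval 0) + S i j) with hX
  set E : ι → ι → ℂ → ℂ := fun i j u => ((T j i).eval 0 - (T j i).eval u + E0 i j u) / 2 with hE
  have hEd : ∀ i j, DifferentiableOn ℂ (E i j) (ball 0 ρ) := fun i j =>
    (((differentiableOn_const _).sub (hTd j i)).add (hE0d i j)).div_const _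
  have hE_0 : ∀ i j, E i j 0 = 0 := fun i j => by simp [hE, hE00]
  have hXE : ∀ i j u, ‖u‖ = 1 → (X i j).eval (φ u / u) = pp T i j u + E i j u := by
    intro i j u hu
    simp only [hX, hE, pp, Polynomial.eval_mul, Polynomial.eval_C, Polynomial.eval_add,
      hS i j u hu]
    ring
  refine ⟨X, E, hEd, hE_0, hXE, ?_⟩
  have hEc : ∀ i j, Continuous fun θ => E i j (e θ) := fun i j => continuous_comp_e h.one_lt (hEd i j)
  have hpc := continuous_pp T
  -- the double layer potential of `pp`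
  set q : ι → ι → ℝ → ℂ := fun i j τ =>
    pp T i j (e τ) + E i j (e τ) + conj (E j i (e τ)) with hq
  have hqc : ∀ i j, Continuous (q i j) := fun i j =>
    ((hpc i j).add (hEc i j)).add (Complex.continuous_conj.comp (hEc j i))
  have hqN : ∀ i j τ, q i j τ = ∫ θ, pp T i j (e θ) * (mu φ (e θ) (e τ) : ℂ) ∂nu := by
    intro i j τ
    have hmuC : Integrable (fun θ => (mu φ (e θ) (e τ) : ℂ)) nu := (h.integrable_mu (norm_e τ)).ofReal
    have a1 := h.conj_mu (T := fun u => (T i j).eval u) (hTd i j) (hE0d i j) (hE00 i j)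
      (hS i j) (norm_e τ)
    have a2 := h.conj_mu (T := fun u => (T j i).eval u) (hTd j i) (hE0d j i) (hE00 j i)
      (hS j i) (norm_e τ)
    have a3 : ∫ θ, (T j i).eval (e θ) * (mu φ (e θ) (e τ) : ℂ) ∂nu
        = (T j i).eval 0 + conj (E0 j i (e τ)) := by
      have := congrArg conj a2
      rw [← integral_conj, map_add, Complex.conj_conj] at this
      rw [← this]
      congr 1; ext θ
      rw [map_mul, Complex.conj_conj, Complex.conj_ofReal]
    have hcm : Continuous fun θ => (1 : ℝ) + 2 * (LL φ (e τ) (e θ)).re :=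
      continuous_const.add (continuous_const.mul (Complex.continuous_re.comp
        (h.continuous_LL (norm_e τ))))
    have hint : ∀ f : ℝ → ℂ, Continuous f →
        Integrable (fun θ => f θ * (mu φ (e θ) (e τ) : ℂ)) nu := by
      intro f hf
      have : (fun θ => f θ * (mu φ (e θ) (e τ) : ℂ)) =ᵐ[nu]
          fun θ => f θ * ((1 + 2 * (LL φ (e τ) (e θ)).re : ℝ) : ℂ) := by
        filter_upwards [h.mu_ae (norm_e τ)] with θ hθ
        rw [hθ]
      rw [integrable_congr this]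
      exact integrable_of_continuous (hf.mul (Complex.continuous_ofReal.comp hcm))
    have i1 := hint (fun θ => (T j i).eval (e θ)) (continuous_poly _)
    have i2 := hint (fun θ => conj ((T i j).eval (e θ)))
      (Complex.continuous_conj.comp (continuous_poly _))
    have a4 : ∀ θ, pp T i j (e θ) * (mu φ (e θ) (e τ) : ℂ)
        = (1 / 2 : ℂ) * ((T j i).eval (e θ) * (mu φ (e θ) (e τ) : ℂ)
          + conj ((T i j).eval (e θ)) * (mu φ (e θ) (e τ) : ℂ)) := by
      intro θ; unfold pp; ring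
    rw [integral_congr_ae (Eventually.of_forall a4), integral_const_mul, integral_add i1 i2, a3, a1]
    simp only [hq, hE, pp, map_div₀, map_add, map_sub, map_ofNat]
    ring
  have hcontr : ∀ i j, ∫ τ, ‖q i j τ‖ ^ 2 ∂nu ≤ ∫ θ, ‖pp T i j (e θ)‖ ^ 2 ∂nu :=
    fun i j => h.contraction (hpc i j) (hqc i j) (hqN i j)
  -- pointwise identity
  have hpt : ∀ θ, ∑ p : ι × ι, ‖(X p.1 p.2).eval (φ (e θ) / e θ)‖ ^ 2
      = (∑ p : ι × ι, ‖pp T p.1 p.2 (e θ)‖ ^ 2) / 2
        + (∑ p : ι × ι, ‖q p.1 p.2 θ‖ ^ 2) / 2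
        - ∑ p : ι × ι, (E p.1 p.2 (e θ) * E p.2 p.1 (e θ)).re := by
    intro θ
    rw [← pointwise_identity (fun i j => pp T i j (e θ)) (fun i j => E i j (e θ))
      (fun i j => conj_pp T i j _)]
    apply Finset.sum_congr rfl
    intro p _
    rw [hXE _ _ _ (norm_e θ)]
  have j1 : Integrable (fun θ => ∑ p : ι × ι, ‖pp T p.1 p.2 (e θ)‖ ^ 2) nu :=
    integrable_of_continuous (continuous_finsetSum _ fun p _ => (hpc _ _).norm.pow 2)
  have j2 : Integrable (fun θ => ∑ p : ι × ι, ‖q p.1 p.2 θ‖ ^ 2) nu :=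
    integrable_of_continuous (continuous_finsetSum _ fun p _ => (hqc _ _).norm.pow 2)
  have j3 : Integrable (fun θ => ∑ p : ι × ι, (E p.1 p.2 (e θ) * E p.2 p.1 (e θ)).re) nu :=
    integrable_of_continuous (continuous_finsetSum _ fun p _ =>
      Complex.continuous_re.comp ((hEc _ _).mul (hEc _ _)))
  have j4 : Integrable (fun θ => (∑ p : ι × ι, ‖pp T p.1 p.2 (e θ)‖ ^ 2) / 2
        + (∑ p : ι × ι, ‖q p.1 p.2 θ‖ ^ 2) / 2) nu := (j1.div_const 2).add (j2.div_const 2)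
  rw [integral_congr_ae (Eventually.of_forall hpt), integral_sub j4 j3,
    integral_add (j1.div_const 2) (j2.div_const 2), integral_div, integral_div]
  have hz : ∫ θ, ∑ p : ι × ι, (E p.1 p.2 (e θ) * E p.2 p.1 (e θ)).re ∂nu = 0 := by
    rw [integral_sum_cont (fun (p : ι × ι) θ => (E p.1 p.2 (e θ) * E p.2 p.1 (e θ)).re)
      (fun p => Complex.continuous_re.comp ((hEc _ _).mul (hEc _ _)))]
    apply Finset.sum_eq_zero
    intro p _
    have hi : Integrable (fun θ => E p.1 p.2 (e θ) * E p.2 p.1 (e θ)) nu :=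
      integrable_of_continuous ((hEc _ _).mul (hEc _ _))
    have := integral_re hi
    rw [mean_value h.one_lt (h := fun u => E p.1 p.2 u * E p.2 p.1 u)
      ((hEd _ _).mul (hEd _ _)), hE_0] at this
    simpa using this
  have hq2 : ∫ θ, ∑ p : ι × ι, ‖q p.1 p.2 θ‖ ^ 2 ∂nu
      ≤ ∫ θ, ∑ p : ι × ι, ‖pp T p.1 p.2 (e θ)‖ ^ 2 ∂nu := by
    rw [integral_sum_cont (fun (p : ι × ι) θ => ‖q p.1 p.2 θ‖ ^ 2) (fun p => (hqc _ _).norm.pow 2),
      integral_sum_cont (fun (p : ι × ι) θ => ‖pp T p.1 p.2 (e θ)‖ ^ 2)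
        (fun p => (hpc _ _).norm.pow 2)]
    exact Finset.sum_le_sum fun p _ => hcontr _ _
  rw [hz]
  linarith

end Crest.Agent.R132
end

-- ▼ part R132/Main
section

/-!
The four `L²` inequalities of the proof (steps (1)–(5)).
-/

namespace Crest.Agent.R132

open Complex MeasureTheory Metric Set Filter Topology
open scoped Real ComplexConjugate InnerProductSpace

variable {φ : ℂ → ℂ} {ρ : ℝ}
variable {H : Type*} [NormedAddCommGroup H] [InnerProductSpace ℂ H] [CompleteSpace H]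
variable {A : H →L[ℂ] H} {V : Set ℂ}
variable {ι : Type*} [Fintype ι]

set_option linter.unusedSectionVars false

/-- uniform approximation on the circle by Taylor polynomials. -/
theorem exists_poly_approx (hρ : 1 < ρ) {f : ℂ → ℂ} (hf : DifferentiableOn ℂ f (ball 0 ρ))
    {ε : ℝ} (hε : 0 < ε) : ∃ T : Polynomial ℂ, ∀ u : ℂ, ‖u‖ = 1 → ‖T.eval u - f u‖ ≤ ε := by
  obtain ⟨R, hR1, hR2⟩ := exists_between hρ
  obtain ⟨r, hr1, hr2⟩ := exists_between hR1
  have hR0 : 0 < R := by linarith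
  have hr0 : 0 < r := by linarith
  lift R to NNReal using hR0.le
  lift r to NNReal using hr0.le
  have hd : DifferentiableOn ℂ f (closedBall 0 R) := hf.mono (closedBall_subset_ball hR2)
  have hp := hd.hasFPowerSeriesOnBall (by exact_mod_cast hR0)
  have hu := hp.tendstoUniformlyOn (r' := r) (by exact_mod_cast hr2)
  rw [Metric.tendstoUniformlyOn_iff] at hu
  obtain ⟨n, hn⟩ := (hu ε hε).exists
  refine ⟨∑ k ∈ Finset.range n, Polynomial.C ((cauchyPowerSeries f 0 R).coeff k) * Polynomial.X ^ k,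
    fun u hu1 => ?_⟩
  have h1 := hn u (by simpa [hu1] using hr1)
  rw [zero_add, dist_eq_norm, norm_sub_rev] at h1
  have h2 : (cauchyPowerSeries f 0 R).partialSum n u
      = (∑ k ∈ Finset.range n, Polynomial.C ((cauchyPowerSeries f 0 R).coeff k) *
        Polynomial.X ^ k).eval u := by
    rw [FormalMultilinearSeries.partialSum, Polynomial.eval_finsetSum]
    apply Finset.sum_congr rfl
    intro k _
    rw [FormalMultilinearSeries.apply_eq_pow_smul_coeff, smul_eq_mul, Polynomial.eval_mul,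
      Polynomial.eval_C, Polynomial.eval_pow, Polynomial.eval_X, mul_comm]
  rw [← h2]
  exact h1.le

/-- the Hermitian part of the resolvent form. -/
noncomputable def kk (φ : ℂ → ℂ) (A : H →L[ℂ] H) (x y : H) (w : ℂ) : ℂ :=
  (rr φ A x y w + conj (rr φ A y x w)) / 2

theorem conj_kk (x y : H) (w : ℂ) : conj (kk φ A x y w) = kk φ A y x w := by
  unfold kk
  rw [map_div₀, map_add, Complex.conj_conj, map_ofNat, add_comm]

theorem Ext0.continuous_kk (h : Ext0 φ ρ) (hA : Res φ ρ A) (x y : H) :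
    Continuous fun θ => kk φ A x y (e θ) := by
  unfold kk
  exact ((h.continuous_rr hA x y).add
    (Complex.continuous_conj.comp (h.continuous_rr hA y x))).div_const _

/-- `‖·‖²` of the Gram-type matrix function of two families. -/
noncomputable def KK (φ : ℂ → ℂ) (A : H →L[ℂ] H) (x y : ι → H) : ℝ :=
  ∫ θ, ∑ p : ι × ι, ‖kk φ A (x p.1) (y p.2) (e θ)‖ ^ 2 ∂nu

noncomputable def MM (φ : ℂ → ℂ) (A : H →L[ℂ] H) (x y : ι → H) : ℝ :=
  ∫ θ, ∑ p : ι × ι, ‖rr φ A (x p.1) (y p.2) (e θ)‖ ^ 2 ∂nu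

theorem KK_nonneg (x y : ι → H) : 0 ≤ KK φ A x y :=
  integral_nonneg fun _ => Finset.sum_nonneg fun _ _ => sq_nonneg _

theorem MM_nonneg (x y : ι → H) : 0 ≤ MM φ A x y :=
  integral_nonneg fun _ => Finset.sum_nonneg fun _ _ => sq_nonneg _

/-- Step (2). -/
theorem Ext0.MM_le (h : Ext0 φ ρ) (hA : Res φ ρ A) (x y : ι → H) :
    MM φ A x y ≤ 4 * KK φ A x y := by
  have hM := fun p : ι × ι => h.continuous_rr hA (x p.1) (y p.2)
  have hM' := fun p : ι × ι => h.continuous_rr hA (y p.2) (x p.1)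
  have h1 : ∀ θ, 4 * ∑ p : ι × ι, ‖kk φ A (x p.1) (y p.2) (e θ)‖ ^ 2
      = ∑ p : ι × ι, ‖rr φ A (x p.1) (y p.2) (e θ)‖ ^ 2
        + ∑ p : ι × ι, ‖rr φ A (y p.2) (x p.1) (e θ)‖ ^ 2
        + 2 * ∑ p : ι × ι, (rr φ A (x p.1) (y p.2) (e θ) * rr φ A (y p.2) (x p.1) (e θ)).re := by
    intro θ
    rw [Finset.mul_sum, Finset.mul_sum, ← Finset.sum_add_distrib, ← Finset.sum_add_distrib]
    apply Finset.sum_congr rfl
    intro p _
    unfold kk
    rw [norm_div, div_pow]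
    simp only [← Complex.normSq_eq_norm_sq, Complex.normSq_apply, Complex.add_re, Complex.add_im,
      Complex.mul_re, Complex.conj_re, Complex.conj_im]
    norm_num
    ring
  have j1 : Integrable (fun θ => ∑ p : ι × ι, ‖rr φ A (x p.1) (y p.2) (e θ)‖ ^ 2) nu :=
    integrable_of_continuous (continuous_finsetSum _ fun p _ => (hM p).norm.pow 2)
  have j2 : Integrable (fun θ => ∑ p : ι × ι, ‖rr φ A (y p.2) (x p.1) (e θ)‖ ^ 2) nu :=
    integrable_of_continuous (continuous_finsetSum _ fun p _ => (hM' p).norm.pow 2)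
  have hre : ∀ p : ι × ι, Continuous fun θ =>
      (rr φ A (x p.1) (y p.2) (e θ) * rr φ A (y p.2) (x p.1) (e θ)).re :=
    fun p => Complex.continuous_re.comp ((hM p).mul (hM' p))
  have j3 : Integrable (fun θ => 2 * ∑ p : ι × ι,
      (rr φ A (x p.1) (y p.2) (e θ) * rr φ A (y p.2) (x p.1) (e θ)).re) nu :=
    integrable_of_continuous (continuous_const.mul (continuous_finsetSum _ fun p _ => hre p))
  have j12 : Integrable (fun θ => ∑ p : ι × ι, ‖rr φ A (x p.1) (y p.2) (e θ)‖ ^ 2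
        + ∑ p : ι × ι, ‖rr φ A (y p.2) (x p.1) (e θ)‖ ^ 2) nu := j1.add j2
  unfold KK MM
  rw [← integral_const_mul, integral_congr_ae (Eventually.of_forall h1), integral_add j12 j3,
    integral_add j1 j2, integral_const_mul, integral_sum_cont (fun (p : ι × ι) θ =>
      (rr φ A (x p.1) (y p.2) (e θ) * rr φ A (y p.2) (x p.1) (e θ)).re) hre]
  have h2 : ∀ p : ι × ι,
      0 ≤ ∫ θ, (rr φ A (x p.1) (y p.2) (e θ) * rr φ A (y p.2) (x p.1) (e θ)).re ∂nu := by
    intro p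
    have hi : Integrable (fun θ => rr φ A (x p.1) (y p.2) (e θ) * rr φ A (y p.2) (x p.1) (e θ)) nu :=
      integrable_of_continuous ((hM p).mul (hM' p))
    have h3 := integral_re hi
    rw [mean_value h.one_lt (h := fun u => rr φ A (x p.1) (y p.2) u * rr φ A (y p.2) (x p.1) u)
      ((h.diff_rr hA _ _).mul (h.diff_rr hA _ _)), h.rr_zero hA, h.rr_zero hA] at h3
    have h4 : (⟪x p.1, y p.2⟫_ℂ * ⟪y p.2, x p.1⟫_ℂ).re = ‖⟪x p.1, y p.2⟫_ℂ‖ ^ 2 := by
      rw [← inner_conj_symm (y p.2) (x p.1), Complex.mul_conj, Complex.ofReal_re,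
        Complex.normSq_eq_norm_sq]
    have h5 : ∫ θ, (rr φ A (x p.1) (y p.2) (e θ) * rr φ A (y p.2) (x p.1) (e θ)).re ∂nu
        = ‖⟪x p.1, y p.2⟫_ℂ‖ ^ 2 := by
      rw [← h4]; exact h3
    rw [h5]; positivity
  have h6 : 0 ≤ ∫ θ, ∑ p : ι × ι, ‖rr φ A (y p.2) (x p.1) (e θ)‖ ^ 2 ∂nu :=
    integral_nonneg fun _ => Finset.sum_nonneg fun _ _ => sq_nonneg _
  have h7 := Finset.sum_nonneg (s := Finset.univ) (fun p (_ : p ∈ Finset.univ) => h2 p)
  linarith

/-- additivity of `rr`. -/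
theorem rr_sum_left {α : Type*} [Fintype α] (c : α → ℂ) (v : α → H) (y : H) (w : ℂ) :
    rr φ A (∑ a, c a • v a) y w = ∑ a, conj (c a) * rr φ A (v a) y w := by
  unfold rr
  rw [sum_inner]
  simp only [inner_smul_left]

theorem rr_sum_right {α : Type*} [Fintype α] (c : α → ℂ) (v : α → H) (y : H) (w : ℂ) :
    rr φ A y (∑ a, c a • v a) w = ∑ a, c a * rr φ A y (v a) w := by
  unfold rr
  rw [map_sum, inner_sum]
  simp only [map_smul, inner_smul_right]

open scoped ComplexOrder in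
open Matrix in
/-- The Gram matrix of `kk` is positive semidefinite. -/
theorem kk_posSemidef {α : Type*} [Fintype α] (v : α → H) {w : ℂ}
    (hpos : ∀ x : H, 0 ≤ (rr φ A x x w).re) :
    (Matrix.of fun a b => kk φ A (v a) (v b) w : Matrix α α ℂ).PosSemidef := by
  apply Matrix.PosSemidef.of_dotProduct_mulVec_nonneg
  · ext a b
    simp only [Matrix.conjTranspose_apply, Matrix.of_apply]
    exact conj_kk _ _ _
  · intro c
    set u : H := ∑ a, c a • v a with hu
    have h1 : star c ⬝ᵥ ((Matrix.of fun a b => kk φ A (v a) (v b) w : Matrix α α ℂ) *ᵥ c)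
        = ((rr φ A u u w).re : ℂ) := by
      have h2 : (((rr φ A u u w).re : ℝ) : ℂ) = (rr φ A u u w + conj (rr φ A u u w)) / 2 := by
        rw [Complex.add_conj]; push_cast; ring
      rw [h2]
      have h3 : rr φ A u u w = ∑ a, ∑ b, conj (c a) * (c b * rr φ A (v a) (v b) w) := by
        rw [hu, rr_sum_left]
        apply Finset.sum_congr rfl
        intro a _
        rw [rr_sum_right, Finset.mul_sum]
      have h4 : conj (rr φ A u u w) = ∑ a, ∑ b, conj (c a) * (c b * conj (rr φ A (v b) (v a) w)) := by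
        rw [h3, map_sum]
        simp only [map_sum]
        rw [Finset.sum_comm]
        apply Finset.sum_congr rfl; intro a _
        apply Finset.sum_congr rfl; intro b _
        rw [map_mul, map_mul, Complex.conj_conj]; ring
      rw [h4, h3, ← Finset.sum_add_distrib, Finset.sum_div]
      simp only [dotProduct, mulVec, Matrix.of_apply, Pi.star_apply, Finset.mul_sum]
      apply Finset.sum_congr rfl; intro a _
      rw [← Finset.sum_add_distrib, Finset.sum_div]
      apply Finset.sum_congr rfl; intro b _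
      unfold kk
      simp only [RCLike.star_def]
      ring
    rw [h1]
    exact_mod_cast hpos u

/-- Step (1). -/
theorem Ext0.KK_sq_le (h : Ext0 φ ρ) (hA : Res φ ρ A) [DecidableEq ι]
    (hpos : ∀ w : ℂ, ‖w‖ = 1 → ∀ x : H, 0 ≤ (rr φ A x x w).re) (x y : ι → H) :
    KK φ A x y ^ 2 ≤ KK φ A x x * KK φ A y y := by
  have hc : ∀ x y : ι → H, Continuous fun θ => ∑ p : ι × ι, ‖kk φ A (x p.1) (y p.2) (e θ)‖ ^ 2 :=
    fun x y => continuous_finsetSum _ fun p _ => (h.continuous_kk hA _ _).norm.pow 2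
  have hnn : ∀ (x y : ι → H) θ, 0 ≤ ∑ p : ι × ι, ‖kk φ A (x p.1) (y p.2) (e θ)‖ ^ 2 :=
    fun x y θ => Finset.sum_nonneg fun _ _ => sq_nonneg _
  have hpt : ∀ θ, ∑ p : ι × ι, ‖kk φ A (x p.1) (y p.2) (e θ)‖ ^ 2
      ≤ √(∑ p : ι × ι, ‖kk φ A (x p.1) (x p.2) (e θ)‖ ^ 2)
        * √(∑ p : ι × ι, ‖kk φ A (y p.1) (y p.2) (e θ)‖ ^ 2) := by
    intro θ
    rw [← Real.sqrt_mul (hnn x x θ)]
    apply Real.le_sqrt_of_sq_le
    have hG := kk_posSemidef (φ := φ) (A := A) (Sum.elim x y) (hpos (e θ) (norm_e θ))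
    have := gram_block hG
    simpa using this
  have h1 : KK φ A x y ≤ ∫ θ, √(∑ p : ι × ι, ‖kk φ A (x p.1) (x p.2) (e θ)‖ ^ 2)
        * √(∑ p : ι × ι, ‖kk φ A (y p.1) (y p.2) (e θ)‖ ^ 2) ∂nu :=
    integral_mono (integrable_of_continuous (hc x y))
      (integrable_of_continuous ((hc x x).sqrt.mul (hc y y).sqrt)) hpt
  have h2 := integral_mul_sq_le (hc x x).sqrt (hc y y).sqrt
  have h3 : ∀ f : ℝ → ℝ, (∀ θ, 0 ≤ f θ) → (fun θ => √(f θ) ^ 2) = f :=
    fun f hf => by ext θ; exact Real.sq_sqrt (hf θ)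
  rw [h3 _ (hnn x x), h3 _ (hnn y y)] at h2
  exact (pow_le_pow_left₀ (KK_nonneg x y) h1 2).trans h2

/-- Density argument: steps (3)–(5) for `k_y` from the inequality for test polynomials. -/
theorem Ext.key (h : Ext φ ρ) (hA : Res φ ρ A) (y : ι → H) (κ M : ℝ) (hκ : 0 ≤ κ) (hM : 0 ≤ M)
    (hyp : ∀ X : ι → ι → Polynomial ℂ,
      ‖(κ : ℂ) * ∫ θ, ∑ p : ι × ι, (X p.1 p.2).eval (φ (e θ) / e θ) *
        rr φ A (y p.1) (y p.2) (e θ) ∂nu‖ ^ 2
      ≤ (∫ θ, ∑ p : ι × ι, ‖(X p.1 p.2).eval (φ (e θ) / e θ)‖ ^ 2 ∂nu) * M) :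
    κ ^ 2 * KK φ A y y ≤ M := by
  have hrc := fun p : ι × ι => h.continuous_rr hA (y p.1) (y p.2)
  have hkc := fun p : ι × ι => h.continuous_kk hA (y p.1) (y p.2)
  -- the inequality for trigonometric polynomials
  have step1 : ∀ T : ι → ι → Polynomial ℂ,
      ‖(κ : ℂ) * ∫ θ, ∑ p : ι × ι, pp T p.1 p.2 (e θ) * rr φ A (y p.1) (y p.2) (e θ) ∂nu‖ ^ 2
      ≤ (∫ θ, ∑ p : ι × ι, ‖pp T p.1 p.2 (e θ)‖ ^ 2 ∂nu) * M := by
    intro T
    obtain ⟨X, E, hEd, hE0, hXE, hn⟩ := h.test_norm T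
    have hEc : ∀ i j, Continuous fun θ => E i j (e θ) :=
      fun i j => continuous_comp_e h.one_lt (hEd i j)
    have h1 := hyp X
    have h2 : ∫ θ, ∑ p : ι × ι, (X p.1 p.2).eval (φ (e θ) / e θ) *
        rr φ A (y p.1) (y p.2) (e θ) ∂nu
        = ∫ θ, ∑ p : ι × ι, pp T p.1 p.2 (e θ) * rr φ A (y p.1) (y p.2) (e θ) ∂nu := by
      have h3 : ∀ θ, ∑ p : ι × ι, (X p.1 p.2).eval (φ (e θ) / e θ) *
          rr φ A (y p.1) (y p.2) (e θ)
          = ∑ p : ι × ι, pp T p.1 p.2 (e θ) * rr φ A (y p.1) (y p.2) (e θ)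
            + ∑ p : ι × ι, E p.1 p.2 (e θ) * rr φ A (y p.1) (y p.2) (e θ) := by
        intro θ
        rw [← Finset.sum_add_distrib]
        apply Finset.sum_congr rfl; intro p _
        rw [hXE _ _ _ (norm_e θ), add_mul]
      have j1 : Integrable (fun θ => ∑ p : ι × ι, pp T p.1 p.2 (e θ) *
          rr φ A (y p.1) (y p.2) (e θ)) nu :=
        integrable_of_continuous (continuous_finsetSum _ fun p _ => (continuous_pp T _ _).mul (hrc p))
      have j2 : Integrable (fun θ => ∑ p : ι × ι, E p.1 p.2 (e θ) *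
          rr φ A (y p.1) (y p.2) (e θ)) nu :=
        integrable_of_continuous (continuous_finsetSum _ fun p _ => (hEc _ _).mul (hrc p))
      rw [integral_congr_ae (Eventually.of_forall h3), integral_add j1 j2]
      have h4 : ∫ θ, ∑ p : ι × ι, E p.1 p.2 (e θ) * rr φ A (y p.1) (y p.2) (e θ) ∂nu = 0 := by
        rw [integral_sum_cont (fun (p : ι × ι) θ => E p.1 p.2 (e θ) *
          rr φ A (y p.1) (y p.2) (e θ)) (fun p => (hEc _ _).mul (hrc p))]
        apply Finset.sum_eq_zero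
        intro p _
        rw [mean_value h.one_lt (h := fun u => E p.1 p.2 u * rr φ A (y p.1) (y p.2) u)
          ((hEd _ _).mul (h.diff_rr hA _ _)), hE0, zero_mul]
      rw [h4, add_zero]
    rw [h2] at h1
    exact h1.trans (mul_le_mul_of_nonneg_right hn hM)
  -- approximate
  have happ : ∀ n : ℕ, ∀ i j, ∃ T : Polynomial ℂ, ∀ u : ℂ, ‖u‖ = 1 →
      ‖T.eval u - rr φ A (y i) (y j) u‖ ≤ 1 / ((n : ℝ) + 1) :=
    fun n i j => exists_poly_approx h.one_lt (h.diff_rr hA (y i) (y j)) (by positivity)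
  choose T hT using happ
  have hpp : ∀ n i j θ, ‖pp (T n) i j (e θ) - kk φ A (y j) (y i) (e θ)‖ ≤ 1 / ((n : ℝ) + 1) := by
    intro n i j θ
    have h1 := hT n j i (e θ) (norm_e θ)
    have h2 := hT n i j (e θ) (norm_e θ)
    have h3 : pp (T n) i j (e θ) - kk φ A (y j) (y i) (e θ)
        = (((T n j i).eval (e θ) - rr φ A (y j) (y i) (e θ))
          + conj ((T n i j).eval (e θ) - rr φ A (y i) (y j) (e θ))) / 2 := by
      unfold pp kk; rw [map_sub]; ring
    rw [h3, norm_div]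
    have h4 := norm_add_le ((T n j i).eval (e θ) - rr φ A (y j) (y i) (e θ))
      (conj ((T n i j).eval (e θ) - rr φ A (y i) (y j) (e θ)))
    rw [RCLike.norm_conj] at h4
    rw [Complex.norm_ofNat]
    linarith
  have hlim : ∀ i j θ, Tendsto (fun n => pp (T n) i j (e θ)) atTop (𝓝 (kk φ A (y j) (y i) (e θ))) := by
    intro i j θ
    rw [tendsto_iff_norm_sub_tendsto_zero]
    exact squeeze_zero (fun _ => norm_nonneg _) (fun n => hpp n i j θ)
      tendsto_one_div_add_atTop_nhds_zero_nat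
  have hbd : ∀ n i j θ, ‖pp (T n) i j (e θ)‖ ≤ ‖kk φ A (y j) (y i) (e θ)‖ + 1 := by
    intro n i j θ
    have h1 := hpp n i j θ
    have h2 : 1 / ((n : ℝ) + 1) ≤ 1 := by
      rw [div_le_one (by positivity)]
      have : (0 : ℝ) ≤ n := Nat.cast_nonneg n
      linarith
    have h3 : ‖pp (T n) i j (e θ)‖
        ≤ ‖pp (T n) i j (e θ) - kk φ A (y j) (y i) (e θ)‖ + ‖kk φ A (y j) (y i) (e θ)‖ := by
      have := norm_add_le (pp (T n) i j (e θ) - kk φ A (y j) (y i) (e θ)) (kk φ A (y j) (y i) (e θ))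
      rwa [sub_add_cancel] at this
    linarith
  have hkc' := fun p : ι × ι => h.continuous_kk hA (y p.2) (y p.1)
  have lim1 : Tendsto (fun n => ∫ θ, ∑ p : ι × ι, pp (T n) p.1 p.2 (e θ) *
        rr φ A (y p.1) (y p.2) (e θ) ∂nu) atTop
      (𝓝 (∫ θ, ∑ p : ι × ι, kk φ A (y p.2) (y p.1) (e θ) * rr φ A (y p.1) (y p.2) (e θ) ∂nu)) := by
    apply tendsto_integral_of_dominated_convergence
      (fun θ => ∑ p : ι × ι, (‖kk φ A (y p.2) (y p.1) (e θ)‖ + 1) * ‖rr φ A (y p.1) (y p.2) (e θ)‖)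
    · intro n
      exact (continuous_finsetSum _ fun p _ =>
        (continuous_pp (T n) _ _).mul (hrc p)).aestronglyMeasurable
    · exact integrable_of_continuous (continuous_finsetSum _ fun p _ =>
        ((hkc' p).norm.add continuous_const).mul (hrc p).norm)
    · intro n
      refine Eventually.of_forall fun θ => (norm_sum_le _ _).trans ?_
      apply Finset.sum_le_sum; intro p _
      rw [norm_mul]
      exact mul_le_mul_of_nonneg_right (hbd _ _ _ _) (norm_nonneg _)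
    · refine Eventually.of_forall fun θ => ?_
      exact tendsto_finsetSum _ fun p _ => (hlim _ _ _).mul_const _
  have lim2 : Tendsto (fun n => ∫ θ, ∑ p : ι × ι, ‖pp (T n) p.1 p.2 (e θ)‖ ^ 2 ∂nu) atTop
      (𝓝 (∫ θ, ∑ p : ι × ι, ‖kk φ A (y p.2) (y p.1) (e θ)‖ ^ 2 ∂nu)) := by
    apply tendsto_integral_of_dominated_convergence
      (fun θ => ∑ p : ι × ι, (‖kk φ A (y p.2) (y p.1) (e θ)‖ + 1) ^ 2)
    · intro n
      exact (continuous_finsetSum _ fun p _ =>
        (continuous_pp (T n) _ _).norm.pow 2).aestronglyMeasurable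
    · exact integrable_of_continuous (continuous_finsetSum _ fun p _ =>
        ((hkc' p).norm.add continuous_const).pow 2)
    · intro n
      refine Eventually.of_forall fun θ => ?_
      rw [Real.norm_eq_abs, abs_of_nonneg (Finset.sum_nonneg fun _ _ => sq_nonneg _)]
      apply Finset.sum_le_sum; intro p _
      exact pow_le_pow_left₀ (norm_nonneg _) (hbd _ _ _ _) 2
    · refine Eventually.of_forall fun θ => ?_
      exact tendsto_finsetSum _ fun p _ => ((hlim _ _ _).norm.pow 2)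
  have step2 : ‖(κ : ℂ) * ∫ θ, ∑ p : ι × ι, kk φ A (y p.2) (y p.1) (e θ) *
        rr φ A (y p.1) (y p.2) (e θ) ∂nu‖ ^ 2
      ≤ (∫ θ, ∑ p : ι × ι, ‖kk φ A (y p.2) (y p.1) (e θ)‖ ^ 2 ∂nu) * M :=
    le_of_tendsto_of_tendsto' ((lim1.const_mul _).norm.pow 2) (lim2.mul_const _)
      (fun n => step1 (T n))
  -- identify the limits
  have e1 : ∫ θ, ∑ p : ι × ι, ‖kk φ A (y p.2) (y p.1) (e θ)‖ ^ 2 ∂nu = KK φ A y y := by
    unfold KK
    congr 1; ext θ
    exact Equiv.sum_comp (Equiv.prodComm ι ι) fun p : ι × ι => ‖kk φ A (y p.1) (y p.2) (e θ)‖ ^ 2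
  have hpc : Continuous fun θ => ∑ p : ι × ι, kk φ A (y p.2) (y p.1) (e θ) *
        rr φ A (y p.1) (y p.2) (e θ) := continuous_finsetSum _ fun p _ => (hkc' p).mul (hrc p)
  have e2 : (∫ θ, ∑ p : ι × ι, kk φ A (y p.2) (y p.1) (e θ) *
        rr φ A (y p.1) (y p.2) (e θ) ∂nu).re = KK φ A y y := by
    have h1 := integral_re (integrable_of_continuous hpc)
    have h2 : (∫ θ, ∑ p : ι × ι, kk φ A (y p.2) (y p.1) (e θ) *
        rr φ A (y p.1) (y p.2) (e θ) ∂nu).re
        = ∫ θ, (∑ p : ι × ι, kk φ A (y p.2) (y p.1) (e θ) *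
          rr φ A (y p.1) (y p.2) (e θ)).re ∂nu := h1.symm
    rw [h2]
    unfold KK
    congr 1; ext θ
    set f : ι × ι → ℝ := fun p =>
      (kk φ A (y p.2) (y p.1) (e θ) * rr φ A (y p.1) (y p.2) (e θ)).re with hf
    have h3 : ∑ p : ι × ι, f p.swap = ∑ p : ι × ι, f p :=
      Equiv.sum_comp (Equiv.prodComm ι ι) f
    have h4 : ∀ p : ι × ι, f p + f p.swap = 2 * ‖kk φ A (y p.1) (y p.2) (e θ)‖ ^ 2 := by
      intro p
      simp only [hf, Prod.fst_swap, Prod.snd_swap]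
      have h5 : kk φ A (y p.2) (y p.1) (e θ) = conj (kk φ A (y p.1) (y p.2) (e θ)) :=
        (conj_kk _ _ _).symm
      rw [h5]
      have h6 : 2 * ‖kk φ A (y p.1) (y p.2) (e θ)‖ ^ 2
          = (conj (kk φ A (y p.1) (y p.2) (e θ)) * (2 * kk φ A (y p.1) (y p.2) (e θ))).re := by
        rw [← Complex.normSq_eq_norm_sq, Complex.normSq_apply]
        simp only [Complex.mul_re, Complex.mul_im, Complex.conj_re, Complex.conj_im]
        norm_num
        ring
      have h7 : 2 * kk φ A (y p.1) (y p.2) (e θ)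
          = rr φ A (y p.1) (y p.2) (e θ) + conj (rr φ A (y p.2) (y p.1) (e θ)) := by
        unfold kk; ring
      rw [h6, h7, mul_add, Complex.add_re]
      congr 1
      simp only [Complex.mul_re, Complex.conj_re, Complex.conj_im]
      ring
    rw [Complex.re_sum]
    have h8 : ∑ p : ι × ι, (f p + f p.swap) = 2 * ∑ p : ι × ι, f p := by
      rw [Finset.sum_add_distrib, h3]; ring
    have h9 : 2 * ∑ p : ι × ι, f p = 2 * ∑ p : ι × ι, ‖kk φ A (y p.1) (y p.2) (e θ)‖ ^ 2 := by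
      rw [← h8, Finset.mul_sum]
      exact Finset.sum_congr rfl fun p _ => h4 p
    linarith
  rw [e1] at step2
  have hK := KK_nonneg (φ := φ) (A := A) y y
  have h10 : (κ * KK φ A y y) ^ 2 ≤ KK φ A y y * M := by
    refine le_trans ?_ step2
    apply pow_le_pow_left₀ (mul_nonneg hκ hK)
    rw [norm_mul, Complex.norm_real, Real.norm_eq_abs, abs_of_nonneg hκ]
    apply mul_le_mul_of_nonneg_left _ hκ
    rw [← e2]
    exact Complex.re_le_norm _
  rcases hK.eq_or_lt with h0 | h0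
  · rw [← h0]; simpa using hM
  · have : κ ^ 2 * KK φ A y y * KK φ A y y ≤ M * KK φ A y y := by nlinarith
    exact le_of_mul_le_mul_right this h0

end Crest.Agent.R132
end

-- ▼ part R132/Core

/-!
The analytic core: complete Crouzeix inequality with constant 2 for a convex curve given by its
exterior map (helper832's proof).
-/

namespace Crest.Agent.R132

open Complex MeasureTheory Metric Set Filter Topology
open scoped Real ComplexConjugate InnerProductSpace

variable {φ : ℂ → ℂ} {ρ : ℝ}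
variable {H : Type*} [NormedAddCommGroup H] [InnerProductSpace ℂ H]
variable {A : H →L[ℂ] H} {V : Set ℂ}

theorem col_bound {m : ℕ} (F : Matrix (Fin m) (Fin m) ℂ)
    (hF : ‖Matrix.toEuclideanCLM (n := Fin m) (𝕜 := ℂ) F‖ ≤ 1) (c : Fin m → ℂ) :
    ∑ i, ‖∑ j, F i j * c j‖ ^ 2 ≤ ∑ j, ‖c j‖ ^ 2 := by
  have h1 := (Matrix.toEuclideanCLM (n := Fin m) (𝕜 := ℂ) F).le_of_opNorm_le hF (WithLp.toLp 2 c)
  rw [one_mul, Matrix.toEuclideanCLM_toLp] at h1
  have h2 := pow_le_pow_left₀ (norm_nonneg _) h1 2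
  rw [EuclideanSpace.norm_sq_eq, EuclideanSpace.norm_sq_eq] at h2
  exact h2

theorem row_bound {m : ℕ} (F : Matrix (Fin m) (Fin m) ℂ)
    (hF : ‖Matrix.toEuclideanCLM (n := Fin m) (𝕜 := ℂ) F‖ ≤ 1) (c : Fin m → ℂ) :
    ∑ j, ‖∑ i, c i * F i j‖ ^ 2 ≤ ∑ i, ‖c i‖ ^ 2 := by
  have h1 : ‖Matrix.toEuclideanCLM (n := Fin m) (𝕜 := ℂ) (star F)‖ ≤ 1 := by
    have h0 : Matrix.toEuclideanCLM (n := Fin m) (𝕜 := ℂ) (star F)
        = ContinuousLinearMap.adjoint (Matrix.toEuclideanCLM (n := Fin m) (𝕜 := ℂ) F) :=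
      map_star _ _
    rw [h0, LinearIsometryEquiv.norm_map]; exact hF
  have h2 := col_bound (star F) h1 (fun i => conj (c i))
  have h3 : ∀ j, ‖∑ i, (star F) j i * conj (c i)‖ = ‖∑ i, c i * F i j‖ := by
    intro j
    rw [← RCLike.norm_conj (∑ i, c i * F i j), map_sum]
    congr 1
    apply Finset.sum_congr rfl; intro i _
    rw [map_mul, mul_comm]
    rfl
  simp only [h3, RCLike.norm_conj] at h2
  exact h2

section main
variable [CompleteSpace H]

theorem Ext0.inner_aeval (h : Ext0 φ ρ) (hA : Res φ ρ A) (S : Polynomial ℂ) (x y : H) :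
    ⟪x, Polynomial.aeval A S y⟫_ℂ = ∫ θ, S.eval (φ (e θ) / e θ) * rr φ A x y (e θ) ∂nu := by
  have hV : OnCurve φ (univ : Set ℂ) := ⟨isOpen_univ, convex_univ, fun _ _ => mem_univ _⟩
  rw [← h.funcalc_aeval hA, h.inner_funcalc hA hV S.differentiable.differentiableOn]

theorem Ext0.KK_pos (h : Ext0 φ ρ) (hA : Res φ ρ A) {m : ℕ} (y : Fin m → H)
    (hy : ∑ i, ‖y i‖ ^ 2 = 1) : 0 < KK φ A y y := by
  have hkc := fun p : Fin m × Fin m => h.continuous_kk hA (y p.1) (y p.2)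
  refine (KK_nonneg (φ := φ) (A := A) y y).lt_of_ne' fun h0 => ?_
  -- each diagonal entry vanishes in mean square
  have h1 : ∀ i, ∫ θ, kk φ A (y i) (y i) (e θ) ∂nu = 0 := by
    intro i
    have h2 : ∫ θ, ‖kk φ A (y i) (y i) (e θ)‖ ^ 2 ∂nu ≤ 0 := by
      rw [← h0]
      unfold KK
      apply integral_mono (integrable_of_continuous ((hkc (i, i)).norm.pow 2))
        (integrable_of_continuous (continuous_finsetSum _ fun p _ => (hkc p).norm.pow 2))
      intro θ
      exact Finset.single_le_sum (f := fun p : Fin m × Fin m => ‖kk φ A (y p.1) (y p.2) (e θ)‖ ^ 2)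
        (fun p _ => sq_nonneg _) (Finset.mem_univ (i, i))
    have h3 := norm_integral_sum_sq_le (α := Unit) (a := fun _ θ => kk φ A (y i) (y i) (e θ))
      (b := fun _ _ => 1) (fun _ => hkc (i, i)) (fun _ => continuous_const)
    simp only [Finset.univ_unique, Finset.sum_singleton, mul_one, norm_one, one_pow] at h3
    have h4 : ‖∫ θ, kk φ A (y i) (y i) (e θ) ∂nu‖ ^ 2 ≤ 0 := by
      refine h3.trans ?_
      have h5 : (∫ _θ : ℝ, (1 : ℝ) ∂nu) = 1 := by simp
      rw [h5, mul_one]; exact h2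
    have h6 := pow_eq_zero_iff (two_ne_zero) |>.1 (le_antisymm h4 (sq_nonneg _))
    exact norm_eq_zero.1 h6
  have h2 : ∀ i, y i = 0 := by
    intro i
    have h3 := h1 i
    have h4 : ∫ θ, kk φ A (y i) (y i) (e θ) ∂nu = ⟪y i, y i⟫_ℂ := by
      have hr := h.continuous_rr hA (y i) (y i)
      have e1 : ∀ θ, kk φ A (y i) (y i) (e θ)
          = (1 / 2 : ℂ) * (rr φ A (y i) (y i) (e θ) + conj (rr φ A (y i) (y i) (e θ))) := by
        intro θ; unfold kk; ring
      have hrc : Integrable (fun θ => conj (rr φ A (y i) (y i) (e θ))) nu :=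
        integrable_of_continuous (Complex.continuous_conj.comp hr)
      rw [integral_congr_ae (Eventually.of_forall e1), integral_const_mul,
        integral_add (integrable_of_continuous hr) hrc,
        mean_value h.one_lt (h.diff_rr hA _ _), mean_value_conj h.one_lt (h.diff_rr hA _ _),
        h.rr_zero hA, inner_conj_symm]
      ring
    rw [h4] at h3
    exact inner_self_eq_zero.1 h3
  simp [h2] at hy

/-- The main inequality for a singular pair. -/
theorem Ext.main (h : Ext φ ρ) (hA : Res φ ρ A)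
    (hpos : ∀ w : ℂ, ‖w‖ = 1 → ∀ x : H, 0 ≤ (rr φ A x x w).re) (hV : OnCurve φ V) {m : ℕ}
    {F : ℂ → Matrix (Fin m) (Fin m) ℂ} (hF : ∀ i j, DifferentiableOn ℂ (fun z => F z i j) V)
    (hF1 : ∀ u : ℂ, ‖u‖ = 1 → ‖Matrix.toEuclideanCLM (n := Fin m) (𝕜 := ℂ) (F (φ u / u))‖ ≤ 1)
    (x y : Fin m → H) (κ : ℝ) (hκ : 0 ≤ κ)
    (hT : ∀ i, ∑ j, funcalc φ A (fun z => F z i j) (y j) = (κ : ℂ) • x i)
    (hT' : ∀ v : Fin m → H, ∑ i, ⟪x i, ∑ j, funcalc φ A (fun z => F z i j) (v j)⟫_ℂ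
      = (κ : ℂ) * ∑ i, ⟪y i, v i⟫_ℂ)
    (hx : ∑ i, ‖x i‖ ^ 2 = 1) (hy : ∑ i, ‖y i‖ ^ 2 = 1) : κ ≤ 2 := by
  classical
  have hFc : ∀ i j, Continuous fun θ => F (φ (e θ) / e θ) i j := fun i j => h.continuous_F hV (hF i j)
  have hXc : ∀ X : Polynomial ℂ, Continuous fun θ => X.eval (φ (e θ) / e θ) := fun X =>
    X.continuous.comp (h.continuous_phi.div continuous_e e_ne_zero)
  have hMc := fun p : Fin m × Fin m => h.continuous_rr hA (x p.1) (y p.2)
  -- Claim A
  have claimA : κ ^ 2 * KK φ A y y ≤ MM φ A x y := by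
    apply h.key hA y κ _ hκ (MM_nonneg x y)
    intro X
    set B : Fin m × Fin m → ℝ → ℂ := fun p θ =>
      ∑ j, F (φ (e θ) / e θ) p.1 j * (X j p.2).eval (φ (e θ) / e θ) with hB
    have hBc : ∀ p, Continuous (B p) := fun p =>
      continuous_finsetSum _ fun j _ => (hFc _ _).mul (hXc _)
    have e1 : (κ : ℂ) * ∫ θ, ∑ p : Fin m × Fin m, (X p.1 p.2).eval (φ (e θ) / e θ) *
        rr φ A (y p.1) (y p.2) (e θ) ∂nu
        = ∫ θ, ∑ p : Fin m × Fin m, B p θ * rr φ A (x p.1) (y p.2) (e θ) ∂nu := by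
      rw [integral_sum_cont (fun (p : Fin m × Fin m) θ => (X p.1 p.2).eval (φ (e θ) / e θ) *
        rr φ A (y p.1) (y p.2) (e θ)) (fun p => (hXc _).mul (h.continuous_rr hA _ _)),
        integral_sum_cont (fun (p : Fin m × Fin m) θ => B p θ * rr φ A (x p.1) (y p.2) (e θ))
        (fun p => (hBc p).mul (hMc p))]
      simp only [← h.inner_aeval hA]
      rw [Fintype.sum_prod_type, Fintype.sum_prod_type]
      have e2 : ∀ i, ∑ j, ⟪y i, Polynomial.aeval A (X i j) (y j)⟫_ℂ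
          = ⟪y i, ∑ j, Polynomial.aeval A (X i j) (y j)⟫_ℂ := fun i => (inner_sum _ _ _).symm
      simp only [e2]
      rw [← hT' (fun i => ∑ j, Polynomial.aeval A (X i j) (y j))]
      apply Finset.sum_congr rfl; intro i _
      rw [inner_sum]
      simp only [map_sum, inner_sum]
      rw [Finset.sum_comm]
      apply Finset.sum_congr rfl; intro l _
      have e3 : ∀ θ, B (i, l) θ * rr φ A (x i) (y l) (e θ)
          = ∑ j, ((X j l).eval (φ (e θ) / e θ) * F (φ (e θ) / e θ) i j) *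
            rr φ A (x i) (y l) (e θ) := by
        intro θ
        simp only [hB]
        rw [Finset.sum_mul]
        apply Finset.sum_congr rfl; intro j _
        ring
      rw [integral_congr_ae (Eventually.of_forall e3), integral_sum_cont
        (fun (j : Fin m) θ => ((X j l).eval (φ (e θ) / e θ) * F (φ (e θ) / e θ) i j) *
            rr φ A (x i) (y l) (e θ)) (fun j => ((hXc _).mul (hFc _ _)).mul (hMc (i, l)))]
      apply Finset.sum_congr rfl; intro j _
      rw [← h.inner_funcalc hA hV (F := fun z => (X j l).eval z * F z i j)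
        ((X j l).differentiable.differentiableOn.mul (hF i j)),
        h.funcalc_poly_right hA hV (hF i j)]
      rfl
    rw [e1]
    refine (norm_integral_sum_sq_le hBc hMc).trans ?_
    apply mul_le_mul_of_nonneg_right _ (MM_nonneg x y)
    apply integral_mono
      (integrable_of_continuous (continuous_finsetSum _ fun p _ => (hBc p).norm.pow 2))
      (integrable_of_continuous (continuous_finsetSum _ fun p _ => (hXc _).norm.pow 2))
    intro θ
    show ∑ p : Fin m × Fin m, ‖B p θ‖ ^ 2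
      ≤ ∑ p : Fin m × Fin m, ‖(X p.1 p.2).eval (φ (e θ) / e θ)‖ ^ 2
    rw [Fintype.sum_prod_type, Fintype.sum_prod_type, Finset.sum_comm]
    conv_rhs => rw [Finset.sum_comm]
    apply Finset.sum_le_sum; intro l _
    exact col_bound _ (hF1 (e θ) (norm_e θ)) (fun j => (X j l).eval (φ (e θ) / e θ))
  -- Claim B
  have claimB : κ ^ 2 * KK φ A x x ≤ MM φ A x y := by
    apply h.key hA x κ _ hκ (MM_nonneg x y)
    intro X
    set B : Fin m × Fin m → ℝ → ℂ := fun p θ =>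
      ∑ j, (X p.1 j).eval (φ (e θ) / e θ) * F (φ (e θ) / e θ) j p.2 with hB
    have hBc : ∀ p, Continuous (B p) := fun p =>
      continuous_finsetSum _ fun j _ => (hXc _).mul (hFc _ _)
    have e1 : (κ : ℂ) * ∫ θ, ∑ p : Fin m × Fin m, (X p.1 p.2).eval (φ (e θ) / e θ) *
        rr φ A (x p.1) (x p.2) (e θ) ∂nu
        = ∫ θ, ∑ p : Fin m × Fin m, B p θ * rr φ A (x p.1) (y p.2) (e θ) ∂nu := by
      rw [integral_sum_cont (fun (p : Fin m × Fin m) θ => (X p.1 p.2).eval (φ (e θ) / e θ) *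
        rr φ A (x p.1) (x p.2) (e θ)) (fun p => (hXc _).mul (h.continuous_rr hA _ _)),
        integral_sum_cont (fun (p : Fin m × Fin m) θ => B p θ * rr φ A (x p.1) (y p.2) (e θ))
        (fun p => (hBc p).mul (hMc p))]
      simp only [← h.inner_aeval hA]
      rw [Fintype.sum_prod_type, Fintype.sum_prod_type, Finset.mul_sum]
      apply Finset.sum_congr rfl; intro i _
      rw [Finset.mul_sum]
      have e2 : ∀ j, (κ : ℂ) * ⟪x i, Polynomial.aeval A (X i j) (x j)⟫_ℂ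
          = ∑ l, ⟪x i, Polynomial.aeval A (X i j) (funcalc φ A (fun z => F z j l) (y l))⟫_ℂ := by
        intro j
        rw [← inner_smul_right, ← map_smul, ← hT j, map_sum, inner_sum]
      simp only [e2]
      rw [Finset.sum_comm]
      apply Finset.sum_congr rfl; intro l _
      have e3 : ∀ θ, B (i, l) θ * rr φ A (x i) (y l) (e θ)
          = ∑ j, ((X i j).eval (φ (e θ) / e θ) * F (φ (e θ) / e θ) j l) *
            rr φ A (x i) (y l) (e θ) := by
        intro θ
        simp only [hB]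
        rw [Finset.sum_mul]
      rw [integral_congr_ae (Eventually.of_forall e3), integral_sum_cont
        (fun (j : Fin m) θ => ((X i j).eval (φ (e θ) / e θ) * F (φ (e θ) / e θ) j l) *
            rr φ A (x i) (y l) (e θ)) (fun j => ((hXc _).mul (hFc _ _)).mul (hMc (i, l)))]
      apply Finset.sum_congr rfl; intro j _
      rw [← h.inner_funcalc hA hV (F := fun z => (X i j).eval z * F z j l)
        ((X i j).differentiable.differentiableOn.mul (hF j l)),
        h.funcalc_poly_left hA hV (hF j l)]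
      rfl
    rw [e1]
    refine (norm_integral_sum_sq_le hBc hMc).trans ?_
    apply mul_le_mul_of_nonneg_right _ (MM_nonneg x y)
    apply integral_mono
      (integrable_of_continuous (continuous_finsetSum _ fun p _ => (hBc p).norm.pow 2))
      (integrable_of_continuous (continuous_finsetSum _ fun p _ => (hXc _).norm.pow 2))
    intro θ
    show ∑ p : Fin m × Fin m, ‖B p θ‖ ^ 2
      ≤ ∑ p : Fin m × Fin m, ‖(X p.1 p.2).eval (φ (e θ) / e θ)‖ ^ 2
    rw [Fintype.sum_prod_type, Fintype.sum_prod_type]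
    apply Finset.sum_le_sum; intro i _
    exact row_bound _ (hF1 (e θ) (norm_e θ)) (fun j => (X i j).eval (φ (e θ) / e θ))
  have claimC := h.MM_le hA x y
  have claimD := h.KK_sq_le hA hpos x y
  have hKx := h.KK_pos hA x hx
  have hKy := h.KK_pos hA y hy
  have hKxy := KK_nonneg (φ := φ) (A := A) x y
  -- combine
  have h1 : κ ^ 2 * KK φ A y y ≤ 4 * KK φ A x y := claimA.trans claimC
  have h2 : κ ^ 2 * KK φ A x x ≤ 4 * KK φ A x y := claimB.trans claimC
  have h3 : (κ ^ 2 * KK φ A y y) * (κ ^ 2 * KK φ A x x) ≤ (4 * KK φ A x y) * (4 * KK φ A x y) :=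
    mul_le_mul h1 h2 (by positivity) (by positivity)
  have h4 : κ ^ 4 * (KK φ A x x * KK φ A y y) ≤ 16 * (KK φ A x x * KK φ A y y) := by
    calc κ ^ 4 * (KK φ A x x * KK φ A y y)
        = (κ ^ 2 * KK φ A y y) * (κ ^ 2 * KK φ A x x) := by ring
      _ ≤ 16 * (KK φ A x y) ^ 2 := by linarith
      _ ≤ 16 * (KK φ A x x * KK φ A y y) := by linarith
  have h5 : κ ^ 4 ≤ 16 := le_of_mul_le_mul_right h4 (by positivity)
  by_contra hcon
  push Not at hcon
  have h6 : (2 : ℝ) ^ 4 < κ ^ 4 := pow_lt_pow_left₀ hcon (by norm_num) (by norm_num)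
  norm_num at h6
  linarith

end main

/-- Singular pairs: if every singular value at the top is `≤ 2` then the norm is `≤ 2`. -/
theorem norm_le_two_of_pairs {E : Type*} [NormedAddCommGroup E] [InnerProductSpace ℂ E]
    [FiniteDimensional ℂ E] (T : E →L[ℂ] E)
    (hT : ∀ (κ : ℝ) (x y : E), 0 ≤ κ → ‖x‖ = 1 → ‖y‖ = 1 → T y = (κ : ℂ) • x →
      (∀ v, ⟪x, T v⟫_ℂ = (κ : ℂ) * ⟪y, v⟫_ℂ) → κ ≤ 2) (v : E) : ‖T v‖ ≤ 2 * ‖v‖ := by
  have : CompleteSpace E := FiniteDimensional.complete ℂ E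
  have : ProperSpace E := FiniteDimensional.proper ℂ E
  by_cases hE : Subsingleton E
  · have : v = 0 := Subsingleton.elim _ _
    subst this; simp
  rw [not_subsingleton_iff_nontrivial] at hE
  have hne : (sphere (0 : E) 1).Nonempty := NormedSpace.sphere_nonempty.2 zero_le_one
  obtain ⟨y, hy, hmax⟩ := (isCompact_sphere (0 : E) 1).exists_isMaxOn hne
    (T.continuous.norm.continuousOn)
  have hy1 : ‖y‖ = 1 := by simpa using hy
  set κ := ‖T y‖ with hκ
  have hbound : ∀ v, ‖T v‖ ≤ κ * ‖v‖ := by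
    intro v
    by_cases hv : v = 0
    · subst hv; simp
    have hn : 0 < ‖v‖ := norm_pos_iff.2 hv
    have h1 : ((‖v‖⁻¹ : ℝ) : ℂ) • v ∈ sphere (0 : E) 1 := by
      rw [mem_sphere_zero_iff_norm, norm_smul, Complex.norm_real, norm_inv, norm_norm,
        inv_mul_cancel₀ hn.ne']
    have h2 := hmax h1
    simp only [mem_ofPred_eq, map_smul, norm_smul, Complex.norm_real, norm_inv, norm_norm] at h2
    rw [inv_mul_le_iff₀ hn] at h2
    linarith
  have hle2 : κ ≤ 2 := by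
    by_cases hk : κ = 0
    · rw [hk]; norm_num
    have hκ0 : 0 < κ := lt_of_le_of_ne (norm_nonneg _) (Ne.symm hk)
    have hκC : (κ : ℂ) ≠ 0 := by exact_mod_cast hk
    apply hT κ ((κ : ℂ)⁻¹ • T y) y hκ0.le
    · rw [norm_smul, norm_inv, Complex.norm_real, Real.norm_eq_abs, abs_of_pos hκ0]
      exact inv_mul_cancel₀ hk
    · exact hy1
    · rw [smul_smul, mul_inv_cancel₀ hκC, one_smul]
    · intro v
      set S := ContinuousLinearMap.adjoint T with hS
      -- `S (T y) = κ² y`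
      have hSn : ‖S (T y)‖ ≤ κ * κ := by
        have h1 : ‖S‖ ≤ κ := by
          rw [hS, LinearIsometryEquiv.norm_map]
          exact T.opNorm_le_bound hκ0.le hbound
        calc ‖S (T y)‖ ≤ ‖S‖ * ‖T y‖ := S.le_opNorm _
          _ ≤ κ * κ := by rw [← hκ]; gcongr
      have hinner : ⟪S (T y), y⟫_ℂ = ((κ ^ 2 : ℝ) : ℂ) := by
        rw [hS, ContinuousLinearMap.adjoint_inner_left, inner_self_eq_norm_sq_to_K, ← hκ]
        norm_cast
      have hzero : S (T y) - ((κ ^ 2 : ℝ) : ℂ) • y = 0 := by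
        rw [← norm_eq_zero]
        have h2 : ‖S (T y) - ((κ ^ 2 : ℝ) : ℂ) • y‖ ^ 2 ≤ 0 := by
          rw [@norm_sub_sq ℂ, inner_smul_right, hinner, norm_smul, hy1, Complex.norm_real,
            Real.norm_eq_abs, abs_of_nonneg (sq_nonneg κ)]
          have h3 : RCLike.re (((κ ^ 2 : ℝ) : ℂ) * ((κ ^ 2 : ℝ) : ℂ)) = κ ^ 2 * κ ^ 2 := by
            rw [← Complex.ofReal_mul]; rfl
          rw [h3]
          have h4 : ‖S (T y)‖ ^ 2 ≤ (κ * κ) ^ 2 := pow_le_pow_left₀ (norm_nonneg _) hSn 2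
          nlinarith
        nlinarith [norm_nonneg (S (T y) - ((κ ^ 2 : ℝ) : ℂ) • y)]
      have hSTy : S (T y) = ((κ ^ 2 : ℝ) : ℂ) • y := sub_eq_zero.1 hzero
      have h5 : ⟪T y, T v⟫_ℂ = ((κ ^ 2 : ℝ) : ℂ) * ⟪y, v⟫_ℂ := by
        rw [← ContinuousLinearMap.adjoint_inner_left, ← hS, hSTy, inner_smul_left,
          Complex.conj_ofReal]
      rw [inner_smul_left, h5, map_inv₀, Complex.conj_ofReal]
      push_cast
      field_simp
  calc ‖T v‖ ≤ κ * ‖v‖ := hbound v
    _ ≤ 2 * ‖v‖ := by gcongr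

/-- **Core theorem** (complete Crouzeix inequality with constant `2` for a convex curve). -/
theorem core {H : Type*} [NormedAddCommGroup H] [InnerProductSpace ℂ H] [FiniteDimensional ℂ H]
    {φ : ℂ → ℂ} {ρ : ℝ} (hρ : 1 < ρ) (hφ : DifferentiableOn ℂ φ (ball 0 ρ)) (h0 : φ 0 ≠ 0)
    (hinj : ∀ u ∈ ball (0 : ℂ) ρ, ∀ v ∈ ball (0 : ℂ) ρ, u ≠ 0 → v ≠ 0 → φ u / u = φ v / v → u = v)
    (hconv : ∀ u v : ℂ, ‖u‖ = 1 → ‖v‖ = 1 →
      0 ≤ (conj (psi φ u) * (φ u - u * (φ v / v))).re)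
    (A : H →L[ℂ] H) (hA : ∀ w ∈ ball (0 : ℂ) ρ, IsUnit (φ w • (1 : H →L[ℂ] H) - w • A))
    (hW : ∀ x : H, ‖x‖ = 1 → ∀ u : ℂ, ‖u‖ = 1 →
      0 ≤ (conj (psi φ u) * (φ u - u * inner ℂ x (A x))).re)
    {m : ℕ} (F : ℂ → Matrix (Fin m) (Fin m) ℂ) (V : Set ℂ) (hV : IsOpen V) (hVc : Convex ℝ V)
    (hΓ : ∀ u : ℂ, ‖u‖ = 1 → φ u / u ∈ V) (hF : ∀ i j, DifferentiableOn ℂ (fun z => F z i j) V)
    (hF1 : ∀ u : ℂ, ‖u‖ = 1 → ‖Matrix.toEuclideanCLM (n := Fin m) (𝕜 := ℂ) (F (φ u / u))‖ ≤ 1)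
    (y : PiLp 2 (fun _ : Fin m => H)) :
    ‖(WithLp.toLp 2 (fun i => ∑ j, funcalc φ A (fun z => F z i j) (y j)) :
      PiLp 2 (fun _ : Fin m => H))‖ ≤ 2 * ‖y‖ := by
  have : CompleteSpace H := FiniteDimensional.complete ℂ H
  have hpsi : ∀ u ∈ ball (0 : ℂ) ρ, psi φ u ≠ 0 := by
    intro u hu
    by_cases hu0 : u = 0
    · subst hu0; simpa [psi] using h0
    intro hz
    have hopen : IsOpen (ball (0 : ℂ) ρ \ {0}) := isOpen_ball.sdiff isClosed_singleton
    have hd : DifferentiableOn ℂ (fun u => φ u / u) (ball (0 : ℂ) ρ \ {0}) :=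
      (hφ.mono sdiff_subset).div differentiableOn_id (fun v hv => hv.2)
    have hne := Crest.Agent.Lib.deriv_ne_zero_of_injOn hopen hd
      (fun a ha b hb hab => hinj a ha.1 b hb.1 ha.2 hb.2 hab) (z := u) ⟨hu, hu0⟩
    apply hne
    have h1 : HasDerivAt (fun u => φ u / u) ((deriv φ u * u - φ u * 1) / u ^ 2) u :=
      ((hφ.differentiableAt (isOpen_ball.mem_nhds hu)).hasDerivAt).div (hasDerivAt_id _) hu0
    rw [h1.deriv]
    unfold psi at hz
    have h2 : deriv φ u * u - φ u * 1 = 0 := by linear_combination -hz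
    rw [h2, zero_div]
  have h : Ext φ ρ :=
    { one_lt := hρ, diff := hφ, ne0 := h0, inj := hinj, psi_ne := hpsi, conv := hconv }
  have hVC : OnCurve φ V := ⟨hV, hVc, hΓ⟩
  have hpos : ∀ w : ℂ, ‖w‖ = 1 → ∀ x : H, 0 ≤ (rr φ A x x w).re := fun w hw x =>
    rr_re_nonneg hw (hA w (h.mem_of_norm hw)) (fun x hx => hW x hx w hw) x
  -- the operator on `H^m`
  let T0 : PiLp 2 (fun _ : Fin m => H) →ₗ[ℂ] PiLp 2 (fun _ : Fin m => H) :=
    { toFun := fun y => WithLp.toLp 2 (fun i => ∑ j, funcalc φ A (fun z => F z i j) (y j))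
      map_add' := by
        intro a b
        ext i
        simp only [PiLp.add_apply, map_add, Finset.sum_add_distrib]
      map_smul' := by
        intro c a
        ext i
        simp only [PiLp.smul_apply, map_smul, Finset.smul_sum, RingHom.id_apply] }
  have hmain := norm_le_two_of_pairs (LinearMap.toContinuousLinearMap T0) (fun κ x y hκ hx hy hTy hTv => by
    apply h.main hA hpos hVC hF hF1 (fun i => x i) (fun i => y i) κ hκ
    · intro i
      have := congrArg (fun z : PiLp 2 (fun _ : Fin m => H) => z i) hTy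
      exact this
    · intro v
      have := hTv (WithLp.toLp 2 v)
      rw [PiLp.inner_apply, PiLp.inner_apply] at this
      exact this
    · rw [← PiLp.norm_sq_eq_of_L2, hx]; norm_num
    · rw [← PiLp.norm_sq_eq_of_L2, hy]; norm_num) y
  exact hmain

theorem funcalc_aeval {H : Type*} [NormedAddCommGroup H] [InnerProductSpace ℂ H]
    [FiniteDimensional ℂ H] {φ : ℂ → ℂ} {ρ : ℝ} (hρ : 1 < ρ)
    (hφ : DifferentiableOn ℂ φ (ball 0 ρ)) (h0 : φ 0 ≠ 0)
    (A : H →L[ℂ] H) (hA : ∀ w ∈ ball (0 : ℂ) ρ, IsUnit (φ w • (1 : H →L[ℂ] H) - w • A))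
    (q : Polynomial ℂ) : funcalc φ A (fun z => q.eval z) = Polynomial.aeval A q := by
  have : CompleteSpace H := FiniteDimensional.complete ℂ H
  have h : Ext0 φ ρ := { one_lt := hρ, diff := hφ, ne0 := h0 }
  exact h.funcalc_aeval hA q



end Crest.Agent.R132
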