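import Mathlib
import Crest.Prelude.Def_NumRangeMetric
import Crest.Agent.R132.Domain
import Crest.Agent.R132.Resolvent

-- ▼ part R132/FDual1
section

set_option autoImplicit false
open scoped ComplexOrder Matrix

namespace Crest.Agent.R132.F

/-- Euclidean norm of a coordinate vector. -/
noncomputable def nrm {ι : Type*} [Fintype ι] (v : ι → ℂ) : ℝ :=
  ‖(WithLp.toLp 2 v : EuclideanSpace ℂ ι)‖

theorem nrm_sq {ι : Type*} [Fintype ι] (v : ι → ℂ) : nrm v ^ 2 = ∑ i, ‖v i‖ ^ 2 := by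
  simp [nrm, EuclideanSpace.norm_sq_eq]

theorem nrm_nonneg {ι : Type*} [Fintype ι] (v : ι → ℂ) : 0 ≤ nrm v := norm_nonneg _

theorem nrm_add_le {ι : Type*} [Fintype ι] (v w : ι → ℂ) : nrm (v + w) ≤ nrm v + nrm w := by
  unfold nrm
  rw [WithLp.toLp_add]
  exact norm_add_le _ _

theorem nrm_smul {ι : Type*} [Fintype ι] (c : ℂ) (v : ι → ℂ) : nrm (c • v) = ‖c‖ * nrm v := by
  unfold nrm
  rw [WithLp.toLp_smul, norm_smul]

theorem nrm_sq_eq_dot {ι : Type*} [Fintype ι] (v : ι → ℂ) :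
    ((nrm v ^ 2 : ℝ) : ℂ) = star v ⬝ᵥ v := by
  rw [nrm_sq]
  push_cast
  simp only [dotProduct, Pi.star_apply]
  refine Finset.sum_congr rfl fun i _ => ?_
  exact (Complex.conj_mul' (v i)).symm

/-- Douglas lemma: equal Gramians are related by an isometry. -/
theorem exists_isometry_mul {ι κ : Type*} [Fintype ι] [DecidableEq ι] [Fintype κ] [DecidableEq κ]
    (P Q : Matrix ι κ ℂ) (h : Pᴴ * P = Qᴴ * Q) :
    ∃ W : Matrix ι ι ℂ, W * Q = P ∧ ∀ v : ι → ℂ, nrm (W *ᵥ v) = nrm v := by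
  classical
  set p : EuclideanSpace ℂ κ →ₗ[ℂ] EuclideanSpace ℂ ι := Matrix.toEuclideanLin P with hp
  set q : EuclideanSpace ℂ κ →ₗ[ℂ] EuclideanSpace ℂ ι := Matrix.toEuclideanLin Q with hq
  have hpq : ∀ x, ‖p x‖ = ‖q x‖ := by
    intro x
    have h1 : ∀ (M : Matrix ι κ ℂ), ((‖Matrix.toEuclideanLin M x‖ ^ 2 : ℝ) : ℂ)
        = star (WithLp.ofLp x) ⬝ᵥ ((Mᴴ * M) *ᵥ (WithLp.ofLp x)) := by
      intro M
      have : ‖Matrix.toEuclideanLin M x‖ = nrm (M *ᵥ (WithLp.ofLp x)) := rfl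
      rw [this, nrm_sq_eq_dot, Matrix.star_mulVec, ← Matrix.dotProduct_mulVec,
        Matrix.mulVec_mulVec]
    have h2 : ((‖p x‖ ^ 2 : ℝ) : ℂ) = ((‖q x‖ ^ 2 : ℝ) : ℂ) := by
      rw [hp, hq, h1, h1, h]
    have h3 : ‖p x‖ ^ 2 = ‖q x‖ ^ 2 := by exact_mod_cast h2
    exact (pow_left_inj₀ (norm_nonneg _) (norm_nonneg _) (by norm_num)).1 h3
  obtain ⟨g, hg⟩ := q.rangeRestrict.exists_rightInverse_of_surjective
    (LinearMap.range_rangeRestrict q)
  have hqg : ∀ s : LinearMap.range q, q (g s) = s := by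
    intro s
    have := congrArg (fun f => (f s : EuclideanSpace ℂ ι)) hg
    simpa using this
  let L : LinearMap.range q →ₗᵢ[ℂ] EuclideanSpace ℂ ι :=
    { toLinearMap := p ∘ₗ g
      norm_map' := by
        intro s
        show ‖p (g s)‖ = ‖s‖
        rw [hpq, hqg]
        rfl }
  have hL : ∀ x, L.extend (q x) = p x := by
    intro x
    have h1 := L.extend_apply ⟨q x, LinearMap.mem_range_self q x⟩
    have h2 : L ⟨q x, LinearMap.mem_range_self q x⟩ = p (g ⟨q x, LinearMap.mem_range_self q x⟩) := rfl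
    rw [h2] at h1
    rw [show ((⟨q x, LinearMap.mem_range_self q x⟩ : LinearMap.range q) : EuclideanSpace ℂ ι) = q x
      from rfl] at h1
    rw [h1]
    have h3 : ‖p (g ⟨q x, LinearMap.mem_range_self q x⟩ - x)‖ = 0 := by
      rw [hpq, map_sub, hqg]
      simp
    rw [map_sub, norm_eq_zero, sub_eq_zero] at h3
    exact h3
  refine ⟨Matrix.toEuclideanLin.symm (L.extend.toLinearMap), ?_, ?_⟩
  · apply Matrix.toEuclideanLin.injective
    ext1 x
    have := hL x
    have h6 : Matrix.toEuclideanLin (Matrix.toEuclideanLin.symm L.extend.toLinearMap * Q) x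
        = (WithLp.toLp 2 ((Matrix.toEuclideanLin.symm (L.extend.toLinearMap)) *ᵥ
            (WithLp.ofLp (q x))) : EuclideanSpace ℂ ι) := by
      show (WithLp.toLp 2 ((Matrix.toEuclideanLin.symm L.extend.toLinearMap * Q) *ᵥ
        (WithLp.ofLp x)) : EuclideanSpace ℂ ι) = _
      rw [← Matrix.mulVec_mulVec]
      rfl
    rw [h6]
    have h4 : ∀ v : EuclideanSpace ℂ ι, (WithLp.toLp 2
      ((Matrix.toEuclideanLin.symm (L.extend.toLinearMap)) *ᵥ (WithLp.ofLp v)) : EuclideanSpace ℂ ι)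
        = L.extend v := by
      intro v
      have h5 : (WithLp.toLp 2
        ((Matrix.toEuclideanLin.symm (L.extend.toLinearMap)) *ᵥ (WithLp.ofLp v)) :
          EuclideanSpace ℂ ι)
          = Matrix.toEuclideanLin (Matrix.toEuclideanLin.symm (L.extend.toLinearMap)) v := rfl
      rw [h5]
      simp
    exact (h4 (q x)).trans this
  · intro v
    have h4 : (WithLp.toLp 2
      ((Matrix.toEuclideanLin.symm (L.extend.toLinearMap)) *ᵥ v) : EuclideanSpace ℂ ι)
        = L.extend (WithLp.toLp 2 v) := by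
      have h5 : (WithLp.toLp 2
        ((Matrix.toEuclideanLin.symm (L.extend.toLinearMap)) *ᵥ v) : EuclideanSpace ℂ ι)
          = Matrix.toEuclideanLin (Matrix.toEuclideanLin.symm (L.extend.toLinearMap))
            (WithLp.toLp 2 v) := rfl
      rw [h5]
      simp
    unfold nrm
    rw [h4]
    exact L.extend.norm_map _

end Crest.Agent.R132.F
end

-- ▼ part R132/FDual2
section

set_option autoImplicit false
open scoped ComplexOrder Matrix

namespace Crest.Agent.R132.F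

/-- Frobenius norm of a matrix. -/
noncomputable def fro {ι κ : Type*} [Fintype ι] [Fintype κ] (y : Matrix ι κ ℂ) : ℝ :=
  nrm (fun p : ι × κ => y p.1 p.2)

theorem fro_sq {ι κ : Type*} [Fintype ι] [Fintype κ] (y : Matrix ι κ ℂ) :
    fro y ^ 2 = ∑ i, ∑ j, ‖y i j‖ ^ 2 := by
  rw [fro, nrm_sq, Fintype.sum_prod_type]

theorem fro_nonneg {ι κ : Type*} [Fintype ι] [Fintype κ] (y : Matrix ι κ ℂ) : 0 ≤ fro y :=
  nrm_nonneg _

theorem fro_add_le {ι κ : Type*} [Fintype ι] [Fintype κ] (y z : Matrix ι κ ℂ) :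
    fro (y + z) ≤ fro y + fro z := by
  unfold fro
  exact nrm_add_le (fun p : ι × κ => y p.1 p.2) (fun p : ι × κ => z p.1 p.2)


theorem fro_sq_eq_trace {ι κ : Type*} [Fintype ι] [Fintype κ] (y : Matrix ι κ ℂ) :
    ((fro y ^ 2 : ℝ) : ℂ) = (yᴴ * y).trace := by
  rw [fro_sq]
  push_cast
  simp only [Matrix.trace, Matrix.diag_apply, Matrix.mul_apply, Matrix.conjTranspose_apply]
  rw [Finset.sum_comm]
  refine Finset.sum_congr rfl fun i _ => Finset.sum_congr rfl fun j _ => ?_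
  exact (Complex.conj_mul' (y j i)).symm

/-- coefficients of the transfer function -/
noncomputable def theta {ι : Type*} [Fintype ι] [DecidableEq ι] (a b c d : Matrix ι ι ℂ) :
    ℕ → Matrix ι ι ℂ
  | 0 => d
  | (k + 1) => c * a ^ k * b

theorem transfer_bound {ι : Type*} [Fintype ι] [DecidableEq ι] (a b c d : Matrix ι ι ℂ)
    (hW : ∀ u v : ι → ℂ, nrm (a *ᵥ u + b *ᵥ v) ^ 2 + nrm (c *ᵥ u + d *ᵥ v) ^ 2
      = nrm u ^ 2 + nrm v ^ 2) (ρ : ℝ) (h0 : 0 < ρ) (h1 : ρ < 1) (N : ℕ) (s : ℂ) (hs : ‖s‖ ≤ ρ)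
    (y : ι → ℂ) :
    nrm ((∑ k ∈ Finset.range (N + 1), s ^ k • theta a b c d k) *ᵥ y) ^ 2
      ≤ (1 + ρ ^ (2 * N) / (1 - ρ ^ 2)) * nrm y ^ 2 := by
  have ha : ∀ u : ι → ℂ, nrm (a *ᵥ u) ≤ nrm u := by
    intro u
    have := hW u 0
    simp only [Matrix.mulVec_zero, add_zero] at this
    have h2 : nrm (0 : ι → ℂ) = 0 := by simp [nrm]
    rw [h2] at this
    have h3 := sq_nonneg (nrm (c *ᵥ u))
    exact abs_le_of_sq_le_sq' (by nlinarith) (nrm_nonneg u) |>.2
  have hb : ∀ u : ι → ℂ, nrm (b *ᵥ u) ≤ nrm u := by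
    intro u
    have := hW 0 u
    simp only [Matrix.mulVec_zero, zero_add] at this
    have h2 : nrm (0 : ι → ℂ) = 0 := by simp [nrm]
    rw [h2] at this
    have h3 := sq_nonneg (nrm (d *ᵥ u))
    exact abs_le_of_sq_le_sq' (by nlinarith) (nrm_nonneg u) |>.2
  have hak : ∀ k, ∀ u : ι → ℂ, nrm (a ^ k *ᵥ u) ≤ nrm u := by
    intro k
    induction k with
    | zero => intro u; simp
    | succ k ih =>
      intro u
      rw [pow_succ, ← Matrix.mulVec_mulVec]
      exact (ih _).trans (ha u)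
  set Z : ℕ → Matrix ι ι ℂ := fun N => ∑ k ∈ Finset.range N, s ^ k • (a ^ k * b) with hZ
  have hZs : ∀ N, Z (N + 1) = Z N + s ^ N • (a ^ N * b) := fun N => by
    simp [hZ, Finset.sum_range_succ]
  have hZ1 : ∀ N, a * (s • Z N) + b = Z (N + 1) := by
    intro N
    induction N with
    | zero => simp [hZ]
    | succ N ih =>
      have e : a * (s • Z (N + 1)) + b
          = (a * (s • Z N) + b) + s ^ (N + 1) • (a ^ (N + 1) * b) := by
        rw [hZs N, smul_add, mul_add, pow_succ' s, pow_succ' a]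
        simp only [smul_smul, Matrix.mul_smul, Matrix.mul_assoc]
        abel
      rw [e, ih, hZs (N + 1)]
  have hP : ∀ N, c * (s • Z N) + d = ∑ k ∈ Finset.range (N + 1), s ^ k • theta a b c d k := by
    intro N
    induction N with
    | zero => simp [hZ, theta]
    | succ N ih =>
      rw [Finset.sum_range_succ, ← ih, hZs N]
      simp only [theta, smul_smul, Matrix.mul_smul, Matrix.mul_assoc, smul_add, mul_add, pow_succ' s]
      abel
  have key := hW (s • (Z N *ᵥ y)) y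
  have e1 : a *ᵥ (s • (Z N *ᵥ y)) + b *ᵥ y = Z (N + 1) *ᵥ y := by
    rw [← hZ1, Matrix.add_mulVec, ← Matrix.mulVec_mulVec, Matrix.smul_mulVec]
  have e2 : c *ᵥ (s • (Z N *ᵥ y)) + d *ᵥ y
      = (∑ k ∈ Finset.range (N + 1), s ^ k • theta a b c d k) *ᵥ y := by
    rw [← hP, Matrix.add_mulVec, ← Matrix.mulVec_mulVec, Matrix.smul_mulVec]
  rw [e1, e2, nrm_smul] at key
  -- compare Z N y and Z (N+1) y
  have e3 : Z N *ᵥ y = Z (N + 1) *ᵥ y + (-(s ^ N)) • ((a ^ N * b) *ᵥ y) := by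
    rw [hZs, Matrix.add_mulVec, Matrix.smul_mulVec]
    simp
  have e4 : nrm (Z N *ᵥ y) ≤ nrm (Z (N + 1) *ᵥ y) + ρ ^ N * nrm y := by
    rw [e3]
    refine (nrm_add_le _ _).trans ?_
    gcongr
    rw [nrm_smul, norm_neg, norm_pow, ← Matrix.mulVec_mulVec]
    gcongr
    · exact nrm_nonneg _
    · exact (hak N _).trans (hb y)
  set t := nrm (Z N *ᵥ y)
  set t' := nrm (Z (N + 1) *ᵥ y)
  set Y := nrm y
  have ht : 0 ≤ t := nrm_nonneg _
  have ht' : 0 ≤ t' := nrm_nonneg _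
  have hY : 0 ≤ Y := nrm_nonneg _
  have h1ρ : 0 < 1 - ρ ^ 2 := by nlinarith
  have e5 : (‖s‖ * t) ^ 2 ≤ ρ ^ 2 * (t' + ρ ^ N * Y) ^ 2 := by
    rw [mul_pow]
    gcongr
  have e6 : ρ ^ 2 * (t' + ρ ^ N * Y) ^ 2 ≤ t' ^ 2 + (ρ ^ N * Y) ^ 2 / (1 - ρ ^ 2) := by
    have e7 : t' ^ 2 + (ρ ^ N * Y) ^ 2 / (1 - ρ ^ 2) - ρ ^ 2 * (t' + ρ ^ N * Y) ^ 2
        = (((1 - ρ ^ 2) * t' - ρ ^ 2 * (ρ ^ N * Y)) ^ 2
          + (1 - ρ ^ 2) * (ρ ^ N * Y) ^ 2) / (1 - ρ ^ 2) := by
      field_simp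
      ring
    have e8 : 0 ≤ (((1 - ρ ^ 2) * t' - ρ ^ 2 * (ρ ^ N * Y)) ^ 2
          + (1 - ρ ^ 2) * (ρ ^ N * Y) ^ 2) / (1 - ρ ^ 2) := by positivity
    linarith
  have e9 : (ρ ^ N * Y) ^ 2 / (1 - ρ ^ 2) = ρ ^ (2 * N) / (1 - ρ ^ 2) * Y ^ 2 := by
    rw [mul_pow, ← pow_mul, mul_comm N 2]
    ring
  nlinarith

end Crest.Agent.R132.F
private theorem rz_328d769cb6 : type_of% @_root_.Crest.Agent.R132.F.theta.eq_1 := @_root_.Crest.Agent.R132.F.theta.eq_1 -- L40
end

-- ▼ part R132/FDual3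
section

set_option autoImplicit false
open scoped ComplexOrder Matrix

namespace Crest.Agent.R132.F

/-- Complete polynomial bound with constant `C` for `T` (in vectorised form). -/
def CPB {n : ℕ} (T : Matrix (Fin n) (Fin n) ℂ) (C : ℝ) : Prop :=
  ∀ (m N : ℕ) (B : ℕ → Matrix (Fin m) (Fin m) ℂ) (M : ℝ), 0 ≤ M →
    (∀ s : ℂ, ‖s‖ ≤ 1 → ∀ v : Fin m → ℂ,
      nrm ((∑ k ∈ Finset.range N, s ^ k • B k) *ᵥ v) ≤ M * nrm v) →
    ∀ y : Matrix (Fin m) (Fin n) ℂ,
      fro (∑ k ∈ Finset.range N, B k * y * (Tᵀ) ^ k) ≤ C * M * fro y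

section
open scoped MatrixOrder
theorem exists_gram {n : ℕ} (A : Matrix (Fin n) (Fin n) ℂ) (hA : A.PosSemidef) :
    ∃ B : Matrix (Fin n) (Fin n) ℂ, A = Bᴴ * B := by
  refine ⟨CFC.sqrt A, ?_⟩
  have h1 : (CFC.sqrt A).PosSemidef := Matrix.nonneg_iff_posSemidef.1 (CFC.sqrt_nonneg A)
  rw [h1.isHermitian.eq]
  exact (CFC.sqrt_mul_sqrt_self A hA.nonneg).symm
end

theorem iterate_identity {ι κ : Type*} [Fintype ι] [DecidableEq ι] [Fintype κ] [DecidableEq κ]
    (a b c d : Matrix ι ι ℂ) (x y z : Matrix ι κ ℂ) (t : Matrix κ κ ℂ)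
    (hz : z = a * z * t + b * y) (hx : x = c * z * t + d * y) (N : ℕ) :
    x = (∑ k ∈ Finset.range (N + 1), theta a b c d k * y * t ^ k) + c * a ^ N * z * t ^ (N + 1) := by
  induction N with
  | zero =>
    simp [theta]
    rw [add_comm]
    exact hx
  | succ N ih =>
    have e : c * a ^ N * z * t ^ (N + 1)
        = c * a ^ (N + 1) * z * t ^ (N + 1 + 1) + theta a b c d (N + 1) * y * t ^ (N + 1) := by
      conv_lhs => rw [hz]
      simp only [theta, pow_succ' t, pow_succ a, Matrix.mul_add, Matrix.add_mul, Matrix.mul_assoc]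
    rw [Finset.sum_range_succ]
    rw [e] at ih
    rw [ih]
    abel

theorem fro_le_of_CPB {n : ℕ} (T : Matrix (Fin n) (Fin n) ℂ) (C : ℝ) (hC : 0 ≤ C) (hT : CPB T C)
    (a b c d : Matrix (Fin n) (Fin n) ℂ)
    (hW : ∀ u v : Fin n → ℂ, nrm (a *ᵥ u + b *ᵥ v) ^ 2 + nrm (c *ᵥ u + d *ᵥ v) ^ 2
      = nrm u ^ 2 + nrm v ^ 2) (ρ : ℝ) (h0 : 0 < ρ) (h1 : ρ < 1)
    (x y z : Matrix (Fin n) (Fin n) ℂ)
    (hz : z = a * z * ((ρ : ℂ) • Tᵀ) + b * y) (hx : x = c * z * ((ρ : ℂ) • Tᵀ) + d * y) :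
    fro x ≤ C * fro y := by
  have ha : ∀ u : Fin n → ℂ, nrm (a *ᵥ u) ≤ nrm u := by
    intro u
    have := hW u 0
    simp only [Matrix.mulVec_zero, add_zero] at this
    have h2 : nrm (0 : Fin n → ℂ) = 0 := by simp [nrm]
    rw [h2] at this
    have h3 := sq_nonneg (nrm (c *ᵥ u))
    exact abs_le_of_sq_le_sq' (by nlinarith) (nrm_nonneg u) |>.2
  have hc : ∀ u : Fin n → ℂ, nrm (c *ᵥ u) ≤ nrm u := by
    intro u
    have := hW u 0
    simp only [Matrix.mulVec_zero, add_zero] at this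
    have h2 : nrm (0 : Fin n → ℂ) = 0 := by simp [nrm]
    rw [h2] at this
    have h3 := sq_nonneg (nrm (a *ᵥ u))
    exact abs_le_of_sq_le_sq' (by nlinarith) (nrm_nonneg u) |>.2
  have hak : ∀ k, ∀ u : Fin n → ℂ, nrm (a ^ k *ᵥ u) ≤ nrm u := by
    intro k
    induction k with
    | zero => intro u; simp
    | succ k ih =>
      intro u
      rw [pow_succ, ← Matrix.mulVec_mulVec]
      exact (ih _).trans (ha u)
  have h1ρ : 0 < 1 - ρ ^ 2 := by nlinarith
  -- bound for each N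
  have hN : ∀ N : ℕ, fro x ≤ C * Real.sqrt (1 + ρ ^ (2 * N) / (1 - ρ ^ 2)) * fro y
      + C * ρ ^ (N + 1) * fro z := by
    intro N
    have hit := iterate_identity a b c d x y z ((ρ : ℂ) • Tᵀ) hz hx N
    have b1 : fro (∑ k ∈ Finset.range (N + 1), theta a b c d k * y * ((ρ : ℂ) • Tᵀ) ^ k)
        ≤ C * Real.sqrt (1 + ρ ^ (2 * N) / (1 - ρ ^ 2)) * fro y := by
      have := hT n (N + 1) (fun k => (ρ : ℂ) ^ k • theta a b c d k)
        (Real.sqrt (1 + ρ ^ (2 * N) / (1 - ρ ^ 2))) (Real.sqrt_nonneg _) ?_ y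
      · convert this using 3 with k
        rw [smul_pow]
        simp
      · intro s hs v
        have hs' : ‖s * (ρ : ℂ)‖ ≤ ρ := by
          rw [norm_mul, Complex.norm_real, Real.norm_of_nonneg h0.le]
          nlinarith
        have hb := transfer_bound a b c d hW ρ h0 h1 N (s * ρ) hs' v
        have e : (∑ k ∈ Finset.range (N + 1), s ^ k • ((ρ : ℂ) ^ k • theta a b c d k))
            = ∑ k ∈ Finset.range (N + 1), (s * (ρ : ℂ)) ^ k • theta a b c d k := by
          refine Finset.sum_congr rfl fun k _ => ?_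
          rw [smul_smul, mul_pow]
        rw [e]
        refine abs_le_of_sq_le_sq' ?_ (mul_nonneg (Real.sqrt_nonneg _) (nrm_nonneg v)) |>.2
        rw [mul_pow, Real.sq_sqrt (by positivity)]
        exact hb
    have b2 : fro (c * a ^ N * z * ((ρ : ℂ) • Tᵀ) ^ (N + 1)) ≤ C * ρ ^ (N + 1) * fro z := by
      have := hT n (N + 2) (fun k => if k = N + 1 then (ρ : ℂ) ^ (N + 1) • (c * a ^ N) else 0)
        (ρ ^ (N + 1)) (by positivity) ?_ z
      · convert this using 2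
        rw [Finset.sum_eq_single (N + 1)]
        · rw [smul_pow]
          simp
        · intro k _ hk
          simp [hk]
        · intro h
          simp at h
      · intro s hs v
        rw [Finset.sum_eq_single (N + 1)]
        · simp only [if_true]
          rw [Matrix.smul_mulVec, Matrix.smul_mulVec, nrm_smul, nrm_smul, ← Matrix.mulVec_mulVec]
          rw [norm_pow, norm_pow, Complex.norm_real, Real.norm_of_nonneg h0.le]
          have h2 : nrm (c *ᵥ (a ^ N *ᵥ v)) ≤ nrm v := (hc _).trans (hak N v)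
          have h3 : ‖s‖ ^ (N + 1) ≤ 1 := pow_le_one₀ (norm_nonneg _) hs
          have h4 : 0 ≤ nrm (c *ᵥ (a ^ N *ᵥ v)) := nrm_nonneg _
          have h5 : 0 < ρ ^ (N + 1) := by positivity
          calc ‖s‖ ^ (N + 1) * (ρ ^ (N + 1) * nrm (c *ᵥ (a ^ N *ᵥ v)))
              ≤ 1 * (ρ ^ (N + 1) * nrm v) := by gcongr
            _ = _ := by ring
        · intro k _ hk
          simp [hk]
        · intro h
          simp at h
    calc fro x = fro ((∑ k ∈ Finset.range (N + 1), theta a b c d k * y * ((ρ : ℂ) • Tᵀ) ^ k)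
          + c * a ^ N * z * ((ρ : ℂ) • Tᵀ) ^ (N + 1)) := by rw [← hit]
      _ ≤ _ := (fro_add_le _ _).trans (add_le_add b1 b2)
  have lim : Filter.Tendsto (fun N : ℕ => C * Real.sqrt (1 + ρ ^ (2 * N) / (1 - ρ ^ 2)) * fro y
      + C * ρ ^ (N + 1) * fro z) Filter.atTop (nhds (C * Real.sqrt (1 + 0 / (1 - ρ ^ 2)) * fro y
      + C * 0 * fro z)) := by
    have l1 : Filter.Tendsto (fun N : ℕ => ρ ^ (2 * N)) Filter.atTop (nhds 0) := by
      have := tendsto_pow_atTop_nhds_zero_of_lt_one (r := ρ ^ 2) (by positivity) (by nlinarith)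
      simpa [pow_mul] using this
    have l2 : Filter.Tendsto (fun N : ℕ => ρ ^ (N + 1)) Filter.atTop (nhds 0) :=
      (tendsto_pow_atTop_nhds_zero_of_lt_one h0.le h1).comp (Filter.tendsto_add_atTop_nat 1)
    refine Filter.Tendsto.add ?_ ?_
    · refine Filter.Tendsto.mul_const _ (Filter.Tendsto.const_mul _ ?_)
      exact (Real.continuous_sqrt.tendsto _).comp ((l1.div_const _).const_add 1)
    · exact (l2.const_mul C).mul_const _
  have := ge_of_tendsto' lim hN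
  simpa using this

theorem sumElim_nrm_sq {ι κ : Type*} [Fintype ι] [Fintype κ] (u : ι → ℂ) (v : κ → ℂ) :
    nrm (Sum.elim u v) ^ 2 = nrm u ^ 2 + nrm v ^ 2 := by
  simp [nrm_sq]

/-- The dual inequality for a single `ρ < 1`. -/
theorem dual_ineq_rho {n : ℕ} (T : Matrix (Fin n) (Fin n) ℂ) (C : ℝ) (hC : 0 ≤ C) (hT : CPB T C)
    (X Y Z : Matrix (Fin n) (Fin n) ℂ) (hX : X.PosSemidef) (hY : Y.PosSemidef) (hZ : Z.PosSemidef)
    (ρ : ℝ) (h0 : 0 < ρ) (h1 : ρ < 1)
    (h : Z + X = ((ρ : ℂ) • T) * Z * ((ρ : ℂ) • T)ᴴ + Y) :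
    X.trace.re ≤ C ^ 2 * Y.trace.re := by
  obtain ⟨x, hx⟩ := exists_gram _ hX.transpose
  obtain ⟨y, hy⟩ := exists_gram _ hY.transpose
  obtain ⟨z, hz⟩ := exists_gram _ hZ.transpose
  set t : Matrix (Fin n) (Fin n) ℂ := (ρ : ℂ) • Tᵀ with ht
  have hg : (Matrix.fromRows z x)ᴴ * (Matrix.fromRows z x)
      = (Matrix.fromRows (z * t) y)ᴴ * (Matrix.fromRows (z * t) y) := by
    rw [Matrix.conjTranspose_fromRows_eq_fromCols_conjTranspose,
      Matrix.conjTranspose_fromRows_eq_fromCols_conjTranspose, Matrix.fromCols_mul_fromRows,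
      Matrix.fromCols_mul_fromRows, ← hx, ← hz, ← hy]
    have := congrArg Matrix.transpose h
    rw [Matrix.transpose_add, Matrix.transpose_add, Matrix.transpose_mul, Matrix.transpose_mul,
      hz] at this
    rw [hz, this]
    congr 1
    rw [ht]
    simp only [Matrix.conjTranspose_mul, Matrix.mul_assoc, Matrix.conjTranspose_smul,
      Matrix.transpose_smul]
    rfl
  obtain ⟨W, hW1, hW2⟩ := exists_isometry_mul _ _ hg
  set a := W.toBlocks₁₁
  set b := W.toBlocks₁₂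
  set c := W.toBlocks₂₁
  set d := W.toBlocks₂₂
  have hW3 : W = Matrix.fromBlocks a b c d := (Matrix.fromBlocks_toBlocks W).symm
  rw [hW3, Matrix.fromBlocks_mul_fromRows] at hW1
  have e1 := Matrix.fromRows_inj hW1
  obtain ⟨e1, e2⟩ := e1
  have hWn : ∀ u v : Fin n → ℂ, nrm (a *ᵥ u + b *ᵥ v) ^ 2 + nrm (c *ᵥ u + d *ᵥ v) ^ 2
      = nrm u ^ 2 + nrm v ^ 2 := by
    intro u v
    have := hW2 (Sum.elim u v)
    rw [hW3, Matrix.fromBlocks_mulVec] at this
    simp only [Sum.elim_comp_inl, Sum.elim_comp_inr] at this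
    rw [← sumElim_nrm_sq, ← sumElim_nrm_sq, this]
  have hfro := fro_le_of_CPB T C hC hT a b c d hWn ρ h0 h1 x y z
    (by rw [← ht, Matrix.mul_assoc]; exact e1.symm) (by rw [← ht, Matrix.mul_assoc]; exact e2.symm)
  have hxt : X.trace = ((fro x ^ 2 : ℝ) : ℂ) := by
    rw [fro_sq_eq_trace, ← hx, Matrix.trace_transpose]
  have hyt : Y.trace = ((fro y ^ 2 : ℝ) : ℂ) := by
    rw [fro_sq_eq_trace, ← hy, Matrix.trace_transpose]
  rw [hxt, hyt, Complex.ofReal_re, Complex.ofReal_re, ← mul_pow]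
  exact pow_le_pow_left₀ (fro_nonneg _) hfro 2

/-- The dual inequality (F1). -/
theorem dual_ineq {n : ℕ} (T : Matrix (Fin n) (Fin n) ℂ) (C : ℝ) (hC : 0 ≤ C) (hT : CPB T C)
    (X Y Z : Matrix (Fin n) (Fin n) ℂ) (hX : X.PosSemidef) (hY : Y.PosSemidef) (hZ : Z.PosSemidef)
    (h : Z + X = T * Z * Tᴴ + Y) :
    X.trace.re ≤ C ^ 2 * Y.trace.re := by
  have hρ : ∀ ρ : ℝ, 0 < ρ → ρ < 1 →
      X.trace.re ≤ C ^ 2 * (Y.trace.re + (1 - ρ ^ 2) * (T * Z * Tᴴ).trace.re) := by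
    intro ρ h0 h1
    have hTZ : (T * Z * Tᴴ).PosSemidef := hZ.mul_mul_conjTranspose_same T
    have hY' : (Y + ((1 - ρ ^ 2 : ℝ) : ℂ) • (T * Z * Tᴴ)).PosSemidef := by
      refine hY.add (hTZ.smul ?_)
      have : (0 : ℝ) ≤ 1 - ρ ^ 2 := by nlinarith
      exact_mod_cast this
    have := dual_ineq_rho T C hC hT X _ Z hX hY' hZ ρ h0 h1 (by
      rw [h]
      simp only [Matrix.conjTranspose_smul, Matrix.smul_mul, Matrix.mul_smul, smul_smul]
      have : star (ρ : ℂ) = (ρ : ℂ) := Complex.conj_ofReal ρ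
      rw [this]
      push_cast
      rw [sub_smul, one_smul]
      rw [sq]
      abel)
    refine this.trans (le_of_eq ?_)
    rw [Matrix.trace_add, Matrix.trace_smul, Complex.add_re, smul_eq_mul, Complex.re_ofReal_mul]
  have lim : Filter.Tendsto (fun ρ : ℝ => C ^ 2 * (Y.trace.re + (1 - ρ ^ 2) * (T * Z * Tᴴ).trace.re))
      (nhdsWithin 1 (Set.Iio 1)) (nhds (C ^ 2 * (Y.trace.re + (1 - 1 ^ 2) * (T * Z * Tᴴ).trace.re))) := by
    refine Filter.Tendsto.mono_left ?_ nhdsWithin_le_nhds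
    exact Continuous.tendsto (by fun_prop) 1
  have hev : ∀ᶠ ρ in nhdsWithin (1 : ℝ) (Set.Iio 1),
      X.trace.re ≤ C ^ 2 * (Y.trace.re + (1 - ρ ^ 2) * (T * Z * Tᴴ).trace.re) := by
    have : Set.Ioo (0 : ℝ) 1 ∈ nhdsWithin (1 : ℝ) (Set.Iio 1) :=
      Ioo_mem_nhdsLT (by norm_num)
    filter_upwards [this] with ρ hρ'
    exact hρ ρ hρ'.1 hρ'.2
  have := ge_of_tendsto lim hev
  simpa using this

end Crest.Agent.R132.F
end

-- ▼ part R132/FDual4
section

set_option autoImplicit false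
open scoped ComplexOrder Matrix
open Crest.AnalysisR.NumRange

namespace Crest.Agent.R132.F

/-- Jordan decomposition together with the optimal test matrix. -/
theorem jordan_test {n : ℕ} (D : Matrix (Fin n) (Fin n) ℂ) (hD : D.IsHermitian) (c : ℝ)
    (hc : 1 ≤ c) :
    ∃ X Y H : Matrix (Fin n) (Fin n) ℂ, X.PosSemidef ∧ Y.PosSemidef ∧ D = Y - X ∧
      (H - 1).PosSemidef ∧ ((c : ℂ) • (1 : Matrix (Fin n) (Fin n) ℂ) - H).PosSemidef ∧
      (H * D).trace.re = c * Y.trace.re - X.trace.re := by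
  set U : Matrix (Fin n) (Fin n) ℂ := (hD.eigenvectorUnitary : Matrix (Fin n) (Fin n) ℂ) with hU
  have hU1 : Uᴴ * U = 1 := by
    have := Unitary.star_mul_self_of_mem hD.eigenvectorUnitary.2
    exact this
  have hU2 : U * Uᴴ = 1 := by
    have := Unitary.mul_star_self_of_mem hD.eigenvectorUnitary.2
    exact this
  set l := hD.eigenvalues with hl
  have hspec : D = U * Matrix.diagonal (fun i => (l i : ℂ)) * Uᴴ := by
    have := hD.spectral_theorem
    rw [Unitary.conjStarAlgAut_apply] at this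
    exact this
  have hdiag : ∀ w : Fin n → ℝ, (∀ i, 0 ≤ w i) →
      (U * Matrix.diagonal (fun i => (w i : ℂ)) * Uᴴ).PosSemidef := by
    intro w hw
    refine Matrix.PosSemidef.mul_mul_conjTranspose_same ?_ U
    refine Matrix.PosSemidef.diagonal ?_
    intro i
    show (0 : ℂ) ≤ (w i : ℂ)
    exact_mod_cast hw i
  have htr : ∀ w : Fin n → ℂ, (U * Matrix.diagonal w * Uᴴ).trace = ∑ i, w i := by
    intro w
    rw [Matrix.trace_mul_comm, ← Matrix.mul_assoc, hU1, Matrix.one_mul, Matrix.trace_diagonal]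
  have h1 : (1 : Matrix (Fin n) (Fin n) ℂ) = U * Matrix.diagonal (fun _ => (1 : ℂ)) * Uᴴ := by
    have : Matrix.diagonal (fun _ : Fin n => (1 : ℂ)) = 1 := Matrix.diagonal_one
    rw [this, Matrix.mul_one, hU2]
  refine ⟨U * Matrix.diagonal (fun i => ((max (-l i) 0 : ℝ) : ℂ)) * Uᴴ,
    U * Matrix.diagonal (fun i => ((max (l i) 0 : ℝ) : ℂ)) * Uᴴ,
    U * Matrix.diagonal (fun i => (((if 0 < l i then c else 1) : ℝ) : ℂ)) * Uᴴ,
    hdiag _ (fun i => le_max_right _ _), hdiag _ (fun i => le_max_right _ _), ?_, ?_, ?_, ?_⟩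
  · rw [← sub_mul, ← mul_sub, Matrix.diagonal_sub]
    conv_lhs => rw [hspec]
    congr 3
    ext i
    rw [← Complex.ofReal_sub]
    congr 1
    rcases le_total (l i) 0 with h | h
    · rw [max_eq_right h, max_eq_left (by linarith)]; ring
    · rw [max_eq_left h, max_eq_right (by linarith)]; ring
  · have e : U * Matrix.diagonal (fun i => (((if 0 < l i then c else 1) : ℝ) : ℂ)) * Uᴴ - 1
        = U * Matrix.diagonal (fun i => (((if 0 < l i then c else 1) - 1 : ℝ) : ℂ)) * Uᴴ := by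
      conv_lhs => rw [h1]
      rw [← sub_mul, ← mul_sub, Matrix.diagonal_sub]
      congr 3
      ext i
      push_cast
      rfl
    rw [e]
    refine hdiag _ fun i => ?_
    split_ifs <;> linarith
  · have e : (c : ℂ) • (1 : Matrix (Fin n) (Fin n) ℂ)
        - U * Matrix.diagonal (fun i => (((if 0 < l i then c else 1) : ℝ) : ℂ)) * Uᴴ
        = U * Matrix.diagonal (fun i => ((c - (if 0 < l i then c else 1) : ℝ) : ℂ)) * Uᴴ := by
      have h2 : (c : ℂ) • (1 : Matrix (Fin n) (Fin n) ℂ)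
          = U * Matrix.diagonal (fun _ => (c : ℂ)) * Uᴴ := by
        have : Matrix.diagonal (fun _ : Fin n => (c : ℂ)) = (c : ℂ) • 1 := by
          rw [Matrix.smul_one_eq_diagonal]
        rw [this, Matrix.mul_smul, Matrix.smul_mul, Matrix.mul_one, hU2]
      rw [h2, ← sub_mul, ← mul_sub, Matrix.diagonal_sub]
      congr 3
      ext i
      push_cast
      rfl
    rw [e]
    refine hdiag _ fun i => ?_
    split_ifs <;> linarith
  · have e : U * Matrix.diagonal (fun i => (((if 0 < l i then c else 1) : ℝ) : ℂ)) * Uᴴ * D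
        = U * Matrix.diagonal (fun i => (((if 0 < l i then c else 1) * l i : ℝ) : ℂ)) * Uᴴ := by
      conv_lhs => rw [hspec]
      have : U * Matrix.diagonal (fun i => (((if 0 < l i then c else 1) : ℝ) : ℂ)) * Uᴴ *
          (U * Matrix.diagonal (fun i => (l i : ℂ)) * Uᴴ)
          = U * Matrix.diagonal (fun i => (((if 0 < l i then c else 1) : ℝ) : ℂ)) * (Uᴴ * U)
            * Matrix.diagonal (fun i => (l i : ℂ)) * Uᴴ := by
        simp only [Matrix.mul_assoc]
      rw [this, hU1, Matrix.mul_one, Matrix.mul_assoc U, Matrix.diagonal_mul_diagonal]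
      congr 3
      ext i
      push_cast
      rfl
    rw [e, htr, htr, htr, Complex.re_sum, Complex.re_sum, Complex.re_sum, Finset.mul_sum,
      ← Finset.sum_sub_distrib]
    refine Finset.sum_congr rfl fun i _ => ?_
    simp only [Complex.ofReal_re]
    split_ifs with h
    · rw [max_eq_left h.le, max_eq_right (by linarith)]; ring
    · push Not at h
      rw [max_eq_right h, max_eq_left (by linarith)]; ring

theorem norm_entry_le_trace {n : ℕ} (H : Matrix (Fin n) (Fin n) ℂ) (hH : H.PosSemidef)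
    (i j : Fin n) : ‖H i j‖ ≤ H.trace.re := by
  obtain ⟨B, hB⟩ := exists_gram H hH
  have ht : H.trace = ((fro B ^ 2 : ℝ) : ℂ) := by rw [fro_sq_eq_trace, ← hB]
  rw [ht, Complex.ofReal_re, fro_sq]
  have h1 : H i j = ∑ k, star (B k i) * B k j := by
    rw [hB, Matrix.mul_apply]
    rfl
  rw [h1]
  refine (norm_sum_le _ _).trans ?_
  have h2 : ∀ k, ‖star (B k i) * B k j‖ ≤ (‖B k i‖ ^ 2 + ‖B k j‖ ^ 2) / 2 := by
    intro k
    rw [norm_mul, norm_star]
    nlinarith [sq_nonneg (‖B k i‖ - ‖B k j‖)]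
  refine Finset.sum_le_sum fun k _ => (h2 k).trans ?_
  have h3 : ∀ i, ‖B k i‖ ^ 2 ≤ ∑ j, ‖B k j‖ ^ 2 := fun i =>
    Finset.single_le_sum (f := fun j => ‖B k j‖ ^ 2) (fun _ _ => sq_nonneg _) (Finset.mem_univ i)
  have := h3 i
  have := h3 j
  linarith

theorem isClosed_posSemidef {n : ℕ} : IsClosed {P : Matrix (Fin n) (Fin n) ℂ | P.PosSemidef} := by
  have : {P : Matrix (Fin n) (Fin n) ℂ | P.PosSemidef}
      = {P | Pᴴ = P} ∩ ⋂ x : Fin n → ℂ, {P | 0 ≤ star x ⬝ᵥ (P *ᵥ x)} := by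
    ext P
    simp only [Set.mem_ofPred_eq, Set.mem_inter_iff, Set.mem_iInter]
    exact Matrix.posSemidef_iff_dotProduct_mulVec
  rw [this]
  refine IsClosed.inter ?_ (isClosed_iInter fun x => ?_)
  · exact isClosed_eq (by fun_prop) continuous_id
  · exact isClosed_le continuous_const (by fun_prop)

theorem isCompact_metricSet {n : ℕ} (c : ℝ) :
    IsCompact {H : Matrix (Fin n) (Fin n) ℂ | (H - 1).PosSemidef ∧
      ((c : ℂ) • (1 : Matrix (Fin n) (Fin n) ℂ) - H).PosSemidef} := by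
  have hcl : IsClosed {H : Matrix (Fin n) (Fin n) ℂ | (H - 1).PosSemidef ∧
      ((c : ℂ) • (1 : Matrix (Fin n) (Fin n) ℂ) - H).PosSemidef} := by
    refine IsClosed.inter ?_ ?_
    · exact isClosed_posSemidef.preimage (by fun_prop : Continuous fun H : Matrix (Fin n) (Fin n) ℂ => H - 1)
    · exact isClosed_posSemidef.preimage (by fun_prop : Continuous fun H : Matrix (Fin n) (Fin n) ℂ =>
        (c : ℂ) • (1 : Matrix (Fin n) (Fin n) ℂ) - H)
  have hK : IsCompact (Set.pi Set.univ (fun _ : Fin n => Set.pi Set.univ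
      (fun _ : Fin n => Metric.closedBall (0 : ℂ) (c * n)))) :=
    isCompact_univ_pi fun _ => isCompact_univ_pi fun _ => isCompact_closedBall _ _
  refine hK.of_isClosed_subset hcl (fun (H : Matrix (Fin n) (Fin n) ℂ) hHm => ?_)
  obtain ⟨h1, h2⟩ := hHm
  intro i _ j _
  have hH : H.PosSemidef := by
    have := h1.add Matrix.PosSemidef.one
    simpa using this
  rw [mem_closedBall_zero_iff]
  refine (norm_entry_le_trace H hH i j).trans ?_
  have h3 := h2.trace_nonneg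
  rw [Matrix.trace_sub, Matrix.trace_smul, Matrix.trace_one, Fintype.card_fin] at h3
  have h4 := (Complex.le_def.1 h3).1
  simp at h4
  linarith

theorem linear_repr {n : ℕ} (L : Matrix (Fin n) (Fin n) ℂ →ₗ[ℝ] ℝ) :
    ∃ Z₀ : Matrix (Fin n) (Fin n) ℂ, ∀ M, L M = (M * Z₀).trace.re := by
  refine ⟨Matrix.of fun j i => (L (Matrix.single i j (1 : ℂ)) : ℂ)
    - Complex.I * (L (Matrix.single i j Complex.I) : ℂ), fun M => ?_⟩
  have hM : M = ∑ i, ∑ j, ((M i j).re • Matrix.single i j (1 : ℂ)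
      + (M i j).im • Matrix.single i j Complex.I) := by
    conv_lhs => rw [Matrix.matrix_eq_sum_single M]
    refine Finset.sum_congr rfl fun i _ => Finset.sum_congr rfl fun j _ => ?_
    rw [Matrix.smul_single, Matrix.smul_single, ← Matrix.single_add]
    congr 1
    simp [Complex.re_add_im]
  conv_lhs => rw [hM]
  rw [map_sum]
  simp only [Matrix.trace, Matrix.diag_apply, Matrix.mul_apply, Matrix.of_apply, Complex.re_sum]
  refine Finset.sum_congr rfl fun i _ => ?_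
  rw [map_sum]
  refine Finset.sum_congr rfl fun j _ => ?_
  rw [map_add, map_smul, map_smul]
  simp [Complex.mul_re, Complex.sub_re, Complex.sub_im, Complex.mul_im]

theorem linear_repr_herm {n : ℕ} (L : Matrix (Fin n) (Fin n) ℂ →ₗ[ℝ] ℝ) :
    ∃ Z : Matrix (Fin n) (Fin n) ℂ, Z.IsHermitian ∧ ∀ M : Matrix (Fin n) (Fin n) ℂ,
      M.IsHermitian → L M = (M * Z).trace.re := by
  obtain ⟨Z₀, hZ₀⟩ := linear_repr L
  refine ⟨(1 / 2 : ℂ) • (Z₀ + Z₀ᴴ), ?_, fun M hM => ?_⟩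
  · rw [Matrix.IsHermitian, Matrix.conjTranspose_smul, Matrix.conjTranspose_add,
      Matrix.conjTranspose_conjTranspose, add_comm Z₀ᴴ]
    congr 1
    simp
  · rw [hZ₀, Matrix.mul_smul, Matrix.mul_add, Matrix.trace_smul, Matrix.trace_add]
    have h1 : (M * Z₀ᴴ).trace = star (M * Z₀).trace := by
      rw [← Matrix.trace_conjTranspose, Matrix.conjTranspose_mul, hM.eq, Matrix.trace_mul_comm]
    rw [h1, smul_eq_mul]
    have h2 : (star (M * Z₀).trace).re = (M * Z₀).trace.re := Complex.conj_re _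
    have h3 : ((1 / 2 : ℂ) * ((M * Z₀).trace + star (M * Z₀).trace)).re
        = (1 / 2) * ((M * Z₀).trace.re + (star (M * Z₀).trace).re) := by
      have : (1 / 2 : ℂ) = ((1 / 2 : ℝ) : ℂ) := by push_cast; rfl
      rw [this, Complex.re_ofReal_mul, Complex.add_re]
    rw [h3, h2]
    ring

/-- Existence of the metric from the dual inequality. -/
theorem exists_metric {n : ℕ} (T : Matrix (Fin n) (Fin n) ℂ) (c : ℝ) (hc : 1 ≤ c)
    (dual : ∀ X Y Z : Matrix (Fin n) (Fin n) ℂ, X.PosSemidef → Y.PosSemidef → Z.PosSemidef →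
      Z + X = T * Z * Tᴴ + Y → X.trace.re ≤ c * Y.trace.re) :
    ∃ H : Matrix (Fin n) (Fin n) ℂ, MetricFeasible T H c := by
  by_contra hcon
  push Not at hcon
  set K : Set (Matrix (Fin n) (Fin n) ℂ) := {H | (H - 1).PosSemidef ∧
      ((c : ℂ) • (1 : Matrix (Fin n) (Fin n) ℂ) - H).PosSemidef} with hK
  have hKc : IsCompact K := isCompact_metricSet c
  have hKconv : Convex ℝ K := by
    intro H₁ h₁ H₂ h₂ a b ha hb hab
    have hab' : (a : ℂ) + b = 1 := by exact_mod_cast hab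
    have ha' : (0 : ℂ) ≤ a := by exact_mod_cast ha
    have hb' : (0 : ℂ) ≤ b := by exact_mod_cast hb
    constructor
    · have e : a • H₁ + b • H₂ - 1 = (a : ℂ) • (H₁ - 1) + (b : ℂ) • (H₂ - 1) := by
        rw [smul_sub, smul_sub]
        have : (1 : Matrix (Fin n) (Fin n) ℂ) = (a : ℂ) • 1 + (b : ℂ) • 1 := by
          rw [← add_smul, hab', one_smul]
        conv_lhs => rw [this]
        simp only [Complex.coe_smul]
        abel
      rw [e]
      exact (h₁.1.smul ha').add (h₂.1.smul hb')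
    · have e : (c : ℂ) • (1 : Matrix (Fin n) (Fin n) ℂ) - (a • H₁ + b • H₂)
          = (a : ℂ) • ((c : ℂ) • (1 : Matrix (Fin n) (Fin n) ℂ) - H₁)
            + (b : ℂ) • ((c : ℂ) • (1 : Matrix (Fin n) (Fin n) ℂ) - H₂) := by
        rw [smul_sub, smul_sub]
        have : (c : ℂ) • (1 : Matrix (Fin n) (Fin n) ℂ)
            = (a : ℂ) • ((c : ℂ) • (1 : Matrix (Fin n) (Fin n) ℂ))
              + (b : ℂ) • ((c : ℂ) • (1 : Matrix (Fin n) (Fin n) ℂ)) := by
          rw [← add_smul, hab', one_smul]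
        conv_lhs => rw [this]
        simp only [Complex.coe_smul]
        abel
      rw [e]
      exact (h₁.2.smul ha').add (h₂.2.smul hb')
  let φ : Matrix (Fin n) (Fin n) ℂ →ₗ[ℝ] Matrix (Fin n) (Fin n) ℂ :=
    { toFun := fun H => H - Tᴴ * H * T
      map_add' := by intro x y; simp only [Matrix.mul_add, Matrix.add_mul]; abel
      map_smul' := by
        intro r x
        simp only [Matrix.mul_smul, Matrix.smul_mul, smul_sub, RingHom.id_apply] }
  have hφc : Continuous φ := by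
    show Continuous fun H : Matrix (Fin n) (Fin n) ℂ => H - Tᴴ * H * T
    fun_prop
  have hs1 : Convex ℝ (φ '' K) := hKconv.linear_image φ
  have hs2 : IsCompact (φ '' K) := hKc.image hφc
  have ht1 : Convex ℝ {P : Matrix (Fin n) (Fin n) ℂ | P.PosSemidef} := by
    intro H₁ h₁ H₂ h₂ a b ha hb hab
    have ha' : (0 : ℂ) ≤ a := by exact_mod_cast ha
    have hb' : (0 : ℂ) ≤ b := by exact_mod_cast hb
    have := (Matrix.PosSemidef.smul h₁ ha').add (Matrix.PosSemidef.smul h₂ hb')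
    show (a • H₁ + b • H₂).PosSemidef
    simpa only [Complex.coe_smul] using this
  have ht2 : IsClosed {P : Matrix (Fin n) (Fin n) ℂ | P.PosSemidef} := isClosed_posSemidef
  have hdisj : Disjoint (φ '' K) {P : Matrix (Fin n) (Fin n) ℂ | P.PosSemidef} := by
    rw [Set.disjoint_left]
    rintro _ ⟨H, hH, rfl⟩ hP
    exact hcon H ⟨hH.1, hH.2, hP⟩
  have : LocallyConvexSpace ℝ (Matrix (Fin n) (Fin n) ℂ) :=
    inferInstanceAs (LocallyConvexSpace ℝ (Fin n → Fin n → ℂ))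
  obtain ⟨L, u, v, hL1, huv, hL2⟩ := geometric_hahn_banach_compact_closed hs1 hs2 ht1 ht2 hdisj
  have hv0 : v < 0 := by
    have := hL2 0 Matrix.PosSemidef.zero
    simpa using this
  have hLneg : ∀ H ∈ K, L (φ H) < 0 := fun H hH =>
    (hL1 _ ⟨H, hH, rfl⟩).trans (huv.trans hv0)
  have hLpos : ∀ P : Matrix (Fin n) (Fin n) ℂ, P.PosSemidef → 0 ≤ L P := by
    intro P hP
    by_contra hneg
    push Not at hneg
    have hr : 0 ≤ v / L P := div_nonneg_of_nonpos hv0.le hneg.le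
    have hr' : (0 : ℂ) ≤ ((v / L P : ℝ) : ℂ) := by exact_mod_cast hr
    have h1 := hL2 (((v / L P : ℝ) : ℂ) • P) (Matrix.PosSemidef.smul hP hr')
    rw [Complex.coe_smul, map_smul, smul_eq_mul, div_mul_cancel₀ _ hneg.ne] at h1
    exact lt_irrefl _ h1
  obtain ⟨Z, hZh, hZ⟩ := linear_repr_herm (L : Matrix (Fin n) (Fin n) ℂ →ₗ[ℝ] ℝ)
  have hZ' : ∀ M : Matrix (Fin n) (Fin n) ℂ, M.IsHermitian → L M = (M * Z).trace.re := hZ
  have hZpos : Z.PosSemidef := by
    refine Matrix.PosSemidef.of_dotProduct_mulVec_nonneg hZh fun x => ?_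
    have h1 := hLpos _ (Matrix.posSemidef_vecMulVec_self_star x)
    rw [hZ' _ (Matrix.posSemidef_vecMulVec_self_star x).isHermitian] at h1
    have h2 : (Matrix.vecMulVec x (star x) * Z).trace = star x ⬝ᵥ (Z *ᵥ x) := by
      rw [Matrix.vecMulVec_mul, Matrix.trace_vecMulVec, Matrix.dotProduct_mulVec, dotProduct_comm]
    rw [h2] at h1
    have h3 : (star x ⬝ᵥ (Z *ᵥ x)).im = 0 := hZh.im_star_dotProduct_mulVec_self x
    rw [Complex.le_def]
    exact ⟨by simpa using h1, by simp [h3]⟩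
  obtain ⟨X, Y, H, hX, hY, hD, hH1, hH2, htr⟩ := jordan_test (Z - T * Z * Tᴴ)
    (hZh.sub (hZpos.mul_mul_conjTranspose_same T).isHermitian) c hc
  have hHK : H ∈ K := ⟨hH1, hH2⟩
  have hHherm : H.IsHermitian := by
    have := hH1.isHermitian.add Matrix.isHermitian_one
    simpa using this
  have h1 := hLneg H hHK
  have hφH : φ H = H - Tᴴ * H * T := rfl
  have hφherm : (H - Tᴴ * H * T).IsHermitian :=
    hHherm.sub (Matrix.isHermitian_conjTranspose_mul_mul T hHherm)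
  rw [hφH, hZ' _ hφherm] at h1
  have h2 : ((H - Tᴴ * H * T) * Z).trace = (H * (Z - T * Z * Tᴴ)).trace := by
    rw [Matrix.sub_mul, Matrix.mul_sub, Matrix.trace_sub, Matrix.trace_sub]
    congr 1
    rw [Matrix.mul_assoc, Matrix.mul_assoc, Matrix.trace_mul_comm, Matrix.mul_assoc,
      Matrix.mul_assoc]
  rw [h2, htr] at h1
  have h3 := dual X Y Z hX hY hZpos (by
    rw [add_comm (T * Z * Tᴴ)]; exact sub_eq_sub_iff_add_eq_add.1 hD)
  linarith

end Crest.Agent.R132.F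
end

-- ▼ part R132/FDual5
section

set_option autoImplicit false
open scoped ComplexOrder Matrix
open Crest.AnalysisR.NumRange

namespace Crest.Agent.R132.F

/-- agreement to order `n` at a point -/
def Ag (n : ℕ) (μ : ℂ) (f g : ℂ → ℂ) : Prop :=
  ∀ j < n, iteratedDeriv j f μ = iteratedDeriv j g μ

theorem Ag.mul {n : ℕ} {μ : ℂ} {f₁ f₂ g₁ g₂ : ℂ → ℂ} (h1 : Ag n μ f₁ g₁) (h2 : Ag n μ f₂ g₂)
    (hf₁ : AnalyticAt ℂ f₁ μ) (hf₂ : AnalyticAt ℂ f₂ μ) (hg₁ : AnalyticAt ℂ g₁ μ)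
    (hg₂ : AnalyticAt ℂ g₂ μ) : Ag n μ (fun z => f₁ z * f₂ z) (fun z => g₁ z * g₂ z) := by
  intro j hj
  have e1 := iteratedDeriv_mul (n := j) (hf₁.contDiffAt) (hf₂.contDiffAt)
  have e2 := iteratedDeriv_mul (n := j) (hg₁.contDiffAt) (hg₂.contDiffAt)
  have e1' : iteratedDeriv j (fun z => f₁ z * f₂ z) μ = _ := e1
  have e2' : iteratedDeriv j (fun z => g₁ z * g₂ z) μ = _ := e2
  rw [e1', e2']
  refine Finset.sum_congr rfl fun i hi => ?_
  have hi' : i < j + 1 := Finset.mem_range.1 hi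
  rw [h1 i (by omega), h2 (j - i) (by omega)]

theorem Ag.add {n : ℕ} {μ : ℂ} {f₁ f₂ g₁ g₂ : ℂ → ℂ} (h1 : Ag n μ f₁ g₁) (h2 : Ag n μ f₂ g₂)
    (hf₁ : AnalyticAt ℂ f₁ μ) (hf₂ : AnalyticAt ℂ f₂ μ) (hg₁ : AnalyticAt ℂ g₁ μ)
    (hg₂ : AnalyticAt ℂ g₂ μ) : Ag n μ (fun z => f₁ z + f₂ z) (fun z => g₁ z + g₂ z) := by
  intro j hj
  have e1 : iteratedDeriv j (fun z => f₁ z + f₂ z) μ = _ :=
    iteratedDeriv_add (n := j) (hf₁.contDiffAt) (hf₂.contDiffAt)
  have e2 : iteratedDeriv j (fun z => g₁ z + g₂ z) μ = _ :=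
    iteratedDeriv_add (n := j) (hg₁.contDiffAt) (hg₂.contDiffAt)
  rw [e1, e2, h1 j hj, h2 j hj]

theorem Ag.refl (n : ℕ) (μ : ℂ) (f : ℂ → ℂ) : Ag n μ f f := fun _ _ => rfl

theorem Ag.pow {n : ℕ} {μ : ℂ} {f g : ℂ → ℂ} (h : Ag n μ f g)
    (hf : AnalyticAt ℂ f μ) (hg : AnalyticAt ℂ g μ) (k : ℕ) :
    Ag n μ (fun z => f z ^ k) (fun z => g z ^ k) := by
  induction k with
  | zero => simpa using Ag.refl n μ _
  | succ k ih =>
    simp only [pow_succ]
    exact ih.mul h (hf.pow k) hf (hg.pow k) hg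

theorem Ag.sum {n : ℕ} {μ : ℂ} (N : ℕ) {f g : ℕ → ℂ → ℂ} (h : ∀ k, Ag n μ (f k) (g k))
    (hf : ∀ k, AnalyticAt ℂ (f k) μ) (hg : ∀ k, AnalyticAt ℂ (g k) μ) :
    Ag n μ (fun z => ∑ k ∈ Finset.range N, f k z) (fun z => ∑ k ∈ Finset.range N, g k z) := by
  induction N with
  | zero => simpa using Ag.refl n μ _
  | succ N ih =>
    simp only [Finset.sum_range_succ]
    refine ih.add (h N) ?_ (hf N) ?_ (hg N)
    · exact Finset.analyticAt_fun_sum _ fun k _ => hf k
    · exact Finset.analyticAt_fun_sum _ fun k _ => hg k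

theorem analyticAt_eval (p : Polynomial ℂ) (μ : ℂ) : AnalyticAt ℂ (fun z => p.eval z) μ :=
  p.differentiable.analyticAt μ

/-- the spectrum is contained in the numerical range -/
theorem spectrum_subset_numRange {n : ℕ} (A : Matrix (Fin n) (Fin n) ℂ) :
    spectrum ℂ A ⊆ numRange A := by
  intro μ hμ
  have h1 : Module.End.HasEigenvalue (Matrix.toLin' A) μ := by
    rw [Module.End.hasEigenvalue_iff_mem_spectrum]
    have := Matrix.spectrum_toLin' (R := ℂ) A
    rw [this]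
    exact hμ
  obtain ⟨v, hv⟩ := h1.exists_hasEigenvector
  have hv0 : v ≠ 0 := hv.2
  have hAv : A *ᵥ v = μ • v := by
    have := hv.apply_eq_smul
    simpa using this
  set w : EuclideanSpace ℂ (Fin n) := WithLp.toLp 2 v with hw
  have hw0 : w ≠ 0 := by
    intro h
    apply hv0
    have := congrArg (WithLp.ofLp) h
    simpa [hw] using this
  have hwn : ‖w‖ ≠ 0 := norm_ne_zero_iff.2 hw0
  refine ⟨((‖w‖⁻¹ : ℝ) : ℂ) • w, ?_, ?_⟩
  · rw [norm_smul]
    simp [hwn]
  · have hAw : Matrix.toEuclideanLin A w = μ • w := by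
      have : Matrix.toEuclideanLin A w = WithLp.toLp 2 (A *ᵥ v) := rfl
      rw [this, hAv, WithLp.toLp_smul]
    rw [map_smul, hAw, inner_smul_left, inner_smul_right, inner_smul_right, inner_self_eq_norm_sq_to_K]
    have h3 : (‖w‖ : ℂ) ≠ 0 := by exact_mod_cast hwn
    simp
    field_simp

theorem isCompact_numRange {n : ℕ} (A : Matrix (Fin n) (Fin n) ℂ) : IsCompact (numRange A) := by
  have : numRange A = (fun x : EuclideanSpace ℂ (Fin n) =>
      inner ℂ x (Matrix.toEuclideanLin A x)) '' Metric.sphere 0 1 := by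
    ext z
    simp only [numRange, Set.mem_ofPred_eq, Set.mem_image, mem_sphere_zero_iff_norm]
    constructor
    · rintro ⟨x, hx, rfl⟩
      exact ⟨x, hx, rfl⟩
    · rintro ⟨x, hx, rfl⟩
      exact ⟨x, hx, rfl⟩
  rw [this]
  refine (isCompact_sphere _ _).image ?_
  have h2 : Continuous (Matrix.toEuclideanLin A) := LinearMap.continuous_of_finiteDimensional _
  exact continuous_id.inner h2

/-- The complete Crouzeix bound for analytic matrix functions on a convex open set: the input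
needed for the optimal metric. -/
def CB2Statement : Prop :=
  ∀ (n m : ℕ) (A : Matrix (Fin n) (Fin n) ℂ) (V : Set ℂ), IsOpen V → Convex ℝ V →
    numRange A ⊆ V →
    ∀ F : ℂ → Matrix (Fin m) (Fin m) ℂ, (∀ c d, DifferentiableOn ℂ (fun z => F z c d) V) →
    ∀ M : ℝ, 0 ≤ M → (∀ z ∈ V, ∀ v : Fin m → ℂ, nrm (F z *ᵥ v) ≤ M * nrm v) →
    ∀ q : Fin m → Fin m → Polynomial ℂ,
      (∀ c d, AgreesOnSpectrum A (fun z => F z c d) (q c d)) →
    ∀ y : Matrix (Fin m) (Fin n) ℂ,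
      fro (Matrix.of fun (i : Fin m) (l : Fin n) =>
        ∑ j, ∑ l', Polynomial.aeval A (q i j) l l' * y j l') ≤ 2 * M * fro y

theorem cpb_of_cb2 (cb : CB2Statement) {n : ℕ} (A : Matrix (Fin n) (Fin n) ℂ)
    (V : Set ℂ) (hV : IsOpen V) (hVc : Convex ℝ V) (hA : numRange A ⊆ V) (g : ℂ → ℂ)
    (hg : DifferentiableOn ℂ g V) (hg1 : ∀ z ∈ V, ‖g z‖ ≤ 1) (p : Polynomial ℂ)
    (hp : AgreesOnSpectrum A g p) : CPB (Polynomial.aeval A p) 2 := by
  intro m N B M hM hB y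
  set F : ℂ → Matrix (Fin m) (Fin m) ℂ := fun z => ∑ k ∈ Finset.range N, g z ^ k • B k with hF
  have hFe : ∀ c d, (fun z => F z c d) = fun z => ∑ k ∈ Finset.range N, g z ^ k * B k c d := by
    intro c d
    ext z
    simp [hF, Matrix.sum_apply]
  have hFd : ∀ c d, DifferentiableOn ℂ (fun z => F z c d) V := by
    intro c d
    rw [hFe]
    refine DifferentiableOn.fun_sum fun k _ => ?_
    exact (hg.pow k).mul_const _
  set q : Fin m → Fin m → Polynomial ℂ := fun c d =>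
    ∑ k ∈ Finset.range N, p ^ k * Polynomial.C (B k c d) with hq
  have hag : ∀ c d, AgreesOnSpectrum A (fun z => F z c d) (q c d) := by
    intro c d μ hμ
    rw [hFe]
    have hμV : μ ∈ V := hA (spectrum_subset_numRange A hμ)
    have hgμ : AnalyticAt ℂ g μ := hg.analyticAt (hV.mem_nhds hμV)
    have h1 : Ag n μ (fun z => p.eval z) g := hp μ hμ
    have h2 : Ag n μ (fun z => ∑ k ∈ Finset.range N, (p.eval z) ^ k * B k c d)
        (fun z => ∑ k ∈ Finset.range N, g z ^ k * B k c d) := by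
      refine Ag.sum (f := fun k z => (p.eval z) ^ k * B k c d) (g := fun k z => g z ^ k * B k c d)
        N (fun k => ?_) (fun k => ?_) (fun k => ?_)
      · exact (h1.pow (analyticAt_eval p μ) hgμ k).mul (Ag.refl n μ fun _ => B k c d)
          ((analyticAt_eval p μ).pow k) analyticAt_const (hgμ.pow k) analyticAt_const
      · exact ((analyticAt_eval p μ).pow k).mul analyticAt_const
      · exact (hgμ.pow k).mul analyticAt_const
    have h3 : (fun z => (q c d).eval z)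
        = fun z => ∑ k ∈ Finset.range N, (p.eval z) ^ k * B k c d := by
      ext z
      simp [hq, Polynomial.eval_finsetSum]
    rw [h3]
    exact h2
  have key := cb n m A V hV hVc hA F hFd M hM (fun z hz v => hB (g z) (hg1 z hz) v) q hag y
  convert key using 2
  ext i l
  rw [Matrix.sum_apply, Matrix.of_apply]
  have h4 : ∀ j l', Polynomial.aeval A (q i j) l l' * y j l'
      = ∑ k ∈ Finset.range N, B k i j * y j l' * ((Polynomial.aeval A p) ^ k) l l' := by
    intro j l'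
    have : Polynomial.aeval A (q i j) = ∑ k ∈ Finset.range N, B k i j • (Polynomial.aeval A p) ^ k := by
      simp only [hq, map_sum, map_mul, map_pow, Polynomial.aeval_C]
      refine Finset.sum_congr rfl fun k _ => ?_
      rw [Algebra.algebraMap_eq_smul_one, Matrix.mul_smul, Matrix.mul_one]
    rw [this, Matrix.sum_apply, Finset.sum_mul]
    refine Finset.sum_congr rfl fun k _ => ?_
    rw [Matrix.smul_apply, smul_eq_mul]
    ring
  simp_rw [h4]
  have h5 : ∀ j, ∑ l', ∑ k ∈ Finset.range N, B k i j * y j l' * ((Polynomial.aeval A p) ^ k) l l'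
      = ∑ k ∈ Finset.range N, ∑ l', B k i j * y j l' * ((Polynomial.aeval A p) ^ k) l l' :=
    fun j => Finset.sum_comm
  simp_rw [h5]
  rw [Finset.sum_comm]
  refine Finset.sum_congr rfl fun k _ => ?_
  rw [Matrix.mul_apply]
  simp only [Matrix.mul_apply, Finset.sum_mul]
  rw [Finset.sum_comm]
  refine Finset.sum_congr rfl fun j _ => Finset.sum_congr rfl fun l' _ => ?_
  rw [← Matrix.transpose_pow, Matrix.transpose_apply]

end Crest.Agent.R132.F
end

-- ▼ part R132/ToeplitzHausdorff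
section

/-!
The Toeplitz–Hausdorff theorem: the numerical range of a linear operator on a complex inner product
space is convex.  Also: compactness and non-emptiness in finite dimension.
-/

set_option autoImplicit false

namespace Crest.Agent.R132

open scoped InnerProductSpace ComplexConjugate

variable {H : Type*} [NormedAddCommGroup H] [InnerProductSpace ℂ H]

/-- numerical range of a linear map. -/
def nRange (T : H →ₗ[ℂ] H) : Set ℂ := {z | ∃ x : H, ‖x‖ = 1 ∧ z = ⟪x, T x⟫_ℂ}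

theorem quad_expand (T : H →ₗ[ℂ] H) (x y : H) (α β : ℂ) :
    ⟪α • x + β • y, T (α • x + β • y)⟫_ℂ =
      conj α * α * ⟪x, T x⟫_ℂ + conj β * β * ⟪y, T y⟫_ℂ
        + conj α * β * ⟪x, T y⟫_ℂ + conj β * α * ⟪y, T x⟫_ℂ := by
  simp only [map_add, map_smul, inner_add_left, inner_add_right, inner_smul_left, inner_smul_right]
  ring

theorem exists_unit_im_zero (w : ℂ) : ∃ u : ℂ, ‖u‖ = 1 ∧ (u * w).im = 0 := by
  by_cases hw : w = 0
  · exact ⟨1, by simp, by simp [hw]⟩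
  · refine ⟨conj w / ‖w‖, ?_, ?_⟩
    · have : ‖w‖ ≠ 0 := norm_ne_zero_iff.2 hw
      rw [norm_div, RCLike.norm_conj, Complex.norm_real, norm_norm, div_self this]
    · have h : conj w / (‖w‖ : ℂ) * w = ((‖w‖ : ℝ) : ℂ) := by
        have : (‖w‖ : ℂ) ≠ 0 := by exact_mod_cast norm_ne_zero_iff.2 hw
        rw [div_mul_eq_mul_div, div_eq_iff this, ← Complex.ofReal_mul, ← sq,
          ← Complex.normSq_eq_norm_sq, ← Complex.normSq_eq_conj_mul_self]
      rw [h, Complex.ofReal_im]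

/-- Toeplitz–Hausdorff. -/
theorem convex_nRange (T : H →ₗ[ℂ] H) : Convex ℝ (nRange T) := by
  rw [convex_iff_forall_pos]
  rintro a ⟨x, hx, hxa⟩ b ⟨y, hy, hyb⟩ p q hp hq hpq
  by_cases hab : a = b
  · refine ⟨x, hx, ?_⟩
    rw [← hab, ← hxa, ← add_smul, hpq, one_smul]
  have hba : b - a ≠ 0 := sub_ne_zero.2 (Ne.symm hab)
  set c : ℂ := (⟪x, T y⟫_ℂ - a * ⟪x, y⟫_ℂ) / (b - a) with hc
  set d : ℂ := (⟪y, T x⟫_ℂ - a * ⟪y, x⟫_ℂ) / (b - a) with hd
  obtain ⟨u, hu, huim⟩ := exists_unit_im_zero (d - conj c)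
  have huu : conj u * u = 1 := by
    rw [← Complex.normSq_eq_conj_mul_self, Complex.normSq_eq_norm_sq, hu]; norm_num
  have him : (conj u * c + u * d).im = 0 := by
    have h1 : (conj u * c).im = -(u * conj c).im := by
      simp [Complex.mul_im]; ring
    rw [Complex.add_im, h1]
    rw [mul_sub, Complex.sub_im] at huim
    linarith
  set ρ : ℝ := (conj u * c + u * d).re with hρ
  have hρ' : conj u * c + u * d = (ρ : ℂ) := by
    apply Complex.ext
    · simp [hρ]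
    · simpa using him
  -- the path
  set z : ℝ → H := fun t => ((1 - t : ℝ) * u : ℂ) • x + ((t : ℝ) : ℂ) • y with hz
  have hxx : ⟪x, x⟫_ℂ = 1 := by rw [inner_self_eq_norm_sq_to_K, hx]; norm_num
  have hyy : ⟪y, y⟫_ℂ = 1 := by rw [inner_self_eq_norm_sq_to_K, hy]; norm_num
  have key : ∀ t : ℝ, ⟪z t, T (z t)⟫_ℂ - a * ((‖z t‖ ^ 2 : ℝ) : ℂ)
      = (b - a) * ((t ^ 2 + t * (1 - t) * ρ : ℝ) : ℂ) := by
    intro t
    have h1 := quad_expand T x y ((1 - t : ℝ) * u : ℂ) ((t : ℝ) : ℂ)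
    have h2 := quad_expand (LinearMap.id) x y ((1 - t : ℝ) * u : ℂ) ((t : ℝ) : ℂ)
    have h3 : ((‖z t‖ ^ 2 : ℝ) : ℂ) = ⟪z t, z t⟫_ℂ := by
      rw [inner_self_eq_norm_sq_to_K]; push_cast; rfl
    simp only [LinearMap.id_apply] at h2
    rw [h3, hz]
    simp only
    rw [h1, h2, ← hxa, ← hyb, hxx, hyy]
    have h4 : ⟪x, T y⟫_ℂ = (b - a) * c + a * ⟪x, y⟫_ℂ := by
      rw [hc]; field_simp; ring
    have h5 : ⟪y, T x⟫_ℂ = (b - a) * d + a * ⟪y, x⟫_ℂ := by
      rw [hd]; field_simp; ring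
    rw [h4, h5]
    simp only [map_mul, Complex.conj_ofReal]
    push_cast
    linear_combination ((b - a) * t * (1 - t)) * hρ'
  have hzne : ∀ t : ℝ, z t ≠ 0 := by
    intro t h0
    -- `x` and `y` would be linearly dependent
    by_cases ht : t = 0
    · rw [hz] at h0
      simp only [ht] at h0
      have : (u : ℂ) • x = 0 := by simpa using h0
      have h1 := congrArg norm this
      rw [norm_smul, hu, hx] at h1
      norm_num at h1
    · have hy' : y = (-((1 - t : ℝ) * u / t) : ℂ) • x := by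
        have h1 : ((t : ℝ) : ℂ) • y = -(((1 - t : ℝ) * u : ℂ) • x) := by
          rw [eq_neg_iff_add_eq_zero, add_comm]; exact h0
        have ht' : ((t : ℝ) : ℂ) ≠ 0 := by exact_mod_cast ht
        calc y = (((t : ℝ) : ℂ)⁻¹ * ((t : ℝ) : ℂ)) • y := by
              rw [inv_mul_cancel₀ ht', one_smul]
          _ = ((t : ℝ) : ℂ)⁻¹ • (((t : ℝ) : ℂ) • y) := by rw [mul_smul]
          _ = _ := by
              rw [h1, smul_neg, ← mul_smul, ← neg_smul]; congr 1; field_simp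
      set lam : ℂ := (-((1 - t : ℝ) * u / t) : ℂ)
      have hlam : ‖lam‖ = 1 := by
        have := congrArg norm hy'
        rw [norm_smul, hx, hy, mul_one] at this
        exact this.symm
      have hll : conj lam * lam = 1 := by
        rw [← Complex.normSq_eq_conj_mul_self, Complex.normSq_eq_norm_sq, hlam]; norm_num
      apply hab
      rw [hyb, hxa, hy', map_smul, inner_smul_left, inner_smul_right, ← mul_assoc, hll, one_mul]
  have hzcont : Continuous z := by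
    rw [hz]
    fun_prop
  have hzpos : ∀ t, 0 < ‖z t‖ ^ 2 := fun t => by
    have := norm_pos_iff.2 (hzne t)
    positivity
  -- intermediate value theorem
  set g : ℝ → ℝ := fun t => (t ^ 2 + t * (1 - t) * ρ) / ‖z t‖ ^ 2 with hg
  have hgc : Continuous g := by
    rw [hg]
    refine Continuous.div (by fun_prop) (hzcont.norm.pow 2) (fun t => (hzpos t).ne')
  have hg0 : g 0 = 0 := by simp [hg]
  have hg1 : g 1 = 1 := by
    have : ‖z 1‖ = 1 := by simp [hz, hy]
    simp [hg, this]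
  have hq1 : q ∈ Set.Icc (g 0) (g 1) := by
    rw [hg0, hg1]; exact ⟨hq.le, by linarith⟩
  obtain ⟨t, -, ht⟩ := intermediate_value_Icc zero_le_one hgc.continuousOn hq1
  refine ⟨((‖z t‖ : ℂ)⁻¹) • z t, ?_, ?_⟩
  · rw [norm_smul, norm_inv, Complex.norm_real, norm_norm, inv_mul_cancel₀]
    exact norm_ne_zero_iff.2 (hzne t)
  · have hzt : ((‖z t‖ : ℝ) : ℂ) ≠ 0 := by exact_mod_cast norm_ne_zero_iff.2 (hzne t)
    have h1 : ⟪z t, T (z t)⟫_ℂ = a * ((‖z t‖ ^ 2 : ℝ) : ℂ) + (b - a) * ((q * ‖z t‖ ^ 2 : ℝ) : ℂ) := by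
      have h2 := key t
      have h3 : t ^ 2 + t * (1 - t) * ρ = q * ‖z t‖ ^ 2 := by
        rw [← ht, hg]
        exact (div_mul_cancel₀ _ (hzpos t).ne').symm
      rw [h3] at h2
      linear_combination h2
    rw [map_smul, inner_smul_left, inner_smul_right, h1]
    have h4 : conj ((‖z t‖ : ℂ)⁻¹) = (‖z t‖ : ℂ)⁻¹ := by
      rw [map_inv₀, Complex.conj_ofReal]
    rw [h4]
    have hp' : (p : ℂ) = 1 - q := by
      have : p = 1 - q := by linarith
      rw [this]; push_cast; ring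
    simp only [Complex.real_smul, hp']
    push_cast
    field_simp
    ring



end Crest.Agent.R132
end

-- ▼ part R132/FDual6
section

set_option autoImplicit false
open scoped ComplexOrder Matrix
open Crest.AnalysisR.NumRange

namespace Crest.Agent.R132.F

/-- a strict version of the metric, for `T` with `ρ⁻¹ T` completely polynomially bounded by 2 -/
theorem exists_strict {n : ℕ} (T : Matrix (Fin n) (Fin n) ℂ) (ρ : ℝ) (h0 : 0 < ρ) (h1 : ρ < 1)
    (hT : CPB (((ρ⁻¹ : ℝ) : ℂ) • T) 2) :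
    ∃ H : Matrix (Fin n) (Fin n) ℂ, MetricFeasible T H 4 ∧
      (H - Tᴴ * H * T).PosDef := by
  obtain ⟨H, hH1, hH2, hH3⟩ := exists_metric (((ρ⁻¹ : ℝ) : ℂ) • T) (2 ^ 2) (by norm_num)
    (dual_ineq _ 2 (by norm_num) hT)
  have hHpos : H.PosSemidef := by
    have := hH1.add Matrix.PosSemidef.one
    simpa using this
  have hT' : (Tᴴ * H * T).PosSemidef := hHpos.conjTranspose_mul_mul_same T
  have hρ2 : 0 < 1 - ρ ^ 2 := by nlinarith
  have e : H - Tᴴ * H * T = (((1 - ρ ^ 2 : ℝ) : ℂ) • (1 : Matrix (Fin n) (Fin n) ℂ))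
      + (((1 - ρ ^ 2 : ℝ) : ℂ) • (H - 1)
      + ((ρ ^ 2 : ℝ) : ℂ) • (H - (((ρ⁻¹ : ℝ) : ℂ) • T)ᴴ * H * (((ρ⁻¹ : ℝ) : ℂ) • T))) := by
    have e1 : (((ρ⁻¹ : ℝ) : ℂ) • T)ᴴ * H * (((ρ⁻¹ : ℝ) : ℂ) • T)
        = ((ρ⁻¹ ^ 2 : ℝ) : ℂ) • (Tᴴ * H * T) := by
      have : star ((ρ⁻¹ : ℝ) : ℂ) = ((ρ⁻¹ : ℝ) : ℂ) := Complex.conj_ofReal _
      simp only [Matrix.conjTranspose_smul, Matrix.smul_mul, Matrix.mul_smul, smul_smul, this]
      push_cast
      rw [sq]
    rw [e1, smul_sub, smul_sub, smul_smul, ← Complex.ofReal_mul]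
    have e2 : ρ ^ 2 * ρ⁻¹ ^ 2 = 1 := by
      field_simp
    rw [e2]
    push_cast
    module
  have hpd : (H - Tᴴ * H * T).PosDef := by
    rw [e]
    refine Matrix.PosDef.add_posSemidef ?_ ?_
    · exact Matrix.PosDef.one.smul (by exact_mod_cast hρ2)
    · refine (hH1.smul (by exact_mod_cast hρ2.le)).add (hH3.smul (by exact_mod_cast sq_nonneg ρ))
  refine ⟨H, ⟨hH1, ?_, hpd.posSemidef⟩, hpd⟩
  have : ((4 : ℝ) : ℂ) = ((2 ^ 2 : ℝ) : ℂ) := by norm_num
  rw [this]
  exact hH2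

theorem one_le_of_feasible {n : ℕ} (hn : 1 ≤ n) (T H : Matrix (Fin n) (Fin n) ℂ) (τ : ℝ)
    (h : MetricFeasible T H τ) : 1 ≤ τ := by
  have h1 := h.1.add h.2.1
  have e : H - 1 + ((τ : ℂ) • (1 : Matrix (Fin n) (Fin n) ℂ) - H)
      = (τ : ℂ) • (1 : Matrix (Fin n) (Fin n) ℂ) - 1 := by abel
  rw [e] at h1
  have h2 := h1.diag_nonneg (i := (⟨0, hn⟩ : Fin n))
  rw [Matrix.sub_apply, Matrix.smul_apply, Matrix.one_apply_eq, smul_eq_mul, mul_one] at h2
  have h3 := (Complex.le_def.1 h2).1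
  simp at h3
  exact h3

theorem exists_optimal {n : ℕ} (hn : 1 ≤ n) (T : Matrix (Fin n) (Fin n) ℂ)
    (hex : ∃ H : Matrix (Fin n) (Fin n) ℂ, MetricFeasible T H 4) :
    ∃ (H : Matrix (Fin n) (Fin n) ℂ) (κsq : ℝ),
      IsOptimalMetric T H κsq ∧ 1 ≤ κsq ∧ κsq ≤ 4 := by
  set S : Set (Matrix (Fin n) (Fin n) ℂ × ℝ) := {x | MetricFeasible T x.1 x.2 ∧ x.2 ∈ Set.Icc (1 : ℝ) 4}
    with hS
  have hcl : IsClosed S := by
    refine IsClosed.inter (IsClosed.inter ?_ (IsClosed.inter ?_ ?_)) ?_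
    · exact isClosed_posSemidef.preimage
        (by fun_prop : Continuous fun x : Matrix (Fin n) (Fin n) ℂ × ℝ => x.1 - 1)
    · exact isClosed_posSemidef.preimage
        (by fun_prop : Continuous fun x : Matrix (Fin n) (Fin n) ℂ × ℝ =>
          (x.2 : ℂ) • (1 : Matrix (Fin n) (Fin n) ℂ) - x.1)
    · exact isClosed_posSemidef.preimage
        (by fun_prop : Continuous fun x : Matrix (Fin n) (Fin n) ℂ × ℝ =>
          x.1 - Tᴴ * x.1 * T)
    · exact isClosed_Icc.preimage continuous_snd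
  have hcomp : IsCompact S := by
    refine ((isCompact_metricSet (n := n) 4).prod (isCompact_Icc (a := (1 : ℝ)) (b := 4))).of_isClosed_subset
      hcl ?_
    rintro ⟨H, τ⟩ ⟨⟨h1, h2, h3⟩, h4⟩
    refine ⟨⟨h1, ?_⟩, h4⟩
    have e : ((4 : ℝ) : ℂ) • (1 : Matrix (Fin n) (Fin n) ℂ) - H
        = ((τ : ℂ) • (1 : Matrix (Fin n) (Fin n) ℂ) - H)
          + ((4 - τ : ℝ) : ℂ) • (1 : Matrix (Fin n) (Fin n) ℂ) := by
      push_cast
      rw [sub_smul]
      abel
    show (((4 : ℝ) : ℂ) • (1 : Matrix (Fin n) (Fin n) ℂ) - H).PosSemidef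
    rw [e]
    refine h2.add (Matrix.PosSemidef.one.smul ?_)
    have : (0 : ℝ) ≤ 4 - τ := by
      have := h4.2
      simp only at this
      linarith
    exact_mod_cast this
  obtain ⟨H₀, hH₀⟩ := hex
  have hne : S.Nonempty := ⟨(H₀, 4), hH₀, ⟨by norm_num, le_rfl⟩⟩
  obtain ⟨⟨H, τ⟩, hmem, hmin⟩ := hcomp.exists_isMinOn hne continuous_snd.continuousOn
  refine ⟨H, τ, ⟨hmem.1, fun H' τ' h' => ?_⟩, hmem.2.1, hmem.2.2⟩
  rcases le_or_gt τ' 4 with h4 | h4
  · have := hmin (a := (H', τ')) ⟨h', ⟨one_le_of_feasible hn T H' τ' h', h4⟩⟩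
    simpa using this
  · exact hmem.2.2.trans h4.le

theorem exists_good_nhd {n : ℕ} (A : Matrix (Fin n) (Fin n) ℂ) (Ω : Set ℂ) (hΩ₁ : IsOpen Ω)
    (f : ℂ → ℂ) (hf₁ : DifferentiableOn ℂ f Ω)
    (hf₃ : ∀ z ∈ Ω, ‖f z‖ < 1) (hA : numRange A ⊆ Ω) :
    ∃ (V : Set ℂ) (ρ : ℝ), 0 < ρ ∧ ρ < 1 ∧ IsOpen V ∧ Convex ℝ V ∧ numRange A ⊆ V ∧ V ⊆ Ω ∧
      ∀ z ∈ V, ‖f z‖ < ρ := by
  set K := numRange A with hK
  have hKc : IsCompact K := isCompact_numRange A
  have hKΩ : K ⊆ Ω := hA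
  have hfK : IsCompact (f '' K) := hKc.image_of_continuousOn (hf₁.continuousOn.mono hKΩ)
  obtain ⟨ρ, ⟨hρ0, hρ1⟩, hρ⟩ := exists_pos_lt_subset_ball (x := (0 : ℂ)) (r := 1) one_pos hfK.isClosed
    (by rintro _ ⟨z, hz, rfl⟩; rw [mem_ball_zero_iff]; exact hf₃ z (hKΩ hz))
  have hO : IsOpen (Ω ∩ f ⁻¹' Metric.ball 0 ρ) :=
    hf₁.continuousOn.isOpen_inter_preimage hΩ₁ Metric.isOpen_ball
  have hKO : K ⊆ Ω ∩ f ⁻¹' Metric.ball 0 ρ := fun z hz => ⟨hKΩ hz, hρ ⟨z, hz, rfl⟩⟩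
  obtain ⟨δ, hδ, hδO⟩ := hKc.exists_thickening_subset_open hO hKO
  refine ⟨Metric.thickening δ K, ρ, hρ0, hρ1, Metric.isOpen_thickening,
    (convex_nRange (Matrix.toEuclideanLin A)).thickening δ, ?_, ?_, ?_⟩
  · exact Metric.self_subset_thickening hδ K
  · exact fun z hz => (hδO hz).1
  · exact fun z hz => mem_ball_zero_iff.1 (hδO hz).2

/-- S0180 from the complete Crouzeix bound. -/
theorem s0180_of_cb2 (cb : CB2Statement)
    (n : ℕ) (hn : 1 ≤ n) (A : Matrix (Fin n) (Fin n) ℂ)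
    (Ω U : Set ℂ) (hΩ₁ : IsOpen Ω) (_hΩ₂ : Bornology.IsBounded Ω) (_hΩ₃ : Convex ℝ Ω)
    (_hU : IsOpen U) (hΩU : closure Ω ⊆ U)
    (f : ℂ → ℂ) (hf₁ : DifferentiableOn ℂ f U) (_hf₂ : Set.InjOn f U)
    (hf₃ : f '' Ω = Metric.ball 0 1)
    (hA : numRange A ⊆ Ω) (p : Polynomial ℂ) (hp : AgreesOnSpectrum A f p) :
    (∃ (H : Matrix (Fin n) (Fin n) ℂ) (τ : ℝ), MetricStrictlyFeasible (Polynomial.aeval A p) H τ) ∧
    ∃ (H : Matrix (Fin n) (Fin n) ℂ) (κsq : ℝ),
      IsOptimalMetric (Polynomial.aeval A p) H κsq ∧ 1 ≤ κsq ∧ κsq ≤ 4 := by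
  have hfΩ : DifferentiableOn ℂ f Ω := hf₁.mono (subset_closure.trans hΩU)
  obtain ⟨V, ρ, hρ0, hρ1, hV, hVc, hAV, hVΩ, hfV⟩ := exists_good_nhd A Ω hΩ₁ f hfΩ
    (fun z hz => by
      have : f z ∈ Metric.ball (0 : ℂ) 1 := hf₃ ▸ ⟨z, hz, rfl⟩
      exact mem_ball_zero_iff.1 this) hA
  set T := Polynomial.aeval A p with hT
  have hcpb : CPB (((ρ⁻¹ : ℝ) : ℂ) • T) 2 := by
    have := cpb_of_cb2 cb A V hV hVc hAV (fun z => ((ρ⁻¹ : ℝ) : ℂ) * f z)
      ((hfΩ.mono hVΩ).const_mul _) (fun z hz => by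
        rw [norm_mul, Complex.norm_real, Real.norm_of_nonneg (by positivity)]
        have := (hfV z hz).le
        rw [inv_mul_le_iff₀ hρ0]
        linarith) (Polynomial.C ((ρ⁻¹ : ℝ) : ℂ) * p) (fun μ hμ => by
          have hμV : μ ∈ Ω := hA (spectrum_subset_numRange A hμ)
          have hgμ : AnalyticAt ℂ f μ := hfΩ.analyticAt (hΩ₁.mem_nhds hμV)
          have h1 : Ag n μ (fun z => p.eval z) f := hp μ hμ
          have h2 := (Ag.refl n μ fun _ => ((ρ⁻¹ : ℝ) : ℂ)).mul h1 analyticAt_const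
            (analyticAt_eval p μ) analyticAt_const hgμ
          have h3 : (fun z => (Polynomial.C ((ρ⁻¹ : ℝ) : ℂ) * p).eval z)
              = fun z => ((ρ⁻¹ : ℝ) : ℂ) * p.eval z := by
            ext z
            simp
          rw [h3]
          exact h2)
    rw [map_mul, Polynomial.aeval_C, Algebra.algebraMap_eq_smul_one, Matrix.smul_mul,
      Matrix.one_mul] at this
    exact this
  obtain ⟨H, hH, hHpd⟩ := exists_strict T ρ hρ0 hρ1 hcpb
  refine ⟨⟨((2 : ℝ) : ℂ) • H, 9, ?_, ?_, ?_⟩, exists_optimal hn T ⟨H, hH⟩⟩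
  · have e : ((2 : ℝ) : ℂ) • H - 1 = 1 + ((2 : ℝ) : ℂ) • (H - 1) := by
      rw [smul_sub]
      have : ((2 : ℝ) : ℂ) • (1 : Matrix (Fin n) (Fin n) ℂ) = 1 + 1 := by
        push_cast
        rw [two_smul]
      rw [this]
      abel
    rw [e]
    exact Matrix.PosDef.one.add_posSemidef (hH.1.smul (by norm_num))
  · have e : ((9 : ℝ) : ℂ) • (1 : Matrix (Fin n) (Fin n) ℂ) - ((2 : ℝ) : ℂ) • H
        = 1 + ((2 : ℝ) : ℂ) • (((4 : ℝ) : ℂ) • (1 : Matrix (Fin n) (Fin n) ℂ) - H) := by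
      rw [smul_sub, smul_smul]
      have : ((9 : ℝ) : ℂ) • (1 : Matrix (Fin n) (Fin n) ℂ)
          = 1 + (((2 : ℝ) : ℂ) * ((4 : ℝ) : ℂ)) • (1 : Matrix (Fin n) (Fin n) ℂ) := by
        nth_rewrite 2 [← one_smul ℂ (1 : Matrix (Fin n) (Fin n) ℂ)]
        rw [← add_smul]
        norm_num
      rw [this]
      abel
    rw [e]
    exact Matrix.PosDef.one.add_posSemidef (hH.2.1.smul (by norm_num))
  · have e : ((2 : ℝ) : ℂ) • H - Tᴴ * (((2 : ℝ) : ℂ) • H) * T
        = ((2 : ℝ) : ℂ) • (H - Tᴴ * H * T) := by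
      rw [smul_sub, Matrix.mul_smul, Matrix.smul_mul]
    show (((2 : ℝ) : ℂ) • H - Tᴴ * (((2 : ℝ) : ℂ) • H) * T).PosDef
    rw [e]
    exact hHpd.smul (by norm_num)

end Crest.Agent.R132.F
end

-- ▼ part R132/GCalc
section

/-!
Holomorphic functional calculus for matrices through `AgreesOnSpectrum` (row 132, piece G).
-/

set_option autoImplicit false

namespace Crest.Agent.R132.G

open Polynomial Filter Topology Crest.AnalysisR.NumRange

/-- Division of a holomorphic function by a split polynomial. -/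
theorem exists_division (V : Set ℂ) (hV : IsOpen V) (s : Multiset ℂ) (hs : ∀ μ ∈ s, μ ∈ V)
    (F : ℂ → ℂ) (hF : DifferentiableOn ℂ F V) :
    ∃ (q : ℂ[X]) (k : ℂ → ℂ), DifferentiableOn ℂ k V ∧
      ∀ z, F z = q.eval z + ((s.map (fun a => X - C a)).prod).eval z * k z := by
  induction s using Multiset.induction_on with
  | empty => exact ⟨0, F, hF, fun z => by simp⟩
  | cons μ s ih =>
    obtain ⟨q, k, hk, hq⟩ := ih (fun x hx => hs x (Multiset.mem_cons_of_mem hx))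
    have hμ : μ ∈ V := hs μ (Multiset.mem_cons_self μ s)
    refine ⟨q + C (k μ) * (s.map (fun a => X - C a)).prod, dslope k μ,
      (Complex.differentiableOn_dslope (hV.mem_nhds hμ)).mpr hk, fun z => ?_⟩
    have h1 := sub_smul_dslope k μ z
    rw [smul_eq_mul] at h1
    have h2 : k z = k μ + (z - μ) * dslope k μ z := by rw [h1]; ring
    rw [hq z]
    simp only [eval_add, eval_mul, eval_C, Multiset.map_cons, Multiset.prod_cons, eval_sub, eval_X]
    rw [h2]
    ring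

/-- a polynomial vanishing to order `n` at `μ` is divisible by `(X - μ)^n` -/
theorem pow_dvd_of_order (n : ℕ) (P : ℂ[X]) (μ : ℂ)
    (h : (n : ℕ∞) ≤ analyticOrderAt (fun z => P.eval z) μ) : (X - C μ) ^ n ∣ P := by
  induction n generalizing P with
  | zero => simp
  | succ n ih =>
    have h0 : P.eval μ = 0 := by
      by_contra h0
      have hA : AnalyticAt ℂ (fun z => P.eval z) μ :=
        (Differentiable.analyticAt (by fun_prop) μ)
      rw [(hA.analyticOrderAt_eq_zero).2 h0] at h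
      simp at h
    obtain ⟨Q, rfl⟩ := dvd_iff_isRoot.mpr h0
    have hX : analyticOrderAt (fun z => (X - C μ).eval z) μ = 1 := by
      have : (fun z => (X - C μ).eval z) = fun z => id z - id μ := by
        funext z; simp
      rw [this]
      exact AnalyticAt.analyticOrderAt_sub_eq_one_of_deriv_ne_zero analyticAt_id (by simp)
    have hmul : (fun z => ((X - C μ) * Q).eval z) =
        (fun z => (X - C μ).eval z) • (fun z => Q.eval z) := by
      funext z; simp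
    rw [hmul, analyticOrderAt_smul (Differentiable.analyticAt (by fun_prop) μ)
      (Differentiable.analyticAt (by fun_prop) μ), hX] at h
    have h' : (n : ℕ∞) ≤ analyticOrderAt (fun z => Q.eval z) μ := by
      rw [Nat.cast_add, Nat.cast_one, add_comm] at h
      exact (ENat.add_le_add_iff_left (by simp)).1 h
    rw [pow_succ']
    exact mul_dvd_mul_left _ (ih Q h')

variable {n : ℕ}

theorem isRoot_charpoly_iff (A : Matrix (Fin n) (Fin n) ℂ) (μ : ℂ) :
    μ ∈ spectrum ℂ A ↔ A.charpoly.IsRoot μ :=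
  Matrix.mem_spectrum_iff_isRoot_charpoly

theorem aeval_eq_zero_of_order (A : Matrix (Fin n) (Fin n) ℂ) (P : ℂ[X])
    (h : ∀ μ ∈ spectrum ℂ A, (n : ℕ∞) ≤ analyticOrderAt (fun z => P.eval z) μ) :
    aeval A P = 0 := by
  by_cases hP : P = 0
  · simp [hP]
  have hmonic := A.charpoly_monic
  have hsplit : A.charpoly.Splits := IsAlgClosed.splits _
  have hdvd : A.charpoly ∣ P := by
    have hprod : A.charpoly = (A.charpoly.roots.map (fun a => X - C a)).prod := by
      have := hsplit.eq_prod_roots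
      rw [hmonic.leadingCoeff, C_1, one_mul] at this
      exact this
    rw [hprod, Multiset.prod_X_sub_C_dvd_iff_le_roots hP, Multiset.le_iff_count]
    intro μ
    by_cases hμ : μ ∈ A.charpoly.roots
    · have hμ' : μ ∈ spectrum ℂ A := by
        rw [isRoot_charpoly_iff]
        exact (mem_roots hmonic.ne_zero).1 hμ
      have h1 := pow_dvd_of_order n P μ (h μ hμ')
      have h2 : n ≤ P.rootMultiplicity μ := (le_rootMultiplicity_iff hP).2 h1
      have h3 : A.charpoly.roots.count μ ≤ n := by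
        refine (Multiset.count_le_card _ _).trans ((card_roots' _).trans ?_)
        rw [A.charpoly_natDegree_eq_dim]
        simp
      rw [count_roots P]
      exact h3.trans h2
    · rw [Multiset.count_eq_zero_of_notMem hμ]
      exact Nat.zero_le _
  obtain ⟨Q, rfl⟩ := hdvd
  rw [map_mul, A.aeval_self_charpoly, zero_mul]

/-- `q` agrees with `F` to order `n` on the spectrum, in the order-of-vanishing formulation. -/
def Agr (A : Matrix (Fin n) (Fin n) ℂ) (F : ℂ → ℂ) (q : ℂ[X]) : Prop :=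
  ∀ μ ∈ spectrum ℂ A, (n : ℕ∞) ≤ analyticOrderAt (fun z => F z - q.eval z) μ

theorem Agr.of_agrees {A : Matrix (Fin n) (Fin n) ℂ} {F : ℂ → ℂ} {q : ℂ[X]}
    (hF : ∀ μ ∈ spectrum ℂ A, AnalyticAt ℂ F μ) (h : AgreesOnSpectrum A F q) : Agr A F q := by
  intro μ hμ
  have hq : AnalyticAt ℂ (fun z => q.eval z) μ := Differentiable.analyticAt (by fun_prop) μ
  rw [natCast_le_analyticOrderAt_iff_iteratedDeriv_eq_zero ((hF μ hμ).fun_sub hq)]
  intro j hj
  have h1 := iteratedDeriv_fun_sub (n := j) ((hF μ hμ).contDiffAt (n := (j : WithTop ℕ∞)))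
    (hq.contDiffAt (n := (j : WithTop ℕ∞)))
  rw [h1, h μ hμ j hj, sub_self]

theorem Agr.unique {A : Matrix (Fin n) (Fin n) ℂ} {F : ℂ → ℂ} {q₁ q₂ : ℂ[X]}
    (h₁ : Agr A F q₁) (h₂ : Agr A F q₂) : aeval A q₁ = aeval A q₂ := by
  have : aeval A (q₁ - q₂) = 0 := by
    refine aeval_eq_zero_of_order A _ (fun μ hμ => ?_)
    have h3 := le_analyticOrderAt_sub (f := fun z => F z - q₂.eval z)
      (g := fun z => F z - q₁.eval z) (z₀ := μ)
    have h4 : ((fun z => F z - q₂.eval z) - (fun z => F z - q₁.eval z)) =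
        fun z => (q₁ - q₂).eval z := by
      funext z; simp
    rw [h4] at h3
    exact (le_min (h₂ μ hμ) (h₁ μ hμ)).trans h3
  rw [map_sub, sub_eq_zero] at this
  exact this

/-- If `F = q + χ_A ^ n * k` near the spectrum then `q` agrees with `F`. -/
theorem Agr.of_pow {A : Matrix (Fin n) (Fin n) ℂ} {F k : ℂ → ℂ} {q : ℂ[X]}
    (hk : ∀ μ ∈ spectrum ℂ A, AnalyticAt ℂ k μ)
    (h : ∀ z, F z = q.eval z + (A.charpoly ^ n).eval z * k z) : Agr A F q := by
  intro μ hμ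
  have h1 : (fun z => F z - q.eval z) =
      (fun z => (A.charpoly ^ n).eval z) • k := by
    funext z
    simp [h z]
  have hroot : A.charpoly.eval μ = 0 := (isRoot_charpoly_iff A μ).1 hμ
  obtain ⟨R, hR⟩ := dvd_iff_isRoot.mpr ((isRoot_charpoly_iff A μ).1 hμ)
  have hA1 : AnalyticAt ℂ (fun z => (A.charpoly ^ n).eval z) μ :=
    Differentiable.analyticAt (by fun_prop) μ
  rw [h1, analyticOrderAt_smul hA1 (hk μ hμ)]
  refine le_trans ?_ le_self_add
  rw [natCast_le_analyticOrderAt hA1]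
  refine ⟨fun z => (R ^ n).eval z, Differentiable.analyticAt (by fun_prop) μ,
    Eventually.of_forall fun z => ?_⟩
  rw [hR]
  simp [mul_pow]

/-- Existence of the interpolating polynomial together with the analytic remainder. -/
theorem exists_agr (A : Matrix (Fin n) (Fin n) ℂ) (V : Set ℂ) (hV : IsOpen V)
    (hs : spectrum ℂ A ⊆ V) (F : ℂ → ℂ) (hF : DifferentiableOn ℂ F V) :
    ∃ (q : ℂ[X]) (k : ℂ → ℂ), DifferentiableOn ℂ k V ∧ Agr A F q ∧
      ∀ z, F z = q.eval z + (A.charpoly ^ n).eval z * k z := by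
  have hmonic := A.charpoly_monic
  have hsplit : A.charpoly.Splits := IsAlgClosed.splits _
  have hprod : A.charpoly = (A.charpoly.roots.map (fun a => X - C a)).prod := by
    have := hsplit.eq_prod_roots
    rw [hmonic.leadingCoeff, C_1, one_mul] at this
    exact this
  obtain ⟨q, k, hk, hq⟩ := exists_division V hV (n • A.charpoly.roots)
    (fun μ hμ => hs (by
      rw [isRoot_charpoly_iff]
      exact (mem_roots hmonic.ne_zero).1 (Multiset.mem_of_mem_nsmul hμ))) F hF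
  have hq' : ∀ z, F z = q.eval z + (A.charpoly ^ n).eval z * k z := by
    intro z
    rw [hq z, Multiset.map_nsmul, Multiset.prod_nsmul, ← hprod]
  refine ⟨q, k, hk, Agr.of_pow (fun μ hμ => ?_) hq', hq'⟩
  exact hk.analyticAt (hV.mem_nhds (hs hμ))


/-- local vanishing to order `n` -/
def Van (n : ℕ) (μ : ℂ) (F : ℂ → ℂ) : Prop :=
  ∃ k : ℂ → ℂ, AnalyticAt ℂ k μ ∧ ∀ᶠ z in 𝓝 μ, F z = (z - μ) ^ n * k z

theorem Van.add {n : ℕ} {μ : ℂ} {F₁ F₂ : ℂ → ℂ} (h₁ : Van n μ F₁) (h₂ : Van n μ F₂) :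
    Van n μ (fun z => F₁ z + F₂ z) := by
  obtain ⟨k₁, hk₁, e₁⟩ := h₁
  obtain ⟨k₂, hk₂, e₂⟩ := h₂
  refine ⟨fun z => k₁ z + k₂ z, hk₁.fun_add hk₂, ?_⟩
  filter_upwards [e₁, e₂] with z h1 h2
  rw [h1, h2]; ring

theorem Van.mul {n : ℕ} {μ : ℂ} {F₁ F₂ : ℂ → ℂ} (h₁ : AnalyticAt ℂ F₁ μ) (h₂ : Van n μ F₂) :
    Van n μ (fun z => F₁ z * F₂ z) := by
  obtain ⟨k₂, hk₂, e₂⟩ := h₂
  refine ⟨fun z => F₁ z * k₂ z, h₁.fun_mul hk₂, ?_⟩
  filter_upwards [e₂] with z h2
  rw [h2]; ring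

theorem Van.congr {n : ℕ} {μ : ℂ} {F₁ F₂ : ℂ → ℂ} (h₁ : Van n μ F₁)
    (h : ∀ᶠ z in 𝓝 μ, F₂ z = F₁ z) : Van n μ F₂ := by
  obtain ⟨k₁, hk₁, e₁⟩ := h₁
  refine ⟨k₁, hk₁, ?_⟩
  filter_upwards [e₁, h] with z h1 h2
  rw [h2, h1]

theorem Van.analyticAt {n : ℕ} {μ : ℂ} {F : ℂ → ℂ} (h : Van n μ F) : AnalyticAt ℂ F μ := by
  obtain ⟨k, hk, e⟩ := h
  have : AnalyticAt ℂ (fun z => (z - μ) ^ n * k z) μ := by fun_prop
  exact this.congr (by filter_upwards [e] with z hz; exact hz.symm)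

theorem Van.order {n : ℕ} {μ : ℂ} {F : ℂ → ℂ} (h : Van n μ F) :
    (n : ℕ∞) ≤ analyticOrderAt F μ := by
  rw [natCast_le_analyticOrderAt h.analyticAt]
  obtain ⟨k, hk, e⟩ := h
  exact ⟨k, hk, by simpa using e⟩

theorem Van.of_order {n : ℕ} (hn : 1 ≤ n) {μ : ℂ} {F : ℂ → ℂ}
    (h : (n : ℕ∞) ≤ analyticOrderAt F μ) : Van n μ F := by
  have hA : AnalyticAt ℂ F μ := by
    by_contra hA
    rw [analyticOrderAt_of_not_analyticAt hA] at h
    have : n = 0 := by simpa using h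
    omega
  obtain ⟨k, hk, e⟩ := (natCast_le_analyticOrderAt hA).1 h
  exact ⟨k, hk, by simpa using e⟩

/-- Polynomials are "Lipschitz" for `Van`. -/
theorem Van.poly {n : ℕ} {μ : ℂ} {f₁ f₂ : ℂ → ℂ} (h₁ : AnalyticAt ℂ f₁ μ)
    (h₂ : AnalyticAt ℂ f₂ μ) (h : Van n μ (fun z => f₁ z - f₂ z)) (s : ℂ[X]) :
    Van n μ (fun z => s.eval (f₁ z) - s.eval (f₂ z)) := by
  have hpow : ∀ j : ℕ, Van n μ (fun z => f₁ z ^ j - f₂ z ^ j) := by
    intro j
    induction j with
    | zero => exact ⟨fun _ => 0, analyticAt_const, by simp⟩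
    | succ j ih =>
      refine ((ih.mul h₁).add (h.mul (h₂.fun_pow j))).congr (Eventually.of_forall fun z => ?_)
      ring
  induction s using Polynomial.induction_on' with
  | add p q hp hq =>
    refine (hp.add hq).congr (Eventually.of_forall fun z => ?_)
    simp only [eval_add]
    ring
  | monomial j a =>
    refine ((hpow j).mul (analyticAt_const (v := a))).congr (Eventually.of_forall fun z => ?_)
    simp only [eval_monomial]
    ring

/-- composition of the functional calculus -/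
theorem Agr.comp (hn : 1 ≤ n) {A : Matrix (Fin n) (Fin n) ℂ} {f g : ℂ → ℂ} {p s : ℂ[X]}
    (hp : Agr A f p) (hg : Agr (aeval A p) g s)
    (hgA : ∀ μ ∈ spectrum ℂ (aeval A p), AnalyticAt ℂ g μ) :
    Agr A (fun z => g (f z)) (s.comp p) := by
  intro μ hμ
  have hpA : AnalyticAt ℂ (fun z => p.eval z) μ := Differentiable.analyticAt (by fun_prop) μ
  have hv := Van.of_order hn (hp μ hμ)
  have hfA : AnalyticAt ℂ f μ := by
    have := hv.analyticAt.fun_add hpA
    simpa using this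
  have hfp : f μ = p.eval μ := by
    obtain ⟨k, hk, e⟩ := hv
    have := e.self_of_nhds
    simp only [sub_self, zero_pow (show n ≠ 0 by omega), zero_mul] at this
    exact sub_eq_zero.1 this
  have hspec : f μ ∈ spectrum ℂ (aeval A p) := by
    rw [hfp]
    have := spectrum.subset_polynomial_aeval (𝕜 := ℂ) A p
    exact this ⟨μ, hμ, rfl⟩
  -- the first part : (g - s) ∘ f
  have h1 : Van n μ (fun z => g (f z) - s.eval (f z)) := by
    obtain ⟨k, hk, e⟩ := Van.of_order hn (hg (f μ) hspec)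
    have e' : ∀ᶠ z in 𝓝 μ, g (f z) - s.eval (f z) = (f z - f μ) ^ n * k (f z) :=
      hfA.continuousAt.eventually e
    have hds : Van 1 μ (fun z => f z - f μ) := by
      obtain ⟨V, hVs, hV, hμV⟩ := eventually_nhds_iff.1 hfA.eventually_analyticAt
      refine ⟨dslope f μ, ?_, Eventually.of_forall fun z => ?_⟩
      · have hd : DifferentiableOn ℂ f V := fun z hz => (hVs z hz).differentiableAt.differentiableWithinAt
        exact ((Complex.differentiableOn_dslope (hV.mem_nhds hμV)).mpr hd).analyticAt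
          (hV.mem_nhds hμV)
      · rw [pow_one, ← smul_eq_mul, sub_smul_dslope]
    obtain ⟨k₂, hk₂, e₂⟩ := hds
    refine ⟨fun z => k₂ z ^ n * k (f z), (hk₂.fun_pow n).fun_mul ?_, ?_⟩
    · exact hk.fun_comp hfA
    · filter_upwards [e', e₂] with z h3 h4
      rw [h3, h4, mul_pow]; ring
  have h2 : Van n μ (fun z => s.eval (f z) - s.eval (p.eval z)) := Van.poly hfA hpA hv s
  refine Van.order ((h1.add h2).congr (Eventually.of_forall fun z => ?_))
  simp only [eval_comp]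
  ring


/-- eigenvalues lie in the numerical range -/
theorem spectrum_subset_numRange (A : Matrix (Fin n) (Fin n) ℂ) :
    spectrum ℂ A ⊆ numRange A := by
  intro μ hμ
  rw [← Matrix.spectrum_toLin'] at hμ
  rw [← Module.End.hasEigenvalue_iff_mem_spectrum] at hμ
  obtain ⟨v, hv⟩ := hμ.exists_hasEigenvector
  have hv0 : v ≠ 0 := hv.2
  have hv1 : Matrix.toLin' A v = μ • v := hv.apply_eq_smul
  set x : EuclideanSpace ℂ (Fin n) := WithLp.toLp 2 v with hx
  have hx0 : x ≠ 0 := by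
    intro h
    apply hv0
    have := congrArg (WithLp.ofLp) h
    simpa [hx] using this
  have hAx : Matrix.toEuclideanLin A x = μ • x := by
    rw [hx]
    ext i
    simp only [Matrix.toLpLin_toLp, PiLp.smul_apply]
    have := congrFun hv1 i
    simpa using this
  have hnx : ‖x‖ ≠ 0 := norm_ne_zero_iff.2 hx0
  refine ⟨((‖x‖ : ℂ)⁻¹) • x, ?_, ?_⟩
  · rw [norm_smul, norm_inv, Complex.norm_real, norm_norm, inv_mul_cancel₀ hnx]
  · rw [map_smul, hAx, inner_smul_left, inner_smul_right, inner_smul_right,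
      inner_self_eq_norm_sq_to_K]
    simp only [map_inv₀, Complex.conj_ofReal]
    have : ((‖x‖ : ℝ) : ℂ) ≠ 0 := by exact_mod_cast hnx
    field_simp
    simp

end Crest.Agent.R132.G
end

-- ▼ part R132/FCB2

/-!
# Row 132: the complete Crouzeix bound for analytic matrix functions (`CB2Statement`)
from the analytic core.
-/

set_option autoImplicit false
open scoped ComplexOrder Matrix ComplexConjugate
open Crest.AnalysisR.NumRange Metric Set

namespace Crest.Agent.R132.F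

/-- The statement of the analytic core (helper921), specialised to Euclidean spaces. -/
def CoreStatement : Prop :=
  ∀ {n : ℕ} {φ : ℂ → ℂ} {ρ : ℝ}, 1 < ρ → DifferentiableOn ℂ φ (ball 0 ρ) → φ 0 ≠ 0 →
    (∀ u ∈ ball (0:ℂ) ρ, ∀ v ∈ ball (0:ℂ) ρ, u ≠ 0 → v ≠ 0 → φ u / u = φ v / v → u = v) →
    (∀ u v : ℂ, ‖u‖ = 1 → ‖v‖ = 1 → 0 ≤ (conj (psi φ u) * (φ u - u * (φ v / v))).re) →
    ∀ (A : EuclideanSpace ℂ (Fin n) →L[ℂ] EuclideanSpace ℂ (Fin n)),
    (∀ w ∈ ball (0:ℂ) ρ, IsUnit (φ w • (1 : EuclideanSpace ℂ (Fin n) →L[ℂ]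
      EuclideanSpace ℂ (Fin n)) - w • A)) →
    (∀ x : EuclideanSpace ℂ (Fin n), ‖x‖ = 1 → ∀ u : ℂ, ‖u‖ = 1 →
      0 ≤ (conj (psi φ u) * (φ u - u * inner ℂ x (A x))).re) →
    ∀ {m : ℕ} (F : ℂ → Matrix (Fin m) (Fin m) ℂ) (V : Set ℂ), IsOpen V → Convex ℝ V →
    (∀ u : ℂ, ‖u‖ = 1 → φ u / u ∈ V) → (∀ i j, DifferentiableOn ℂ (fun z => F z i j) V) →
    (∀ u : ℂ, ‖u‖ = 1 → ‖Matrix.toEuclideanCLM (n := Fin m) (𝕜 := ℂ) (F (φ u / u))‖ ≤ 1) →
    ∀ (y : PiLp 2 (fun _ : Fin m => EuclideanSpace ℂ (Fin n))),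
    ‖(WithLp.toLp 2 (fun i => ∑ j, funcalc φ A (fun z => F z i j) (y j)) :
      PiLp 2 (fun _ : Fin m => EuclideanSpace ℂ (Fin n)))‖ ≤ 2 * ‖y‖

theorem psi_ne_zero {φ : ℂ → ℂ} {ρ : ℝ} (hφ : DifferentiableOn ℂ φ (ball 0 ρ))
    (h0 : φ 0 ≠ 0)
    (hinj : ∀ u ∈ ball (0:ℂ) ρ, ∀ v ∈ ball (0:ℂ) ρ, u ≠ 0 → v ≠ 0 → φ u / u = φ v / v → u = v) :
    ∀ u ∈ ball (0 : ℂ) ρ, psi φ u ≠ 0 := by
  intro u hu
  by_cases hu0 : u = 0
  · subst hu0
    simpa [psi] using h0
  have hU : IsOpen (ball (0 : ℂ) ρ \ {0}) := isOpen_ball.sdiff isClosed_singleton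
  have hd : DifferentiableOn ℂ (fun u => φ u / u) (ball (0 : ℂ) ρ \ {0}) := by
    intro z hz
    exact ((hφ z hz.1).mono sdiff_subset).div differentiableWithinAt_id hz.2
  have hi : InjOn (fun u => φ u / u) (ball (0 : ℂ) ρ \ {0}) := by
    intro a ha b hb hab
    exact hinj a ha.1 b hb.1 ha.2 hb.2 hab
  have h1 := Crest.Agent.Lib.deriv_ne_zero_of_injOn hU hd hi ⟨hu, hu0⟩
  have h2 : HasDerivAt (fun u => φ u / u) ((deriv φ u * u - φ u * 1) / u ^ 2) u :=
    ((hφ.differentiableAt (isOpen_ball.mem_nhds hu)).hasDerivAt).div (hasDerivAt_id u) hu0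
  rw [h2.deriv] at h1
  intro h3
  apply h1
  unfold psi at h3
  have : deriv φ u * u - φ u * 1 = 0 := by linear_combination -h3
  rw [this, zero_div]

theorem isUnit_res {n : ℕ}
    (A : EuclideanSpace ℂ (Fin n) →L[ℂ] EuclideanSpace ℂ (Fin n)) {a w : ℂ}
    (h : ∀ x : EuclideanSpace ℂ (Fin n), ‖x‖ = 1 → a - w * inner ℂ x (A x) ≠ 0) :
    IsUnit (a • (1 : EuclideanSpace ℂ (Fin n) →L[ℂ] EuclideanSpace ℂ (Fin n)) - w • A) := by
  rw [ContinuousLinearMap.isUnit_iff_isUnit_toLinearMap, LinearMap.isUnit_iff_ker_eq_bot,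
    LinearMap.ker_eq_bot']
  intro x hx
  by_contra hx0
  have hn : ‖x‖ ≠ 0 := norm_ne_zero_iff.2 hx0
  have hx1 : a • x - w • A x = 0 := by simpa using hx
  obtain ⟨y, hy1, hy2⟩ : ∃ y : EuclideanSpace ℂ (Fin n), ‖y‖ = 1 ∧ a • y - w • A y = 0 := by
    refine ⟨((‖x‖ : ℂ)⁻¹) • x, ?_, ?_⟩
    · rw [norm_smul, norm_inv, Complex.norm_real, norm_norm, inv_mul_cancel₀ hn]
    · rw [map_smul, smul_comm a, smul_comm w, ← smul_sub, hx1, smul_zero]
  apply h y hy1
  have h3 : inner ℂ y (a • y - w • A y) = 0 := by rw [hy2, inner_zero_right]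
  rw [inner_sub_right, inner_smul_right, inner_smul_right, inner_self_eq_norm_sq_to_K, hy1] at h3
  simpa using h3

/-- `funcalc F = aeval A q` if `q` agrees with `F` to order `n` on the spectrum. -/
theorem funcalc_of_agrees {n : ℕ} {φ : ℂ → ℂ} {ρ : ℝ} (h : Ext φ ρ)
    (A : Matrix (Fin n) (Fin n) ℂ)
    (hA : Res φ ρ (Matrix.toEuclideanCLM (n := Fin n) (𝕜 := ℂ) A)) {V : Set ℂ}
    (hV : OnCurve φ V) (hs : spectrum ℂ A ⊆ V) {F : ℂ → ℂ} (hF : DifferentiableOn ℂ F V)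
    (q : Polynomial ℂ) (hq : AgreesOnSpectrum A F q) :
    funcalc φ (Matrix.toEuclideanCLM (n := Fin n) (𝕜 := ℂ) A) F
      = Matrix.toEuclideanCLM (n := Fin n) (𝕜 := ℂ) (Polynomial.aeval A q) := by
  obtain ⟨q₀, k, hk, hq₀, hFk⟩ := G.exists_agr A V hV.isOpen hs F hF
  have h1 : G.Agr A F q := G.Agr.of_agrees (fun μ hμ => hF.analyticAt (hV.isOpen.mem_nhds (hs hμ))) hq
  rw [G.Agr.unique h1 hq₀]
  have h2 : F = fun z => q₀.eval z + (A.charpoly ^ n).eval z * k z :=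
    funext hFk
  have hC : Polynomial.aeval A (A.charpoly ^ n) = 0 ∨ n = 0 := by
    rcases Nat.eq_zero_or_pos n with h0 | h0
    · exact Or.inr h0
    · left
      rw [map_pow, Matrix.aeval_self_charpoly, zero_pow (by omega)]
  have haev : ∀ S : Polynomial ℂ,
      Polynomial.aeval (Matrix.toEuclideanCLM (n := Fin n) (𝕜 := ℂ) A) S
        = Matrix.toEuclideanCLM (n := Fin n) (𝕜 := ℂ) (Polynomial.aeval A S) := by
    intro S
    exact Polynomial.aeval_algHom_apply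
      ((Matrix.toEuclideanCLM (n := Fin n) (𝕜 := ℂ)).toAlgEquiv.toAlgHom) A S
  rcases hC with hC | hC
  · have hd2 : DifferentiableOn ℂ (fun z => (A.charpoly ^ n).eval z * k z) V :=
      (A.charpoly ^ n).differentiable.differentiableOn.mul hk
    rw [h2, h.funcalc_add hA hV (F := fun z => q₀.eval z) q₀.differentiable.differentiableOn
      hd2, h.funcalc_aeval hA,
      h.funcalc_poly_left hA hV hk, haev, haev, hC, map_zero, zero_mul, add_zero]
  · subst hC
    exact Subsingleton.elim _ _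

theorem fro_eq_norm {m n : ℕ} (y : Matrix (Fin m) (Fin n) ℂ) :
    fro y = ‖(WithLp.toLp 2 (fun i : Fin m => (WithLp.toLp 2 (y i) : EuclideanSpace ℂ (Fin n))) :
      PiLp 2 (fun _ : Fin m => EuclideanSpace ℂ (Fin n)))‖ := by
  have h1 : fro y ^ 2 = ‖(WithLp.toLp 2 (fun i : Fin m =>
      (WithLp.toLp 2 (y i) : EuclideanSpace ℂ (Fin n))) :
      PiLp 2 (fun _ : Fin m => EuclideanSpace ℂ (Fin n)))‖ ^ 2 := by
    rw [fro_sq, PiLp.norm_sq_eq_of_L2]
    refine Finset.sum_congr rfl fun i _ => ?_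
    rw [EuclideanSpace.norm_sq_eq]
  exact (pow_left_inj₀ (fro_nonneg _) (norm_nonneg _) (by norm_num)).1 h1

theorem cb2_of_core (core : CoreStatement) : CB2Statement := by
  intro n m A V hV hVc hAV F hF M hM hFM q hq y
  rcases Nat.eq_zero_or_pos n with hn | hn
  · subst hn
    have h1 : fro (Matrix.of fun (i : Fin m) (l : Fin 0) =>
        ∑ j, ∑ l', Polynomial.aeval A (q i j) l l' * y j l') = 0 := by
      have : (fro (Matrix.of fun (i : Fin m) (l : Fin 0) =>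
        ∑ j, ∑ l', Polynomial.aeval A (q i j) l l' * y j l')) ^ 2 = 0 := by
        rw [fro_sq]; simp
      exact pow_eq_zero_iff (by norm_num) |>.1 this
    rw [h1]
    have := fro_nonneg y
    positivity
  have hne : (numRange A).Nonempty := by
    refine ⟨_, EuclideanSpace.single (⟨0, hn⟩ : Fin n) (1 : ℂ), by simp, rfl⟩
  have hWc : IsCompact (numRange A) := isCompact_numRange A
  have hWconv : Convex ℝ (numRange A) := convex_nRange (Matrix.toEuclideanLin A)
  obtain ⟨ε, hε, hεV⟩ := hWc.exists_cthickening_subset_open hV hAV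
  obtain ⟨ρ, φ, hρ, hφ, h0, hinj, hconv, hne', hsupp, hclose⟩ :=
    exists_domain hWc hWconv hne hε
  set A' := Matrix.toEuclideanCLM (n := Fin n) (𝕜 := ℂ) A with hA'
  have hmem : ∀ x : EuclideanSpace ℂ (Fin n), ‖x‖ = 1 → inner ℂ x (A' x) ∈ numRange A :=
    fun x hx => ⟨x, hx, rfl⟩
  have hRes : Res φ ρ A' := fun w hw => isUnit_res A' fun x hx => hne' w hw _ (hmem x hx)
  have hExt : Ext φ ρ := ⟨⟨hρ, hφ, h0⟩, hinj, psi_ne_zero hφ h0 hinj, hconv⟩
  have hOn : OnCurve φ V := ⟨hV, hVc, fun u hu => hεV (hclose u hu)⟩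
  have hs : spectrum ℂ A ⊆ V := (spectrum_subset_numRange A).trans hAV
  have key : ∀ M' : ℝ, M < M' → fro (Matrix.of fun (i : Fin m) (l : Fin n) =>
        ∑ j, ∑ l', Polynomial.aeval A (q i j) l l' * y j l') ≤ 2 * M' * fro y := by
    intro M' hM'
    have hM'0 : 0 < M' := lt_of_le_of_lt hM hM'
    have hcore := core hρ hφ h0 hinj hconv A' hRes (fun x hx u hu => hsupp _ (hmem x hx) u hu)
      (fun z => ((M' : ℂ)⁻¹) • F z) V hV hVc (fun u hu => hεV (hclose u hu))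
      (fun i j => by
        have : (fun z => (((M' : ℂ)⁻¹) • F z) i j) = fun z => (M' : ℂ)⁻¹ * F z i j := by
          funext z; simp
        rw [this]
        exact (hF i j).const_mul _)
      (fun u hu => by
        rw [map_smul, norm_smul, norm_inv, Complex.norm_real, Real.norm_eq_abs,
          abs_of_pos hM'0, inv_mul_le_iff₀ hM'0, mul_one]
        refine (ContinuousLinearMap.opNorm_le_bound _ hM fun v => ?_).trans hM'.le
        exact hFM _ (hεV (hclose u hu)) (WithLp.ofLp v))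
      (WithLp.toLp 2 (fun i : Fin m => (WithLp.toLp 2 (y i) : EuclideanSpace ℂ (Fin n))))
    have h2 : (WithLp.toLp 2 (fun i => ∑ j, funcalc φ A' (fun z => (((M' : ℂ)⁻¹) • F z) i j)
        ((WithLp.toLp 2 (fun i : Fin m => (WithLp.toLp 2 (y i) : EuclideanSpace ℂ (Fin n))) :
          PiLp 2 (fun _ : Fin m => EuclideanSpace ℂ (Fin n))) j)) :
        PiLp 2 (fun _ : Fin m => EuclideanSpace ℂ (Fin n)))
        = ((M' : ℂ)⁻¹) • (WithLp.toLp 2 (fun i : Fin m => (WithLp.toLp 2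
          ((Matrix.of fun (i : Fin m) (l : Fin n) =>
            ∑ j, ∑ l', Polynomial.aeval A (q i j) l l' * y j l') i) : EuclideanSpace ℂ (Fin n))) :
            PiLp 2 (fun _ : Fin m => EuclideanSpace ℂ (Fin n))) := by
      apply WithLp.ofLp_injective
      funext i
      simp only [WithLp.ofLp_smul, Pi.smul_apply]
      have h3 : ∀ j, funcalc φ A' (fun z => (((M' : ℂ)⁻¹) • F z) i j)
          = ((M' : ℂ)⁻¹) • Matrix.toEuclideanCLM (n := Fin n) (𝕜 := ℂ)
            (Polynomial.aeval A (q i j)) := by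
        intro j
        have : (fun z => (((M' : ℂ)⁻¹) • F z) i j) = fun z => (M' : ℂ)⁻¹ * F z i j := by
          funext z; simp
        rw [this, funcalc_const_mul, funcalc_of_agrees hExt A hRes hOn hs (hF i j) (q i j) (hq i j)]
      simp_rw [h3]
      rw [← WithLp.toLp_smul]
      apply WithLp.ofLp_injective
      funext l
      simp only [WithLp.ofLp_sum, Finset.sum_apply, Pi.smul_apply, Matrix.of_apply,
        smul_eq_mul, Finset.mul_sum, ContinuousLinearMap.smul_apply, WithLp.ofLp_smul,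
        Matrix.ofLp_toEuclideanCLM, Matrix.mulVec, dotProduct]
    rw [h2, norm_smul, norm_inv, Complex.norm_real, Real.norm_eq_abs, abs_of_pos hM'0,
      inv_mul_le_iff₀ hM'0, ← fro_eq_norm, ← fro_eq_norm] at hcore
    linarith
  have hlim : Filter.Tendsto (fun M' : ℝ => 2 * M' * fro y) (nhdsWithin M (Ioi M))
      (nhds (2 * M * fro y)) := by
    refine Filter.Tendsto.mono_left ?_ nhdsWithin_le_nhds
    exact Continuous.tendsto (by fun_prop) M
  exact ge_of_tendsto hlim (by filter_upwards [self_mem_nhdsWithin] with M' hM' using key M' hM')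

end Crest.Agent.R132.F
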