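import Mathlib
import Crest.Agent.R132.Domain
import Crest.Agent.R132.Core

-- ▼ part R132/E_TH
section

/-! # R132 piece (E): Toeplitz–Hausdorff theorem and compactness of the numerical range. -/

set_option autoImplicit false

open scoped InnerProductSpace

namespace Crest.Agent.R132.E

variable {E : Type*} [NormedAddCommGroup E] [InnerProductSpace ℂ E]

/-- The numerical range `{⟨x, A x⟩ : ‖x‖ = 1}` of a linear map. -/
def nr (A : E →ₗ[ℂ] E) : Set ℂ := {z | ∃ x : E, ‖x‖ = 1 ∧ z = inner ℂ x (A x)}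

theorem exists_phase (p q : ℂ) : ∃ c : ℂ, ‖c‖ = 1 ∧ ((starRingEnd ℂ c) * p + c * q).im = 0 := by
  by_cases h : q = (starRingEnd ℂ) p
  · refine ⟨1, by simp, ?_⟩
    subst h
    simp
  · have hne : q - (starRingEnd ℂ) p ≠ 0 := sub_ne_zero.2 h
    have hn : ‖q - (starRingEnd ℂ) p‖ ≠ 0 := norm_ne_zero_iff.2 hne
    refine ⟨(starRingEnd ℂ) (q - (starRingEnd ℂ) p) / (‖q - (starRingEnd ℂ) p‖ : ℂ), ?_, ?_⟩
    · rw [norm_div, RCLike.norm_conj]
      simp [hn]
    · have key : ∀ c : ℂ, ((starRingEnd ℂ c) * p + c * q).im = (c * (q - (starRingEnd ℂ) p)).im := by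
        intro c
        simp [Complex.mul_im]
        ring
      rw [key, div_mul_eq_mul_div, mul_comm ((starRingEnd ℂ) _), Complex.mul_conj]
      rw [← Complex.ofReal_div]
      exact Complex.ofReal_im _

/-- Toeplitz–Hausdorff: the numerical range is convex. -/
theorem convex_nr (A : E →ₗ[ℂ] E) : Convex ℝ (nr A) := by
  rw [convex_iff_segment_subset]
  rintro a ⟨x, hx, rfl⟩ b ⟨y, hy, rfl⟩ w hw
  rw [segment_eq_image] at hw
  obtain ⟨t, ht, rfl⟩ := hw
  simp only
  set a : ℂ := inner ℂ x (A x) with ha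
  set b : ℂ := inner ℂ y (A y) with hb
  by_cases hab : a = b
  · rw [hab, ← add_smul]
    simp only [sub_add_cancel, one_smul]
    exact ⟨y, hy, rfl⟩
  have hba : b - a ≠ 0 := sub_ne_zero.2 (Ne.symm hab)
  -- the sesquilinear form of (A - a) / (b - a)
  set p : ℂ := (inner ℂ x (A y) - a * inner ℂ x y) / (b - a) with hp
  set q : ℂ := (inner ℂ y (A x) - a * inner ℂ y x) / (b - a) with hq
  obtain ⟨c, hc, hk⟩ := exists_phase p q
  set k : ℂ := (starRingEnd ℂ c) * p + c * q with hkdef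
  have hcc : (starRingEnd ℂ c) * c = 1 := by
    rw [mul_comm, Complex.mul_conj, Complex.normSq_eq_norm_sq, hc]; simp
  have hxx : inner ℂ x x = (1 : ℂ) := by rw [inner_self_eq_norm_sq_to_K, hx]; simp
  have hyy : inner ℂ y y = (1 : ℂ) := by rw [inner_self_eq_norm_sq_to_K, hy]; simp
  -- the test vector
  let z : ℝ → E := fun s => (((1 - s : ℝ) : ℂ) * c) • x + ((s : ℝ) : ℂ) • y
  have hzA : ∀ s : ℝ, inner ℂ (z s) (A (z s)) - a * inner ℂ (z s) (z s) =
      (b - a) * ((s ^ 2 : ℝ) + ((1 - s) * s : ℝ) * k) := by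
    intro s
    have e1 : inner ℂ x (A x) = a := rfl
    have e2 : inner ℂ y (A y) = b := rfl
    have e3 : inner ℂ x (A y) = p * (b - a) + a * inner ℂ x y := by
      rw [hp]; field_simp; ring
    have e4 : inner ℂ y (A x) = q * (b - a) + a * inner ℂ y x := by
      rw [hq]; field_simp; ring
    simp only [z, map_add, map_smul, inner_add_left, inner_add_right, inner_smul_left,
      inner_smul_right, map_mul, Complex.conj_ofReal, e1, e2, e3, e4, hxx, hyy]
    rw [hkdef]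
    push_cast
    linear_combination (a - a) * hcc
  have hz0 : ∀ s : ℝ, z s ≠ 0 := by
    intro s hs
    have h1 := hzA s
    rw [hs] at h1
    simp only [map_zero, inner_zero_left, mul_zero, sub_zero] at h1
    -- s = 0 or s = 1 excluded separately, otherwise x and y are proportional
    by_cases hs0 : s = 0
    · subst hs0
      simp only [z] at hs
      simp at hs
      rcases hs with hs | hs
      · rw [hs] at hc; simp at hc
      · rw [hs] at hx; simp at hx
    · -- y = λ x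
      have hy' : y = (-(((1 - s : ℝ) : ℂ) * c) / (s : ℂ)) • x := by
        have hsC : (s : ℂ) ≠ 0 := by exact_mod_cast hs0
        have : ((s : ℝ) : ℂ) • y = -((((1 - s : ℝ) : ℂ) * c) • x) := by
          simp only [z] at hs
          rw [eq_neg_iff_add_eq_zero, add_comm]
          exact hs
        calc y = (s : ℂ)⁻¹ • ((s : ℂ) • y) := by rw [smul_smul, inv_mul_cancel₀ hsC, one_smul]
          _ = _ := by rw [this, smul_neg, smul_smul, ← neg_smul]; congr 1; ring
      set l : ℂ := -(((1 - s : ℝ) : ℂ) * c) / (s : ℂ) with hl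
      have hl1 : (starRingEnd ℂ l) * l = 1 := by
        have : inner ℂ y y = (starRingEnd ℂ l) * l * inner ℂ x x := by
          rw [hy', inner_smul_left, inner_smul_right]; ring
        rw [hyy, hxx, mul_one] at this
        exact this.symm
      apply hab
      rw [hb, hy', map_smul, inner_smul_left, inner_smul_right, ← mul_assoc, hl1, one_mul]
  have hzc : Continuous z := by
    simp only [z]
    fun_prop
  let F : ℝ → ℝ := fun s => (s ^ 2 + (1 - s) * s * k.re) / ‖z s‖ ^ 2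
  have hF : Continuous F := by
    refine Continuous.div (by fun_prop) (by fun_prop) ?_
    intro s
    exact pow_ne_zero 2 (norm_ne_zero_iff.2 (hz0 s))
  have hF0 : F 0 = 0 := by simp [F]
  have hF1 : F 1 = 1 := by
    simp [F, z, hy]
  obtain ⟨s, _, hs⟩ : t ∈ F '' Set.Icc 0 1 := by
    have := intermediate_value_Icc (zero_le_one' ℝ) hF.continuousOn
    rw [hF0, hF1] at this
    exact this ht
  -- normalise
  have hn : (‖z s‖ : ℂ) ≠ 0 := by exact_mod_cast norm_ne_zero_iff.2 (hz0 s)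
  refine ⟨((‖z s‖ : ℂ)⁻¹) • z s, ?_, ?_⟩
  · rw [norm_smul]
    have : ‖z s‖ ≠ 0 := norm_ne_zero_iff.2 (hz0 s)
    simp [this]
  · have h1 := hzA s
    have hkr : k = (k.re : ℂ) := by
      apply Complex.ext <;> simp [hk]
    have hzz : inner ℂ (z s) (z s) = (‖z s‖ : ℂ) ^ 2 := by
      rw [inner_self_eq_norm_sq_to_K]; rfl
    have h2 : inner ℂ (z s) (A (z s)) = a * (‖z s‖ : ℂ) ^ 2 +
        (b - a) * ((s ^ 2 : ℝ) + ((1 - s) * s : ℝ) * (k.re : ℂ)) := by
      rw [← hkr, ← hzz, ← h1]; ring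
    have h3 : ((s ^ 2 + (1 - s) * s * k.re : ℝ) : ℂ) = (t : ℂ) * (‖z s‖ : ℂ) ^ 2 := by
      have h4 : s ^ 2 + (1 - s) * s * k.re = t * ‖z s‖ ^ 2 := by
        rw [← hs]
        simp only [F]
        field_simp [norm_ne_zero_iff.2 (hz0 s)]
      exact_mod_cast congrArg (fun r : ℝ => (r : ℂ)) h4
    rw [map_smul, inner_smul_left, inner_smul_right, h2, map_inv₀, Complex.conj_ofReal]
    have h5 : (((s ^ 2 : ℝ) : ℂ) + ((1 - s) * s : ℝ) * (k.re : ℂ)) = (t : ℂ) * (‖z s‖ : ℂ) ^ 2 := by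
      rw [← h3]; push_cast; ring
    rw [h5]
    simp only [Complex.real_smul]
    field_simp
    push_cast
    ring

theorem isCompact_nr [FiniteDimensional ℂ E] (A : E →ₗ[ℂ] E) : IsCompact (nr A) := by
  have : ProperSpace E := FiniteDimensional.proper ℂ E
  have h : nr A = (fun x : E => inner ℂ x (A x)) '' Metric.sphere (0 : E) 1 := by
    ext z
    simp only [nr, Set.mem_ofPred_eq, Set.mem_image, mem_sphere_zero_iff_norm]
    constructor
    · rintro ⟨x, hx, rfl⟩; exact ⟨x, hx, rfl⟩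
    · rintro ⟨x, hx, rfl⟩; exact ⟨x, hx, rfl⟩
  rw [h]
  refine (isCompact_sphere _ _).image ?_
  exact continuous_id.inner A.continuous_of_finiteDimensional

theorem nr_nonempty [Nontrivial E] (A : E →ₗ[ℂ] E) : (nr A).Nonempty := by
  obtain ⟨x, hx⟩ := exists_ne (0 : E)
  have hn : ‖x‖ ≠ 0 := norm_ne_zero_iff.2 hx
  exact ⟨_, ((‖x‖ : ℂ)⁻¹) • x, by rw [norm_smul]; simp [hn], rfl⟩

end Crest.Agent.R132.E
end

-- ▼ part R132/E_Red
section

/-! # R132 piece (E): reduction of S0179 to finite dimension and to thickened numerical ranges. -/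

set_option autoImplicit false

open scoped InnerProductSpace

namespace Crest.Agent.R132.E

/-- The operator `P[A]` in coordinates. -/
noncomputable def PA {E : Type*} [NormedAddCommGroup E] [InnerProductSpace ℂ E] {m d : ℕ}
    (A : E →L[ℂ] E) (B : Fin (d + 1) → Matrix (Fin m) (Fin m) ℂ) (v : PiLp 2 (fun _ : Fin m => E)) :
    PiLp 2 (fun _ : Fin m => E) :=
  WithLp.toLp 2 (fun i : Fin m => ∑ j : Fin m, ∑ k : Fin (d + 1), B k i j • (A ^ (k : ℕ)) (v j))

/-- The matrix polynomial `P(z)`. -/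
noncomputable def Pz {m d : ℕ} (B : Fin (d + 1) → Matrix (Fin m) (Fin m) ℂ) (z : ℂ) :
    Matrix (Fin m) (Fin m) ℂ :=
  ∑ k : Fin (d + 1), z ^ (k : ℕ) • B k

/-- Isometric embeddings between `ℓ²` sums. -/
theorem norm_toLp_isometry {E F : Type*} [NormedAddCommGroup E] [InnerProductSpace ℂ E]
    [NormedAddCommGroup F] [InnerProductSpace ℂ F] {m : ℕ} (ι : E →ₗᵢ[ℂ] F) (u : Fin m → E) :
    ‖(WithLp.toLp 2 (fun i => ι (u i)) : PiLp 2 (fun _ : Fin m => F))‖ =
      ‖(WithLp.toLp 2 u : PiLp 2 (fun _ : Fin m => E))‖ := by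
  rw [PiLp.norm_eq_of_L2, PiLp.norm_eq_of_L2]
  simp

theorem main_of_euclidean
    (hfin : ∀ (n : ℕ) (A : EuclideanSpace ℂ (Fin n) →L[ℂ] EuclideanSpace ℂ (Fin n)) (m d : ℕ)
      (B : Fin (d + 1) → Matrix (Fin m) (Fin m) ℂ) (M : ℝ),
      (∀ x : EuclideanSpace ℂ (Fin n), ‖x‖ = 1 →
        ‖Matrix.toEuclideanCLM (n := Fin m) (𝕜 := ℂ) (Pz B (inner ℂ x (A x)))‖ ≤ M) →
      ∀ v : PiLp 2 (fun _ : Fin m => EuclideanSpace ℂ (Fin n)), ‖PA A B v‖ ≤ 2 * M * ‖v‖)
    {H : Type*} [NormedAddCommGroup H] [InnerProductSpace ℂ H] [CompleteSpace H]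
    (A : H →L[ℂ] H) (m d : ℕ) (B : Fin (d + 1) → Matrix (Fin m) (Fin m) ℂ) (M : ℝ)
    (hM : ∀ x : H, ‖x‖ = 1 →
      ‖Matrix.toEuclideanCLM (n := Fin m) (𝕜 := ℂ) (Pz B (inner ℂ x (A x)))‖ ≤ M)
    (v : PiLp 2 (fun _ : Fin m => H)) : ‖PA A B v‖ ≤ 2 * M * ‖v‖ := by
  classical
  -- the finite-dimensional subspace
  let S : Set H := ⋃ j : Fin m, ⋃ k : Fin (d + 1), {(A ^ (k : ℕ)) (v j)}
  have hS : S.Finite := Set.finite_iUnion fun j => Set.finite_iUnion fun k => Set.finite_singleton _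
  let V : Submodule ℂ H := Submodule.span ℂ S
  have hVfin : FiniteDimensional ℂ V := FiniteDimensional.span_of_finite ℂ hS
  let b := stdOrthonormalBasis ℂ V
  let ι : EuclideanSpace ℂ (Fin (Module.finrank ℂ V)) →ₗᵢ[ℂ] H :=
    V.subtypeₗᵢ.comp b.repr.symm.toLinearIsometry
  have hrange : ∀ y ∈ V, ∃ u, ι u = y := by
    intro y hy
    refine ⟨b.repr ⟨y, hy⟩, ?_⟩
    simp [ι]
  let ιc : EuclideanSpace ℂ (Fin (Module.finrank ℂ V)) →L[ℂ] H := ι.toContinuousLinearMap
  have hιc : ∀ u, ιc u = ι u := fun u => rfl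
  have hadj : ∀ u, ιc.adjoint (ι u) = u := by
    intro u
    apply ext_inner_left ℂ
    intro w
    rw [ContinuousLinearMap.adjoint_inner_right, hιc, LinearIsometry.inner_map_map]
  let A' : EuclideanSpace ℂ (Fin (Module.finrank ℂ V)) →L[ℂ]
      EuclideanSpace ℂ (Fin (Module.finrank ℂ V)) := (ιc.adjoint).comp (A.comp ιc)
  have hA' : ∀ u, A' u = ιc.adjoint (A (ι u)) := fun u => rfl
  have hproj : ∀ y ∈ V, ι (ιc.adjoint y) = y := by
    intro y hy
    obtain ⟨u, rfl⟩ := hrange y hy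
    rw [hadj]
  have hmem : ∀ (j : Fin m) (k : ℕ), k ≤ d → (A ^ k) (v j) ∈ V := by
    intro j k hk
    apply Submodule.subset_span
    simp only [S, Set.mem_iUnion, Set.mem_singleton_iff]
    exact ⟨j, ⟨k, by omega⟩, rfl⟩
  let u : Fin m → EuclideanSpace ℂ (Fin (Module.finrank ℂ V)) := fun j => ιc.adjoint (v j)
  have hu : ∀ j, ι (u j) = v j := fun j => hproj _ (by simpa using hmem j 0 (Nat.zero_le _))
  have hpow : ∀ (j : Fin m) (k : ℕ), k ≤ d → ι ((A' ^ k) (u j)) = (A ^ k) (v j) := by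
    intro j k
    induction k with
    | zero => intro _; simpa using hu j
    | succ k ih =>
      intro hk
      have h1 := ih (by omega)
      have e1 : (A' ^ (k + 1)) (u j) = A' ((A' ^ k) (u j)) := by
        rw [pow_succ']; rfl
      have e2 : (A ^ (k + 1)) (v j) = A ((A ^ k) (v j)) := by
        rw [pow_succ']; rfl
      rw [e1, hA', h1, ← e2]
      exact hproj _ (hmem j (k + 1) hk)
  have hM' : ∀ x : EuclideanSpace ℂ (Fin (Module.finrank ℂ V)), ‖x‖ = 1 →
      ‖Matrix.toEuclideanCLM (n := Fin m) (𝕜 := ℂ) (Pz B (inner ℂ x (A' x)))‖ ≤ M := by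
    intro x hx
    have e : inner ℂ x (A' x) = inner ℂ (ι x) (A (ι x)) := by
      rw [hA', ContinuousLinearMap.adjoint_inner_right, hιc]
    rw [e]
    exact hM (ι x) (by rw [ι.norm_map, hx])
  have h := hfin _ A' m d B M hM' (WithLp.toLp 2 u)
  have e1 : ‖(WithLp.toLp 2 u : PiLp 2 (fun _ : Fin m =>
      EuclideanSpace ℂ (Fin (Module.finrank ℂ V))))‖ = ‖v‖ := by
    rw [← norm_toLp_isometry ι u]
    congr 1
    ext i
    exact hu i
  have e2 : ‖PA A' B (WithLp.toLp 2 u)‖ = ‖PA A B v‖ := by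
    unfold PA
    rw [← norm_toLp_isometry ι]
    congr 2
    funext i
    rw [map_sum]
    refine Finset.sum_congr rfl fun j _ => ?_
    rw [map_sum]
    refine Finset.sum_congr rfl fun k _ => ?_
    rw [map_smul]
    congr 1
    exact hpow j k (by omega)
  rw [e1, e2] at h
  exact h

/-- It is enough to prove the bound when `M` bounds `P` on a neighbourhood of the numerical range. -/
theorem euclidean_of_thick (n : ℕ) (A : EuclideanSpace ℂ (Fin n) →L[ℂ] EuclideanSpace ℂ (Fin n))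
    (m d : ℕ) (B : Fin (d + 1) → Matrix (Fin m) (Fin m) ℂ) (M : ℝ)
    (hM : ∀ x : EuclideanSpace ℂ (Fin n), ‖x‖ = 1 →
        ‖Matrix.toEuclideanCLM (n := Fin m) (𝕜 := ℂ) (Pz B (inner ℂ x (A x)))‖ ≤ M)
    (v : PiLp 2 (fun _ : Fin m => EuclideanSpace ℂ (Fin n)))
    (hthick : 0 < n → ∀ M' : ℝ, 0 < M' → ∀ ε : ℝ, 0 < ε →
      (∀ z ∈ Metric.cthickening ε (nr A.toLinearMap),
        ‖Matrix.toEuclideanCLM (n := Fin m) (𝕜 := ℂ) (Pz B z)‖ ≤ M') →
      ‖PA A B v‖ ≤ 2 * M' * ‖v‖) : ‖PA A B v‖ ≤ 2 * M * ‖v‖ := by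
  rcases Nat.eq_zero_or_pos n with hn | hn
  · subst hn
    have h1 : ∀ w : PiLp 2 (fun _ : Fin m => EuclideanSpace ℂ (Fin 0)), w = 0 := by
      intro w
      ext i j
      exact j.elim0
    rw [h1 (PA A B v), h1 v]
    simp
  · have : Nonempty (Fin n) := ⟨⟨0, hn⟩⟩
    have hnt : Nontrivial (EuclideanSpace ℂ (Fin n)) := inferInstance
    obtain ⟨w, x, hx, hw⟩ := nr_nonempty A.toLinearMap
    have hM0 : 0 ≤ M := (norm_nonneg _).trans (hM x hx)
    have hcont : Continuous fun z : ℂ =>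
        ‖Matrix.toEuclideanCLM (n := Fin m) (𝕜 := ℂ) (Pz B z)‖ := by
      have h1 : Continuous fun z : ℂ => Pz B z := by
        unfold Pz
        fun_prop
      have h2 : Continuous (Matrix.toEuclideanCLM (n := Fin m) (𝕜 := ℂ)) := by
        have := (Matrix.toEuclideanCLM (n := Fin m) (𝕜 := ℂ)).toAlgEquiv.toLinearMap
        exact LinearMap.continuous_of_finiteDimensional
          ((Matrix.toEuclideanCLM (n := Fin m) (𝕜 := ℂ)).toAlgEquiv.toLinearMap)
      exact (h2.comp h1).norm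
    -- bound for every δ > 0
    have key : ∀ δ : ℝ, 0 < δ → ‖PA A B v‖ ≤ 2 * (M + δ) * ‖v‖ := by
      intro δ hδ
      have hU : IsOpen {z : ℂ | ‖Matrix.toEuclideanCLM (n := Fin m) (𝕜 := ℂ) (Pz B z)‖ < M + δ} :=
        isOpen_lt hcont continuous_const
      have hsub : nr A.toLinearMap ⊆
          {z : ℂ | ‖Matrix.toEuclideanCLM (n := Fin m) (𝕜 := ℂ) (Pz B z)‖ < M + δ} := by
        rintro z ⟨x, hx, rfl⟩
        have := hM x hx
        simp only [Set.mem_ofPred_eq]
        exact lt_of_le_of_lt this (by linarith)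
      obtain ⟨ε, hε, hsub2⟩ := (isCompact_nr A.toLinearMap).exists_cthickening_subset_open hU hsub
      exact hthick hn (M + δ) (by linarith) ε hε fun z hz => (hsub2 hz).le
    refine le_of_forall_pos_le_add fun η hη => ?_
    have h1 := key (η / (2 * (‖v‖ + 1))) (by positivity)
    refine h1.trans ?_
    have h2 : 2 * (η / (2 * (‖v‖ + 1))) * ‖v‖ ≤ η := by
      have h3 : 0 ≤ ‖v‖ := norm_nonneg v
      have h4 : 2 * (η / (2 * (‖v‖ + 1))) * ‖v‖ = η * (‖v‖ / (‖v‖ + 1)) := by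
        field_simp
      rw [h4]
      have h5 : ‖v‖ / (‖v‖ + 1) ≤ 1 := by
        rw [div_le_one (by positivity)]; linarith
      nlinarith
    nlinarith

end Crest.Agent.R132.E
end

-- ▼ part R132/Final179

/-!
# Row 132: final assembly of S0179
-/

set_option autoImplicit false

open Set Filter Metric Polynomial
open scoped Topology ComplexConjugate

namespace Crest.Agent.R132

theorem isUnit_resolvent {H : Type*} [NormedAddCommGroup H] [InnerProductSpace ℂ H]
    [FiniteDimensional ℂ H] (A : H →L[ℂ] H) {a w : ℂ}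
    (h : ∀ x : H, ‖x‖ = 1 → a - w * inner ℂ x (A x) ≠ 0) :
    IsUnit (a • (1 : H →L[ℂ] H) - w • A) := by
  have : CompleteSpace H := FiniteDimensional.complete ℂ H
  rw [ContinuousLinearMap.isUnit_iff_isUnit_toLinearMap, LinearMap.isUnit_iff_ker_eq_bot,
    LinearMap.ker_eq_bot']
  intro x hx
  by_contra hx0
  have hn : ‖x‖ ≠ 0 := norm_ne_zero_iff.2 hx0
  have hx1 : a • x - w • A x = 0 := by simpa using hx
  obtain ⟨y, hy1, hy2⟩ : ∃ y : H, ‖y‖ = 1 ∧ a • y - w • A y = 0 := by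
    refine ⟨((‖x‖ : ℂ)⁻¹) • x, ?_, ?_⟩
    · rw [norm_smul, norm_inv, Complex.norm_real, norm_norm, inv_mul_cancel₀ hn]
    · rw [map_smul, smul_comm a, smul_comm w, ← smul_sub, hx1, smul_zero]
  apply h y hy1
  have h3 : inner ℂ y (a • y - w • A y) = 0 := by rw [hy2, inner_zero_right]
  rw [inner_sub_right, inner_smul_right, inner_smul_right, inner_self_eq_norm_sq_to_K, hy1] at h3
  simpa using h3

theorem thick_bound {n : ℕ} (hn : 0 < n) (A : EuclideanSpace ℂ (Fin n) →L[ℂ] EuclideanSpace ℂ (Fin n))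
    (m d : ℕ) (B : Fin (d + 1) → Matrix (Fin m) (Fin m) ℂ)
    (v : PiLp 2 (fun _ : Fin m => EuclideanSpace ℂ (Fin n))) (M' : ℝ) (hM' : 0 < M') (ε : ℝ)
    (hε : 0 < ε) (hz : ∀ z ∈ Metric.cthickening ε (E.nr A.toLinearMap),
        ‖Matrix.toEuclideanCLM (n := Fin m) (𝕜 := ℂ) (E.Pz B z)‖ ≤ M') :
    ‖E.PA A B v‖ ≤ 2 * M' * ‖v‖ := by
  classical
  have : Nonempty (Fin n) := ⟨⟨0, hn⟩⟩
  have hnt : Nontrivial (EuclideanSpace ℂ (Fin n)) := inferInstance
  obtain ⟨ρ, φ, hρ, hφ, h0, hinj, hconv, hne, hsupp, hclose⟩ :=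
    exists_domain (E.isCompact_nr A.toLinearMap) (E.convex_nr A.toLinearMap)
      (E.nr_nonempty A.toLinearMap) hε
  have hA : ∀ w ∈ ball (0:ℂ) ρ, IsUnit (φ w • (1 : EuclideanSpace ℂ (Fin n) →L[ℂ]
      EuclideanSpace ℂ (Fin n)) - w • A) := by
    intro w hw
    exact isUnit_resolvent A fun x hx => hne w hw _ ⟨x, hx, rfl⟩
  set F : ℂ → Matrix (Fin m) (Fin m) ℂ := fun z => ((M' : ℂ)⁻¹) • E.Pz B z with hF
  set q : Fin m → Fin m → ℂ[X] := fun i j =>
    ∑ k : Fin (d + 1), C ((M' : ℂ)⁻¹ * B k i j) * X ^ (k : ℕ) with hq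
  have hFq : ∀ i j, (fun z => F z i j) = fun z => (q i j).eval z := by
    intro i j
    funext z
    simp only [hF, hq, E.Pz, Matrix.smul_apply, Matrix.sum_apply, eval_finsetSum, smul_eq_mul,
      eval_mul, eval_C, eval_pow, eval_X, Finset.mul_sum]
    refine Finset.sum_congr rfl fun k _ => ?_
    ring
  have hcore := core hρ hφ h0 hinj hconv A hA (fun x hx u hu => hsupp _ ⟨x, hx, rfl⟩ u hu) F univ
    isOpen_univ convex_univ (fun _ _ => mem_univ _)
    (fun i j => by rw [hFq i j]; exact (q i j).differentiable.differentiableOn)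
    (fun u hu => by
      have h1 := hz _ (hclose u hu)
      simp only [hF]
      rw [map_smul, norm_smul, norm_inv, Complex.norm_real, Real.norm_eq_abs, abs_of_pos hM',
        inv_mul_le_iff₀ hM', mul_one]
      exact h1) v
  have h2 : (WithLp.toLp 2 (fun i => ∑ j, funcalc φ A (fun z => F z i j) (v j)) :
      PiLp 2 (fun _ : Fin m => EuclideanSpace ℂ (Fin n))) = ((M' : ℂ)⁻¹) • E.PA A B v := by
    apply WithLp.ofLp_injective
    funext i
    simp only [E.PA, WithLp.ofLp_smul, Pi.smul_apply]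
    rw [Finset.smul_sum]
    refine Finset.sum_congr rfl fun j _ => ?_
    have hmon : ∀ (c : ℂ) (k : ℕ), aeval A (C c * X ^ k : ℂ[X]) = c • A ^ k := by
      intro c k
      rw [map_mul, aeval_C, map_pow, aeval_X, Algebra.algebraMap_eq_smul_one, smul_mul_assoc,
        one_mul]
    rw [hFq i j, funcalc_aeval hρ hφ h0 A hA, hq]
    simp only [map_sum, hmon]
    rw [FunLike.coe_sum, Finset.sum_apply, Finset.smul_sum]
    refine Finset.sum_congr rfl fun k _ => ?_
    rw [smul_smul]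
    rfl
  rw [h2, norm_smul, norm_inv, Complex.norm_real, Real.norm_eq_abs, abs_of_pos hM',
    inv_mul_le_iff₀ hM'] at hcore
  linarith

theorem final179 {H : Type*} [NormedAddCommGroup H] [InnerProductSpace ℂ H] [CompleteSpace H]
    (A : H →L[ℂ] H) (m d : ℕ) (B : Fin (d + 1) → Matrix (Fin m) (Fin m) ℂ) (M : ℝ)
    (hM : ∀ x : H, ‖x‖ = 1 →
      ‖Matrix.toEuclideanCLM (n := Fin m) (𝕜 := ℂ)
          (∑ k : Fin (d + 1), (inner ℂ x (A x)) ^ (k : ℕ) • B k)‖ ≤ M)
    (v : PiLp 2 (fun _ : Fin m => H)) :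
    ‖(WithLp.toLp 2 (fun i : Fin m => ∑ j : Fin m, ∑ k : Fin (d + 1), B k i j • (A ^ (k : ℕ)) (v j))
        : PiLp 2 (fun _ : Fin m => H))‖ ≤ 2 * M * ‖v‖ :=
  E.main_of_euclidean (fun n A m d B M hM v => E.euclidean_of_thick n A m d B M hM v
    fun hn M' hM' ε hε hz => thick_bound hn A m d B v M' hM' ε hε hz) A m d B M hM v

end Crest.Agent.R132
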