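import Mathlib
import Crest.Prelude.Def_NumRangeMetric

-- ▼ part R132/GDeriv
section

/-!
An injective holomorphic function has non-vanishing derivative.
-/

set_option autoImplicit false

open Filter Topology Set

namespace Crest.Agent.R132.GS

/-- local `k`-th root of an analytic function that does not vanish at the point -/
theorem exists_analyticAt_pow_eq {h : ℂ → ℂ} {z₀ : ℂ} (hh : AnalyticAt ℂ h z₀) (h0 : h z₀ ≠ 0)
    {k : ℕ} (hk : k ≠ 0) :
    ∃ g : ℂ → ℂ, AnalyticAt ℂ g z₀ ∧ g z₀ ≠ 0 ∧ ∀ᶠ z in 𝓝 z₀, (g z) ^ k = h z := by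
  obtain ⟨c, hc⟩ : ∃ c : ℂ, c ^ k = h z₀ := IsAlgClosed.exists_pow_nat_eq _ (Nat.pos_of_ne_zero hk)
  have hc0 : c ≠ 0 := by
    rintro rfl
    rw [zero_pow hk] at hc
    exact h0 hc.symm
  have hdiv : AnalyticAt ℂ (fun z => h z / h z₀) z₀ := hh.div analyticAt_const h0
  have h1 : (h z₀ / h z₀) ∈ Complex.slitPlane := by
    rw [div_self h0]; exact Complex.one_mem_slitPlane
  refine ⟨fun z => c * Complex.exp (Complex.log (h z / h z₀) / k), ?_, ?_, ?_⟩
  · exact analyticAt_const.mul (((hdiv.clog h1).div analyticAt_const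
      (by exact_mod_cast hk)).cexp)
  · exact mul_ne_zero hc0 (Complex.exp_ne_zero _)
  · have : ∀ᶠ z in 𝓝 z₀, h z ≠ 0 := hh.continuousAt.eventually_ne h0
    filter_upwards [this] with z hz
    have hkC : (k : ℂ) ≠ 0 := by exact_mod_cast hk
    rw [mul_pow, hc, ← Complex.exp_nat_mul, mul_div_cancel₀ _ hkC,
      Complex.exp_log (div_ne_zero hz h0), mul_div_cancel₀ _ h0]

/-- an injective holomorphic function has non-vanishing derivative -/
theorem deriv_ne_zero_of_injOn {f : ℂ → ℂ} {U : Set ℂ} (hU : IsOpen U)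
    (hf : DifferentiableOn ℂ f U) (hinj : InjOn f U) {z₀ : ℂ} (hz₀ : z₀ ∈ U) :
    deriv f z₀ ≠ 0 := by
  intro hd
  have hUn : U ∈ 𝓝 z₀ := hU.mem_nhds hz₀
  have hfa : AnalyticAt ℂ f z₀ := hf.analyticAt hUn
  have hga : AnalyticAt ℂ (fun z => f z - f z₀) z₀ := hfa.sub analyticAt_const
  have hne : ∀ᶠ z in 𝓝[≠] z₀, f z - f z₀ ≠ 0 := by
    filter_upwards [mem_nhdsWithin_of_mem_nhds hUn, self_mem_nhdsWithin] with z hz hz' h
    exact hz' (hinj hz hz₀ (sub_eq_zero.mp h))
  have hord : ¬ ∀ᶠ z in 𝓝 z₀, f z - f z₀ = 0 := by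
    intro h
    have h1 : ∀ᶠ z in 𝓝[≠] z₀, f z - f z₀ = 0 := h.filter_mono nhdsWithin_le_nhds
    obtain ⟨z, hz1, hz2⟩ := (h1.and hne).exists
    exact hz2 hz1
  obtain ⟨k, h, hh, h0, hk⟩ := hga.exists_eventuallyEq_pow_smul_nonzero_iff.mpr hord
  have hk0 : k ≠ 0 := by
    rintro rfl
    have := hk.self_of_nhds
    simp at this
    exact h0 this.symm
  have hk1 : k ≠ 1 := by
    rintro rfl
    have h1 : deriv (fun z => f z - f z₀) z₀ = deriv (fun z => (z - z₀) ^ 1 • h z) z₀ :=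
      Filter.EventuallyEq.deriv_eq hk
    have h2 : HasDerivAt (fun z => (z - z₀) ^ 1 • h z) (1 * h z₀ + (z₀ - z₀) * deriv h z₀) z₀ := by
      simp only [pow_one, smul_eq_mul]
      exact ((hasDerivAt_id z₀).sub_const z₀).mul hh.differentiableAt.hasDerivAt
    rw [h2.deriv, deriv_sub_const, hd] at h1
    simp at h1
    exact h0 h1.symm
  obtain ⟨g, hg, hg0, hgk⟩ := exists_analyticAt_pow_eq hh h0 hk0
  -- the local coordinate
  have hφd : HasStrictDerivAt (fun z => (z - z₀) * g z) (1 * g z₀ + (z₀ - z₀) * deriv g z₀) z₀ := by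
    have ha : AnalyticAt ℂ (fun z => (z - z₀) * g z) z₀ :=
      (analyticAt_id.sub analyticAt_const).mul hg
    have hb : HasDerivAt (fun z => (z - z₀) * g z) (1 * g z₀ + (z₀ - z₀) * deriv g z₀) z₀ :=
      ((hasDerivAt_id z₀).sub_const z₀).mul hg.differentiableAt.hasDerivAt
    have := ha.hasStrictDerivAt
    rwa [hb.deriv] at this
  have hmap := hφd.map_nhds_eq (by simpa using hg0)
  have hmap' : Filter.map (fun z => (z - z₀) * g z) (𝓝 z₀) = 𝓝 0 := by simpa using hmap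
  have hN : {z | f z - f z₀ = (z - z₀) ^ k • h z ∧ (g z) ^ k = h z ∧ z ∈ U} ∈ 𝓝 z₀ := by
    filter_upwards [hk, hgk, hUn] with z h1 h2 h3 using ⟨h1, h2, h3⟩
  have himg : (fun z => (z - z₀) * g z) ''
      {z | f z - f z₀ = (z - z₀) ^ k • h z ∧ (g z) ^ k = h z ∧ z ∈ U} ∈ 𝓝 (0 : ℂ) := by
    rw [← hmap']
    exact image_mem_map hN
  obtain ⟨δ, hδ, hball⟩ := Metric.mem_nhds_iff.mp himg
  set ω : ℂ := Complex.exp (2 * Real.pi * Complex.I / k) with hω
  have hprim : IsPrimitiveRoot ω k := Complex.isPrimitiveRoot_exp k hk0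
  have hω1 : ω ≠ 1 := by
    have h2 : 1 < k := by omega
    exact hprim.ne_one h2
  have hωk : ω ^ k = 1 := hprim.pow_eq_one
  have hωn : ‖ω‖ = 1 := by
    exact hprim.norm'_eq_one hk0
  have ha : ((δ / 2 : ℝ) : ℂ) ∈ Metric.ball (0 : ℂ) δ := by
    simp only [Metric.mem_ball, dist_zero_right, Complex.norm_real, Real.norm_eq_abs]
    rw [abs_of_pos (by positivity)]; linarith
  have hb : ω * ((δ / 2 : ℝ) : ℂ) ∈ Metric.ball (0 : ℂ) δ := by
    simp only [Metric.mem_ball, dist_zero_right, norm_mul, hωn, one_mul, Complex.norm_real,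
      Real.norm_eq_abs]
    rw [abs_of_pos (by positivity)]; linarith
  obtain ⟨z₁, ⟨h11, h12, h13⟩, h14⟩ := hball ha
  obtain ⟨z₂, ⟨h21, h22, h23⟩, h24⟩ := hball hb
  have e1 : f z₁ - f z₀ = (((δ / 2 : ℝ) : ℂ)) ^ k := by
    rw [h11, ← h12, smul_eq_mul, ← mul_pow]
    exact congrArg (· ^ k) h14
  have e2 : f z₂ - f z₀ = (((δ / 2 : ℝ) : ℂ)) ^ k := by
    rw [h21, ← h22, smul_eq_mul, ← mul_pow]
    have : ((z₂ - z₀) * g z₂) ^ k = (ω * ((δ / 2 : ℝ) : ℂ)) ^ k := congrArg (· ^ k) h24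
    rw [this, mul_pow, hωk, one_mul]
  have e3 : f z₁ = f z₂ := by
    have := e1.trans e2.symm
    exact sub_left_inj.mp this
  have e4 : z₁ = z₂ := hinj h13 h23 e3
  subst e4
  have h14' : (z₁ - z₀) * g z₁ = ((δ / 2 : ℝ) : ℂ) := h14
  have h24' : (z₁ - z₀) * g z₁ = ω * ((δ / 2 : ℝ) : ℂ) := h24
  have hδ0 : ((δ / 2 : ℝ) : ℂ) ≠ 0 := by
    have : (δ / 2 : ℝ) ≠ 0 := by positivity
    exact_mod_cast this
  apply hω1
  have : ω * ((δ / 2 : ℝ) : ℂ) = 1 * ((δ / 2 : ℝ) : ℂ) := by rw [← h24', h14', one_mul]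
  exact mul_right_cancel₀ hδ0 this

end Crest.Agent.R132.GS
end

-- ▼ part R132/GCurve
section

/-!
Closed-contour vanishing, and the average of `t G'(t)/(G(t) - z₀)` for an exterior map `G`.
-/

set_option autoImplicit false

open Filter Topology Set Metric

namespace Crest.Agent.R132.GS

/-- circle average over the unit circle -/
noncomputable abbrev cav (F : ℂ → ℂ) : ℂ := Real.circleAverage F 0 1

/-- integral of the derivative of a function along a closed curve in a convex set vanishes -/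
theorem cav_closed {K : Set ℂ} (hK : Convex ℝ K) {G : ℂ → ℂ} {r : ℝ} (hr : r < 1)
    (hG : DifferentiableOn ℂ G {t : ℂ | r < ‖t‖})
    (hGK : ∀ t : ℂ, ‖t‖ = 1 → G t ∈ K)
    {g : ℂ → ℂ} (hg : DifferentiableOn ℂ g K) :
    cav (fun t => t * deriv G t * g (G t)) = 0 := by
  obtain ⟨Φ, hΦ⟩ := hK.exists_forall_hasDerivWithinAt hg
  have hopen : IsOpen {t : ℂ | r < ‖t‖} := isOpen_lt continuous_const continuous_norm
  have hnorm : ∀ θ : ℝ, ‖circleMap 0 1 θ‖ = 1 := by
    intro θ; simp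
  have hGd : ∀ t : ℂ, ‖t‖ = 1 → HasDerivAt G (deriv G t) t := by
    intro t ht
    have : t ∈ {t : ℂ | r < ‖t‖} := by simp only [mem_ofPred_eq, ht]; exact hr
    exact ((hG t this).differentiableAt (hopen.mem_nhds this)).hasDerivAt
  have hGc : ∀ θ : ℝ, HasDerivAt (fun θ : ℝ => G (circleMap 0 1 θ))
      ((circleMap 0 1 θ * Complex.I) * deriv G (circleMap 0 1 θ)) θ := by
    intro θ
    have h1 := hGd (circleMap 0 1 θ) (hnorm θ)
    have h2 := hasDerivAt_circleMap 0 1 θ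
    have := HasDerivAt.scomp θ h1 h2
    simpa [Function.comp_def] using this
  have hchain : ∀ θ : ℝ, HasDerivAt (fun θ : ℝ => Φ (G (circleMap 0 1 θ)))
      (((circleMap 0 1 θ * Complex.I) * deriv G (circleMap 0 1 θ)) *
        g (G (circleMap 0 1 θ))) θ := by
    intro θ
    have h1 := hΦ (G (circleMap 0 1 θ)) (hGK _ (hnorm θ))
    have h2 := (hGc θ).hasDerivWithinAt (s := univ)
    have := HasDerivWithinAt.scomp θ h1 h2 (fun x _ => hGK _ (hnorm x))
    simpa [Function.comp_def, hasDerivWithinAt_univ] using this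
  have hGcont : Continuous (fun θ : ℝ => G (circleMap 0 1 θ)) :=
    continuous_iff_continuousAt.mpr fun θ => (hGc θ).continuousAt
  have hderivcont : Continuous (fun θ : ℝ => deriv G (circleMap 0 1 θ)) := by
    have h1 : ContinuousOn (deriv G) {t : ℂ | r < ‖t‖} := (hG.deriv hopen).continuousOn
    exact h1.comp_continuous (continuous_circleMap 0 1)
      (fun θ => by simp only [mem_ofPred_eq, hnorm θ]; exact hr)
  have hgcont : Continuous (fun θ : ℝ => g (G (circleMap 0 1 θ))) :=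
    hg.continuousOn.comp_continuous hGcont (fun θ => hGK _ (hnorm θ))
  have hint : ∫ θ in (0:ℝ)..2 * Real.pi, ((circleMap 0 1 θ * Complex.I) *
      deriv G (circleMap 0 1 θ)) * g (G (circleMap 0 1 θ)) = 0 := by
    rw [intervalIntegral.integral_eq_sub_of_hasDerivAt (fun θ _ => hchain θ)
      (Continuous.intervalIntegrable (by
        exact (((continuous_circleMap 0 1).mul continuous_const).mul hderivcont).mul hgcont) _ _)]
    have : circleMap 0 1 (2 * Real.pi) = circleMap 0 1 0 := by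
      simp [circleMap]
    rw [this, sub_self]
  unfold cav Real.circleAverage
  have h2 : ∫ θ in (0:ℝ)..2 * Real.pi, ((circleMap 0 1 θ * Complex.I) *
      deriv G (circleMap 0 1 θ)) * g (G (circleMap 0 1 θ)) =
      Complex.I * ∫ θ in (0:ℝ)..2 * Real.pi, circleMap 0 1 θ *
      deriv G (circleMap 0 1 θ) * g (G (circleMap 0 1 θ)) := by
    rw [← intervalIntegral.integral_const_mul]
    apply intervalIntegral.integral_congr
    intro θ _
    simp only
    ring
  rw [h2] at hint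
  have h3 := (mul_eq_zero.mp hint).resolve_left Complex.I_ne_zero
  rw [h3, smul_zero]

section Exterior

variable {Ω : Set ℂ} {G : ℂ → ℂ} {r : ℝ}

/-- points on the unit circle are mapped into `closure Ω` -/
theorem map_circle_mem_closure (hr₂ : r < 1)
    (hG₂ : Set.InjOn G {t : ℂ | r < ‖t‖})
    (hG₃ : G '' {t : ℂ | 1 < ‖t‖} = (closure Ω)ᶜ) {t : ℂ} (ht : ‖t‖ = 1) : G t ∈ closure Ω := by
  by_contra h
  have h1 : G t ∈ G '' {t : ℂ | 1 < ‖t‖} := by rw [hG₃]; exact h
  obtain ⟨s, hs, hst⟩ := h1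
  have hs' : 1 < ‖s‖ := hs
  have : s = t := hG₂ (show r < ‖s‖ by linarith) (show r < ‖t‖ by linarith) hst
  subst this
  linarith

theorem map_ext_notMem (hG₃ : G '' {t : ℂ | 1 < ‖t‖} = (closure Ω)ᶜ) {t : ℂ} (ht : 1 < ‖t‖) :
    G t ∉ closure Ω := by
  have h1 : G t ∈ G '' {t : ℂ | 1 < ‖t‖} := ⟨t, ht, rfl⟩
  rw [hG₃] at h1
  exact h1

/-- radial approach: for `‖t‖ = 1` there are points of the exterior arbitrarily near `t` -/
theorem frequently_norm_gt {t : ℂ} (ht : ‖t‖ = 1) : ∃ᶠ s in 𝓝 t, 1 < ‖s‖ := by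
  rw [Filter.frequently_iff]
  intro V hV
  obtain ⟨ε, hε, hball⟩ := Metric.mem_nhds_iff.mp hV
  refine ⟨((1 + ε / 2 : ℝ) : ℂ) * t, hball ?_, ?_⟩
  · rw [Metric.mem_ball, dist_eq_norm]
    have : ((1 + ε / 2 : ℝ) : ℂ) * t - t = ((ε / 2 : ℝ) : ℂ) * t := by push_cast; ring
    rw [this, norm_mul, ht, mul_one, Complex.norm_real, Real.norm_eq_abs, abs_of_pos (by positivity)]
    linarith
  · rw [norm_mul, ht, mul_one, Complex.norm_real, Real.norm_eq_abs, abs_of_pos (by positivity)]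
    linarith

theorem map_circle_notMem (hΩ₁ : IsOpen Ω) (hr₂ : r < 1)
    (hG₁ : DifferentiableOn ℂ G {t : ℂ | r < ‖t‖})
    (hG₃ : G '' {t : ℂ | 1 < ‖t‖} = (closure Ω)ᶜ) {t : ℂ} (ht : ‖t‖ = 1) : G t ∉ Ω := by
  intro h
  have hopen : IsOpen {t : ℂ | r < ‖t‖} := isOpen_lt continuous_const continuous_norm
  have htm : t ∈ {t : ℂ | r < ‖t‖} := by simp only [mem_ofPred_eq, ht]; exact hr₂
  have hc : ContinuousAt G t := (hG₁.differentiableAt (hopen.mem_nhds htm)).continuousAt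
  have hev : ∀ᶠ s in 𝓝 t, G s ∈ Ω := hc.eventually_mem (hΩ₁.mem_nhds h)
  obtain ⟨s, hs1, hs2⟩ := ((frequently_norm_gt ht).and_eventually hev).exists
  exact map_ext_notMem hG₃ hs1 (subset_closure hs2)

/-- **The exterior average**: `avg t G'(t)/(G(t) - z₀) = 1`. -/
theorem cav_ext (hΩ₁ : IsOpen Ω) (hΩ₂ : Bornology.IsBounded Ω) (hr₁ : 0 < r) (hr₂ : r < 1)
    (hG₁ : DifferentiableOn ℂ G {t : ℂ | r < ‖t‖}) (hG₂ : Set.InjOn G {t : ℂ | r < ‖t‖})
    (hG₃ : G '' {t : ℂ | 1 < ‖t‖} = (closure Ω)ᶜ) {z₀ : ℂ} (hz₀ : z₀ ∈ Ω) :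
    cav (fun t => t * deriv G t * (G t - z₀)⁻¹) = 1 := by
  have hopen : IsOpen {t : ℂ | r < ‖t‖} := isOpen_lt continuous_const continuous_norm
  have hGdiff : ∀ t : ℂ, 1 ≤ ‖t‖ → DifferentiableAt ℂ G t := by
    intro t ht
    have htm : t ∈ {t : ℂ | r < ‖t‖} := by simp only [mem_ofPred_eq]; linarith
    exact hG₁.differentiableAt (hopen.mem_nhds htm)
  have hGd2 : ∀ t : ℂ, 1 ≤ ‖t‖ → DifferentiableAt ℂ (deriv G) t := by
    intro t ht
    have htm : t ∈ {t : ℂ | r < ‖t‖} := by simp only [mem_ofPred_eq]; linarith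
    exact (hG₁.deriv hopen).differentiableAt (hopen.mem_nhds htm)
  have hne : ∀ t : ℂ, 1 ≤ ‖t‖ → G t - z₀ ≠ 0 := by
    intro t ht h
    have h1 : G t = z₀ := sub_eq_zero.mp h
    rcases ht.eq_or_lt with h2 | h2
    · exact map_circle_notMem hΩ₁ hr₂ hG₁ hG₃ h2.symm (h1 ▸ hz₀)
    · exact map_ext_notMem hG₃ h2 (subset_closure (h1 ▸ hz₀))
  obtain ⟨δ, hδ, hball⟩ := Metric.isOpen_iff.mp hΩ₁ z₀ hz₀
  have hinv : ∀ w : ℂ, w ∈ ball (0:ℂ) 1 \ {0} → 1 < ‖w⁻¹‖ := by
    rintro w ⟨hw1, hw2⟩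
    rw [mem_ball_zero_iff] at hw1
    rw [norm_inv]
    exact (one_lt_inv₀ (norm_pos_iff.mpr hw2)).mpr hw1
  set k : ℂ → ℂ := fun w => (G w⁻¹ - z₀)⁻¹ with hk
  have hkd : ∀ w : ℂ, w ∈ ball (0:ℂ) 1 \ {0} →
      HasDerivAt k ((k w) ^ 2 * (deriv G w⁻¹ * (w ^ 2)⁻¹)) w := by
    intro w hw
    have hw0 : w ≠ 0 := hw.2
    have h1 : HasDerivAt (fun w : ℂ => G w⁻¹) (deriv G w⁻¹ * (-(w ^ 2)⁻¹)) w :=
      HasDerivAt.comp w (hGdiff _ (hinv w hw).le).hasDerivAt (hasDerivAt_inv hw0)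
    have h2 := (h1.sub_const z₀).inv (hne _ (hinv w hw).le)
    have h3 : (k w) ^ 2 * (deriv G w⁻¹ * (w ^ 2)⁻¹) =
        -(deriv G w⁻¹ * (-(w ^ 2)⁻¹)) / (G w⁻¹ - z₀) ^ 2 := by
      have h4 : k w = (G w⁻¹ - z₀)⁻¹ := rfl
      rw [h4]
      field_simp
    rw [h3]
    exact h2
  have hkdiff : DifferentiableOn ℂ k (ball (0:ℂ) 1 \ {0}) := fun w hw =>
    (hkd w hw).differentiableAt.differentiableWithinAt
  have hkb : BddAbove (norm ∘ k '' (ball (0:ℂ) 1 \ {0})) := by
    refine ⟨δ⁻¹, ?_⟩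
    rintro _ ⟨w, hw, rfl⟩
    simp only [Function.comp, hk, norm_inv]
    apply inv_anti₀ hδ
    by_contra hlt
    push Not at hlt
    have : G w⁻¹ ∈ ball z₀ δ := by rw [mem_ball, dist_eq_norm]; exact hlt
    exact map_ext_notMem hG₃ (hinv w hw) (subset_closure (hball this))
  set kk : ℂ → ℂ := Function.update k 0 (limUnder (𝓝[≠] 0) k) with hkk
  have hkkd : DifferentiableOn ℂ kk (ball (0:ℂ) 1) :=
    Complex.differentiableOn_update_limUnder_of_bddAbove (ball_mem_nhds 0 one_pos) hkdiff hkb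
  have hkkne : ∀ w : ℂ, w ≠ 0 → kk w = k w := fun w hw => Function.update_of_ne hw _ _
  have hkk0 : kk 0 = 0 := by
    by_contra h0
    have hc : ContinuousAt kk 0 := (hkkd.differentiableAt (ball_mem_nhds 0 one_pos)).continuousAt
    have hpos : 0 < ‖kk 0‖ / 2 := by
      have := norm_pos_iff.mpr h0
      linarith
    have hev : ∀ᶠ w in 𝓝 (0:ℂ), ‖kk 0‖ / 2 < ‖kk w‖ :=
      (continuous_norm.continuousAt.comp hc).eventually (lt_mem_nhds (by
        simp only [Function.comp]; linarith [norm_pos_iff.mpr h0]))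
    obtain ⟨ε, hε, hεb⟩ := Metric.eventually_nhds_iff_ball.mp hev
    -- `G` is bounded on the exterior
    have hcomp : IsCompact {t : ℂ | 1 ≤ ‖t‖ ∧ ‖t‖ ≤ ε⁻¹ + 1} := by
      have : {t : ℂ | 1 ≤ ‖t‖ ∧ ‖t‖ ≤ ε⁻¹ + 1} =
          closedBall (0:ℂ) (ε⁻¹ + 1) ∩ {t : ℂ | 1 ≤ ‖t‖} := by
        ext t; simp [and_comm]
      rw [this]
      exact (isCompact_closedBall _ _).inter_right (isClosed_le continuous_const continuous_norm)
    have hGc : ContinuousOn G {t : ℂ | 1 ≤ ‖t‖ ∧ ‖t‖ ≤ ε⁻¹ + 1} := fun t ht =>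
      (hGdiff t ht.1).continuousAt.continuousWithinAt
    obtain ⟨M, hM⟩ := (hcomp.image_of_continuousOn hGc).isBounded.exists_norm_le
    have hbd : ∀ t : ℂ, 1 < ‖t‖ → ‖G t‖ ≤ max M (‖z₀‖ + (‖kk 0‖ / 2)⁻¹) := by
      intro t ht
      by_cases hte : ‖t‖ ≤ ε⁻¹ + 1
      · exact (hM _ ⟨t, ⟨ht.le, hte⟩, rfl⟩).trans (le_max_left _ _)
      · push Not at hte
        have ht0 : t ≠ 0 := by rintro rfl; simp at ht; linarith
        have hw : t⁻¹ ∈ ball (0:ℂ) ε := by
          rw [mem_ball_zero_iff, norm_inv]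
          have : ε⁻¹ < ‖t‖ := by linarith
          exact inv_lt_of_inv_lt₀ hε this
        have h1 := hεb _ hw
        rw [hkkne _ (inv_ne_zero ht0)] at h1
        simp only [hk, inv_inv, norm_inv] at h1
        have h2 : ‖G t - z₀‖ < (‖kk 0‖ / 2)⁻¹ := by
          exact lt_inv_of_lt_inv₀ hpos h1
        have h3 : ‖G t‖ ≤ ‖z₀‖ + ‖G t - z₀‖ := by
          calc ‖G t‖ = ‖z₀ + (G t - z₀)‖ := by ring_nf
            _ ≤ _ := norm_add_le _ _
        exact le_trans (by linarith) (le_max_right _ _)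
    have hb1 : Bornology.IsBounded ((closure Ω)ᶜ) := by
      rw [← hG₃, isBounded_iff_forall_norm_le]
      exact ⟨_, by rintro _ ⟨t, ht, rfl⟩; exact hbd t ht⟩
    have hb2 : Bornology.IsBounded (closure Ω ∪ (closure Ω)ᶜ) := hΩ₂.closure.union hb1
    rw [union_compl_self] at hb2
    exact NormedSpace.unbounded_univ ℝ ℂ hb2
  have hkkinj : InjOn kk (ball (0:ℂ) 1) := by
    have hkw : ∀ w : ℂ, w ∈ ball (0:ℂ) 1 → w ≠ 0 → kk w ≠ 0 := by
      intro w hw hw0
      rw [hkkne w hw0]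
      exact inv_ne_zero (hne _ (hinv w ⟨hw, hw0⟩).le)
    intro a ha b hb hab
    by_cases ha0 : a = 0
    · by_contra hne'
      have hb0 : b ≠ 0 := by rintro rfl; exact hne' ha0
      exact hkw b hb hb0 (by rw [← hab, ha0, hkk0])
    · by_cases hb0 : b = 0
      · exact absurd (by rw [hab, hb0, hkk0]) (hkw a ha ha0)
      · rw [hkkne a ha0, hkkne b hb0] at hab
        simp only [hk] at hab
        have h1 : G a⁻¹ = G b⁻¹ := by
          have := inv_injective hab
          exact sub_left_inj.mp this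
        have h2 := hG₂ (show r < ‖a⁻¹‖ by linarith [hinv a ⟨ha, ha0⟩])
          (show r < ‖b⁻¹‖ by linarith [hinv b ⟨hb, hb0⟩]) h1
        exact inv_injective h2
  have hder0 : deriv kk 0 ≠ 0 :=
    deriv_ne_zero_of_injOn isOpen_ball hkkd hkkinj (mem_ball_self one_pos)
  set m : ℂ → ℂ := dslope kk 0 with hm
  have hmd : DifferentiableOn ℂ m (ball (0:ℂ) 1) :=
    (Complex.differentiableOn_dslope (ball_mem_nhds 0 one_pos)).mpr hkkd
  have hmne : ∀ w ∈ ball (0:ℂ) 1, m w ≠ 0 := by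
    intro w hw
    by_cases hw0 : w = 0
    · rw [hw0, hm, dslope_same]; exact hder0
    · rw [hm, dslope_of_ne _ hw0, slope_def_field]
      apply div_ne_zero
      · rw [hkk0, sub_zero]
        intro h
        exact hw0 (hkkinj hw (mem_ball_self one_pos) (by rw [h, hkk0]))
      · simpa using hw0
  have hkm : ∀ w : ℂ, kk w = w * m w := by
    intro w
    by_cases hw0 : w = 0
    · rw [hw0, hkk0, zero_mul]
    · rw [hm, dslope_of_ne _ hw0, slope_def_field, hkk0, sub_zero, sub_zero]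
      field_simp
  -- the function on the disc
  set Φ : ℂ → ℂ := fun w => 1 + w * (deriv m w / m w) with hΦ
  have hΦd : DifferentiableOn ℂ Φ (ball (0:ℂ) 1) := by
    have h1 : DifferentiableOn ℂ (deriv m) (ball (0:ℂ) 1) := hmd.deriv isOpen_ball
    exact (differentiableOn_const 1).add (differentiableOn_id.mul (h1.div hmd hmne))
  set Ψ : ℂ → ℂ := Function.update (fun w => w⁻¹ * deriv G w⁻¹ * (G w⁻¹ - z₀)⁻¹) 0 1 with hΨ
  have hΨne : ∀ w : ℂ, w ≠ 0 → Ψ w = w⁻¹ * deriv G w⁻¹ * (G w⁻¹ - z₀)⁻¹ := fun w hw =>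
    Function.update_of_ne hw _ _
  have hΨΦ : EqOn Ψ Φ (ball (0:ℂ) 1) := by
    intro w hw
    by_cases hw0 : w = 0
    · rw [hw0]; simp [hΨ, hΦ]
    · rw [hΨne w hw0]
      have hd1 : HasDerivAt kk ((k w) ^ 2 * (deriv G w⁻¹ * (w ^ 2)⁻¹)) w := by
        refine (hkd w ⟨hw, hw0⟩).congr_of_eventuallyEq ?_
        filter_upwards [isOpen_ne.mem_nhds hw0] with x hx using hkkne x hx
      have hd2 : HasDerivAt kk (1 * m w + w * deriv m w) w := by
        have hmw : HasDerivAt m (deriv m w) w :=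
          (hmd.differentiableAt (isOpen_ball.mem_nhds hw)).hasDerivAt
        refine ((hasDerivAt_id w).mul hmw).congr_of_eventuallyEq ?_
        exact Eventually.of_forall fun x => by simpa using hkm x
      have he := hd1.unique hd2
      have hkw : k w = w * m w := by rw [← hkkne w hw0, hkm w]
      have hmw := hmne w hw
      have hG0 : (G w⁻¹ - z₀)⁻¹ = w * m w := hkw
      rw [hG0, hΦ]
      simp only
      have : w⁻¹ * deriv G w⁻¹ * (w * m w) = ((k w) ^ 2 * (deriv G w⁻¹ * (w ^ 2)⁻¹)) / m w := by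
        rw [hkw]; field_simp
      rw [this, he]
      field_simp
  have hΨc : ContinuousOn Ψ (closedBall (0:ℂ) 1) := by
    intro w hw
    by_cases hwb : w ∈ ball (0:ℂ) 1
    · have : ContinuousAt Ψ w := by
        have h1 : ContinuousAt Φ w :=
          (hΦd.differentiableAt (isOpen_ball.mem_nhds hwb)).continuousAt
        exact h1.congr (by
          filter_upwards [isOpen_ball.mem_nhds hwb] with x hx using (hΨΦ hx).symm)
      exact this.continuousWithinAt
    · have hw1 : ‖w‖ = 1 := by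
        rw [mem_closedBall_zero_iff] at hw
        rw [mem_ball_zero_iff] at hwb
        linarith
      have hw0 : w ≠ 0 := by rintro rfl; simp at hw1
      have hwi : 1 ≤ ‖w⁻¹‖ := by rw [norm_inv, hw1]; simp
      have hci : ContinuousAt (fun w : ℂ => w⁻¹) w := continuousAt_inv₀ hw0
      have h1 : ContinuousAt (fun w : ℂ => w⁻¹ * deriv G w⁻¹ * (G w⁻¹ - z₀)⁻¹) w := by
        refine (hci.mul (ContinuousAt.comp (f := fun w : ℂ => w⁻¹) (g := deriv G)
          (hGd2 _ hwi).continuousAt hci)).mul ?_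
        refine ContinuousAt.inv₀ ?_ (hne _ hwi)
        exact (ContinuousAt.comp (f := fun w : ℂ => w⁻¹) (g := G)
          (hGdiff _ hwi).continuousAt hci).sub continuousAt_const
      have h2 : ContinuousAt Ψ w := h1.congr (by
          filter_upwards [isOpen_ne.mem_nhds hw0] with x hx using (hΨne x hx).symm)
      exact h2.continuousWithinAt
  have hmean : Real.circleAverage Ψ 0 1 = Ψ 0 := by
    refine circleAverage_of_differentiable_on_off_countable (s := ∅) countable_empty ?_ ?_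
    · simpa using hΨc
    · intro z hz
      have hz' : z ∈ ball (0:ℂ) 1 := by simpa using hz.1
      have h1 : DifferentiableAt ℂ Φ z := hΦd.differentiableAt (isOpen_ball.mem_nhds hz')
      exact h1.congr_of_eventuallyEq (by
        filter_upwards [isOpen_ball.mem_nhds hz'] with x hx using hΨΦ hx)
  have hΨ0 : Ψ 0 = 1 := by simp [hΨ]
  have hfin : cav (fun t => t * deriv G t * (G t - z₀)⁻¹) = Real.circleAverage Ψ 0 1 := by
    unfold cav
    rw [← Real.circleAverage_zero_one_congr_inv]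
    apply Real.circleAverage_congr_sphere
    intro w hw
    have hw1 : ‖w‖ = 1 := by simpa using hw
    have hw0 : w ≠ 0 := by rintro rfl; simp at hw1
    exact (hΨne w hw0).symm
  rw [hfin, hmean, hΨ0]

end Exterior

end Crest.Agent.R132.GS
end

-- ▼ part R132/GBdry
section

/-!
Boundary behaviour of `f ∘ G` on the unit circle.
-/

set_option autoImplicit false

open Filter Topology Set Metric
open scoped ComplexConjugate

namespace Crest.Agent.R132.GS

variable {Ω U : Set ℂ} {f G : ℂ → ℂ} {r : ℝ}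

theorem norm_le_one_of_mem_closure (hU : IsOpen U) (hΩU : closure Ω ⊆ U)
    (hf₁ : DifferentiableOn ℂ f U) (hf₃ : f '' Ω = ball 0 1) {z : ℂ} (hz : z ∈ closure Ω) :
    ‖f z‖ ≤ 1 := by
  have hc : ContinuousOn f (closure Ω) := hf₁.continuousOn.mono hΩU
  have h1 : f '' closure Ω ⊆ closure (f '' Ω) := hc.image_closure
  have h2 : f z ∈ closure (f '' Ω) := h1 ⟨z, hz, rfl⟩
  rw [hf₃, closure_ball _ one_ne_zero] at h2
  simpa using h2

theorem closedBall_subset_image (hΩ₂ : Bornology.IsBounded Ω) (hΩU : closure Ω ⊆ U)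
    (hf₁ : DifferentiableOn ℂ f U) (hf₃ : f '' Ω = ball 0 1) :
    closedBall (0:ℂ) 1 ⊆ f '' closure Ω := by
  have hc : ContinuousOn f (closure Ω) := hf₁.continuousOn.mono hΩU
  have hcomp : IsCompact (f '' closure Ω) :=
    (Metric.isCompact_of_isClosed_isBounded isClosed_closure hΩ₂.closure).image_of_continuousOn hc
  rw [← closure_ball _ one_ne_zero, ← hf₃]
  exact closure_minimal (image_mono subset_closure) hcomp.isClosed

theorem norm_eq_one_of_bdry (hU : IsOpen U) (hΩU : closure Ω ⊆ U)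
    (hf₁ : DifferentiableOn ℂ f U) (hf₂ : InjOn f U) (hf₃ : f '' Ω = ball 0 1) {z : ℂ}
    (hz : z ∈ closure Ω) (hz' : z ∉ Ω) : ‖f z‖ = 1 := by
  have h1 := norm_le_one_of_mem_closure hU hΩU hf₁ hf₃ hz
  by_contra h
  have h2 : ‖f z‖ < 1 := lt_of_le_of_ne h1 h
  have h3 : f z ∈ f '' Ω := by rw [hf₃]; simpa using h2
  obtain ⟨w, hw, hwz⟩ := h3
  have := hf₂ (hΩU (subset_closure hw)) (hΩU hz) hwz
  exact hz' (this ▸ hw)

theorem one_lt_norm_of_notMem (hΩ₂ : Bornology.IsBounded Ω) (hΩU : closure Ω ⊆ U)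
    (hf₁ : DifferentiableOn ℂ f U) (hf₂ : InjOn f U) (hf₃ : f '' Ω = ball 0 1) {z : ℂ}
    (hz : z ∈ U) (hz' : z ∉ closure Ω) : 1 < ‖f z‖ := by
  by_contra h
  push Not at h
  have h1 : f z ∈ closedBall (0:ℂ) 1 := by simpa using h
  obtain ⟨w, hw, hwz⟩ := closedBall_subset_image hΩ₂ hΩU hf₁ hf₃ h1
  have := hf₂ (hΩU hw) hz hwz
  exact hz' (this ▸ hw)

theorem norm_comp_eq_one (hΩ₁ : IsOpen Ω) (hU : IsOpen U) (hΩU : closure Ω ⊆ U)
    (hf₁ : DifferentiableOn ℂ f U) (hf₂ : InjOn f U) (hf₃ : f '' Ω = ball 0 1)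
    (hr₂ : r < 1)
    (hG₁ : DifferentiableOn ℂ G {t : ℂ | r < ‖t‖}) (hG₂ : Set.InjOn G {t : ℂ | r < ‖t‖})
    (hG₃ : G '' {t : ℂ | 1 < ‖t‖} = (closure Ω)ᶜ) {t : ℂ} (ht : ‖t‖ = 1) : ‖f (G t)‖ = 1 :=
  norm_eq_one_of_bdry hU hΩU hf₁ hf₂ hf₃ (map_circle_mem_closure hr₂ hG₂ hG₃ ht)
    (map_circle_notMem hΩ₁ hr₂ hG₁ hG₃ ht)

/-- the logarithmic derivative of `f ∘ G` is nonnegative real on the unit circle -/
theorem rho_real (hΩ₁ : IsOpen Ω) (hΩ₂ : Bornology.IsBounded Ω) (hU : IsOpen U)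
    (hΩU : closure Ω ⊆ U)
    (hf₁ : DifferentiableOn ℂ f U) (hf₂ : InjOn f U) (hf₃ : f '' Ω = ball 0 1)
    (hr₂ : r < 1)
    (hG₁ : DifferentiableOn ℂ G {t : ℂ | r < ‖t‖}) (hG₂ : Set.InjOn G {t : ℂ | r < ‖t‖})
    (hG₃ : G '' {t : ℂ | 1 < ‖t‖} = (closure Ω)ᶜ) {t : ℂ} (ht : ‖t‖ = 1) :
    (conj (f (G t)) * (t * deriv G t * deriv f (G t))).im = 0 ∧
      0 ≤ (conj (f (G t)) * (t * deriv G t * deriv f (G t))).re := by
  have hopen : IsOpen {t : ℂ | r < ‖t‖} := isOpen_lt continuous_const continuous_norm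
  have hGd : ∀ s : ℂ, ‖s‖ = 1 → HasDerivAt G (deriv G s) s := by
    intro s hs
    have : s ∈ {t : ℂ | r < ‖t‖} := by simp only [mem_ofPred_eq, hs]; exact hr₂
    exact ((hG₁ s this).differentiableAt (hopen.mem_nhds this)).hasDerivAt
  have hfd : ∀ z ∈ U, HasDerivAt f (deriv f z) z := fun z hz =>
    (hf₁.differentiableAt (hU.mem_nhds hz)).hasDerivAt
  have hmem : ∀ s : ℂ, ‖s‖ = 1 → G s ∈ closure Ω := fun s hs =>
    map_circle_mem_closure hr₂ hG₂ hG₃ hs
  have hcomp : ∀ s : ℂ, ‖s‖ = 1 → HasDerivAt (fun s => f (G s)) (deriv f (G s) * deriv G s) s :=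
    fun s hs => HasDerivAt.comp s (hfd _ (hΩU (hmem s hs))) (hGd s hs)
  have hone : ∀ s : ℂ, ‖s‖ = 1 → ‖f (G s)‖ = 1 := fun s hs =>
    norm_comp_eq_one hΩ₁ hU hΩU hf₁ hf₂ hf₃ hr₂ hG₁ hG₂ hG₃ hs
  constructor
  · -- tangential derivative
    have h1 : HasDerivAt (fun x : ℝ => Complex.exp (x * Complex.I) * t)
        (Complex.exp ((0:ℝ) * Complex.I) * Complex.I * t) 0 := by
      have h2 : HasDerivAt (fun x : ℝ => (x : ℂ) * Complex.I) (1 * Complex.I) (0:ℝ) :=
        (Complex.ofRealCLM.hasDerivAt (x := (0:ℝ))).mul_const Complex.I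
      have h3 := (h2.cexp).mul_const t
      simpa using h3
    have h1' : HasDerivAt (fun x : ℝ => Complex.exp (x * Complex.I) * t)
        (Complex.I * t) 0 := by simpa using h1
    have h4 : HasDerivAt (fun x : ℝ => f (G (Complex.exp (x * Complex.I) * t)))
        ((Complex.I * t) * (deriv f (G t) * deriv G t)) 0 := by
      have h5 : HasDerivAt (fun s => f (G s)) (deriv f (G t) * deriv G t)
          (Complex.exp ((0:ℝ) * Complex.I) * t) := by
        have := hcomp t ht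
        simpa using this
      have := HasDerivAt.scomp (0:ℝ) h5 h1'
      simpa [Function.comp_def] using this
    have h6 := h4.norm_sq
    have h7 : HasDerivAt (fun x : ℝ => ‖f (G (Complex.exp (x * Complex.I) * t))‖ ^ 2) 0 0 := by
      have : (fun x : ℝ => ‖f (G (Complex.exp (x * Complex.I) * t))‖ ^ 2) = fun _ => (1:ℝ) := by
        funext x
        have hx : ‖Complex.exp (x * Complex.I) * t‖ = 1 := by
          rw [norm_mul, Complex.norm_exp_ofReal_mul_I, ht, one_mul]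
        rw [hone _ hx]; norm_num
      rw [this]
      exact hasDerivAt_const _ _
    have h8 := h6.unique h7
    simp only [Complex.ofReal_zero, zero_mul, Complex.exp_zero, one_mul] at h8
    have h9 : inner ℝ (f (G t)) (Complex.I * t * (deriv f (G t) * deriv G t)) = 0 := by linarith
    rw [Complex.inner] at h9
    have h10 : (starRingEnd ℂ) (f (G t)) * (Complex.I * t * (deriv f (G t) * deriv G t)) =
      Complex.I * (conj (f (G t)) * (t * deriv G t * deriv f (G t))) := by ring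
    have h11 : Complex.I * t * (deriv f (G t) * deriv G t) * (starRingEnd ℂ) (f (G t)) =
      Complex.I * (conj (f (G t)) * (t * deriv G t * deriv f (G t))) := by ring
    have h12 : ∀ c : ℂ, (Complex.I * c).re = -c.im := by intro c; simp
    first
      | rw [h10, h12] at h9
        linarith
      | rw [h11, h12] at h9
        linarith
  · -- radial derivative
    have h1 : HasDerivAt (fun x : ℝ => (x : ℂ) * t) (1 * t) (1:ℝ) :=
      (Complex.ofRealCLM.hasDerivAt (x := (1:ℝ))).mul_const t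
    have h4 : HasDerivAt (fun x : ℝ => f (G ((x : ℂ) * t)))
        ((1 * t) * (deriv f (G t) * deriv G t)) 1 := by
      have h5 : HasDerivAt (fun s => f (G s)) (deriv f (G t) * deriv G t)
          (((1:ℝ) : ℂ) * t) := by
        have := hcomp t ht
        simpa using this
      have := HasDerivAt.scomp (1:ℝ) h5 h1
      simpa [Function.comp_def] using this
    have h6 := h4.norm_sq
    have h7 := hasDerivAt_iff_tendsto_slope.mp h6
    have h8 : Tendsto (slope (fun x : ℝ => ‖f (G ((x : ℂ) * t))‖ ^ 2) 1) (𝓝[>] 1)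
        (𝓝 (2 * inner ℝ (f (G (((1:ℝ) : ℂ) * t))) (1 * t * (deriv f (G t) * deriv G t)))) :=
      h7.mono_left (nhdsWithin_mono _ (fun x hx => ne_of_gt hx))
    have hev : ∀ᶠ x in 𝓝[>] (1:ℝ), 0 ≤ slope (fun x : ℝ => ‖f (G ((x : ℂ) * t))‖ ^ 2) 1 x := by
      have hc : ContinuousAt (fun x : ℝ => G ((x : ℂ) * t)) 1 := by
        have h5 : HasDerivAt G (deriv G t) (((1:ℝ) : ℂ) * t) := by simpa using hGd t ht
        exact (HasDerivAt.scomp (1:ℝ) h5 h1).continuousAt
      have hU' : ∀ᶠ x : ℝ in 𝓝 (1:ℝ), G ((x : ℂ) * t) ∈ U := by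
        apply hc.eventually_mem
        apply hU.mem_nhds
        simpa using hΩU (hmem t ht)
      filter_upwards [self_mem_nhdsWithin, mem_nhdsWithin_of_mem_nhds hU'] with x hx hxU
      have hx1 : 1 < ‖(x : ℂ) * t‖ := by
        rw [norm_mul, ht, mul_one, Complex.norm_real, Real.norm_eq_abs]
        exact lt_of_lt_of_le hx (le_abs_self x)
      have h9 := one_lt_norm_of_notMem hΩ₂ hΩU hf₁ hf₂ hf₃ hxU (map_ext_notMem hG₃ hx1)
      rw [slope_def_field]
      have h10 : ‖f (G (((1:ℝ) : ℂ) * t))‖ = 1 := by simpa using hone t ht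
      rw [h10]
      apply div_nonneg
      · nlinarith
      · exact sub_nonneg.mpr (le_of_lt hx)
    have h9 := ge_of_tendsto h8 hev
    have h10 : 0 ≤ inner ℝ (f (G t)) (1 * t * (deriv f (G t) * deriv G t)) := by
      have : f (G (((1:ℝ) : ℂ) * t)) = f (G t) := by simp
      rw [this] at h9
      linarith
    rw [Complex.inner] at h10
    have h11 : (starRingEnd ℂ) (f (G t)) * (1 * t * (deriv f (G t) * deriv G t)) =
      (conj (f (G t)) * (t * deriv G t * deriv f (G t))) := by ring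
    have h12 : 1 * t * (deriv f (G t) * deriv G t) * (starRingEnd ℂ) (f (G t)) =
      (conj (f (G t)) * (t * deriv G t * deriv f (G t))) := by ring
    first
      | rw [h11] at h10
        exact h10
      | rw [h12] at h10
        exact h10

/-- `avg t G'(t) f'(G t)/ f (G t) = 1`. -/
theorem cav_rho (hΩ₁ : IsOpen Ω) (hΩ₂ : Bornology.IsBounded Ω) (hΩ₃ : Convex ℝ Ω) (hU : IsOpen U)
    (hΩU : closure Ω ⊆ U)
    (hf₁ : DifferentiableOn ℂ f U) (hf₂ : InjOn f U) (hf₃ : f '' Ω = ball 0 1)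
    (hr₁ : 0 < r) (hr₂ : r < 1)
    (hG₁ : DifferentiableOn ℂ G {t : ℂ | r < ‖t‖}) (hG₂ : Set.InjOn G {t : ℂ | r < ‖t‖})
    (hG₃ : G '' {t : ℂ | 1 < ‖t‖} = (closure Ω)ᶜ) :
    cav (fun t => t * deriv G t * deriv f (G t) * (f (G t))⁻¹) = 1 := by
  obtain ⟨z₀, hz₀, hfz₀⟩ : ∃ z₀ ∈ Ω, f z₀ = 0 := by
    have : (0:ℂ) ∈ f '' Ω := by rw [hf₃]; exact mem_ball_self one_pos
    exact this
  have hz₀U : z₀ ∈ U := hΩU (subset_closure hz₀)
  set k : ℂ → ℂ := dslope f z₀ with hk
  have hkd : DifferentiableOn ℂ k U :=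
    (Complex.differentiableOn_dslope (hU.mem_nhds hz₀U)).mpr hf₁
  have hkne : ∀ z ∈ U, k z ≠ 0 := by
    intro z hz
    by_cases hzz : z = z₀
    · rw [hzz, hk, dslope_same]; exact deriv_ne_zero_of_injOn hU hf₁ hf₂ hz₀U
    · rw [hk, dslope_of_ne _ hzz, slope_def_field]
      apply div_ne_zero
      · intro h
        exact hzz (hf₂ hz hz₀U (sub_eq_zero.mp h))
      · exact sub_ne_zero.mpr hzz
  have hfk : ∀ z : ℂ, f z = (z - z₀) * k z := by
    intro z
    by_cases hzz : z = z₀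
    · rw [hzz, sub_self, zero_mul, hfz₀]
    · rw [hk, dslope_of_ne _ hzz, slope_def_field, hfz₀, sub_zero]
      field_simp [sub_ne_zero.mpr hzz]
  have hG0 : ∀ t : ℂ, ‖t‖ = 1 → G t - z₀ ≠ 0 := by
    intro t ht h
    exact map_circle_notMem hΩ₁ hr₂ hG₁ hG₃ ht ((sub_eq_zero.mp h) ▸ hz₀)
  have hrew : ∀ t : ℂ, ‖t‖ = 1 → t * deriv G t * deriv f (G t) * (f (G t))⁻¹ =
      t * deriv G t * (G t - z₀)⁻¹ + t * deriv G t * (deriv k (G t) / k (G t)) := by
    intro t ht
    have hGt : G t ∈ U := hΩU (map_circle_mem_closure hr₂ hG₂ hG₃ ht)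
    have hd : HasDerivAt f (1 * k (G t) + (G t - z₀) * deriv k (G t)) (G t) := by
      have h1 : HasDerivAt k (deriv k (G t)) (G t) :=
        (hkd.differentiableAt (hU.mem_nhds hGt)).hasDerivAt
      refine (((hasDerivAt_id (G t)).sub_const z₀).mul h1).congr_of_eventuallyEq ?_
      exact Eventually.of_forall fun x => by simpa using hfk x
    rw [hd.deriv, hfk (G t)]
    have h2 := hkne _ hGt
    have h3 := hG0 t ht
    field_simp
  have hopen : IsOpen {t : ℂ | r < ‖t‖} := isOpen_lt continuous_const continuous_norm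
  have hcG : ContinuousOn G (sphere (0:ℂ) 1) := hG₁.continuousOn.mono (by
    intro t ht
    have : ‖t‖ = 1 := by simpa using ht
    simp only [mem_ofPred_eq, this]; exact hr₂)
  have hcG' : ContinuousOn (deriv G) (sphere (0:ℂ) 1) := (hG₁.deriv hopen).continuousOn.mono (by
    intro t ht
    have : ‖t‖ = 1 := by simpa using ht
    simp only [mem_ofPred_eq, this]; exact hr₂)
  have hmaps : MapsTo G (sphere (0:ℂ) 1) U := by
    intro t ht
    exact hΩU (map_circle_mem_closure hr₂ hG₂ hG₃ (by simpa using ht))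
  have hck : ContinuousOn (fun z => deriv k z / k z) U :=
    ((hkd.deriv hU).continuousOn).div hkd.continuousOn hkne
  have hi1 : CircleIntegrable (fun t => t * deriv G t * (G t - z₀)⁻¹) 0 1 := by
    apply ContinuousOn.circleIntegrable zero_le_one
    refine (continuousOn_id.mul hcG').mul ?_
    exact (hcG.sub continuousOn_const).inv₀ (fun t ht => hG0 t (by simpa using ht))
  have hi2 : CircleIntegrable (fun t => t * deriv G t * (deriv k (G t) / k (G t))) 0 1 := by
    apply ContinuousOn.circleIntegrable zero_le_one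
    exact (continuousOn_id.mul hcG').mul (hck.comp hcG hmaps)
  have h1 : cav (fun t => t * deriv G t * deriv f (G t) * (f (G t))⁻¹) =
      cav (fun t => t * deriv G t * (G t - z₀)⁻¹ + t * deriv G t * (deriv k (G t) / k (G t))) := by
    apply Real.circleAverage_congr_sphere
    intro t ht
    exact hrew t (by simpa using ht)
  rw [h1]
  unfold cav
  rw [Real.circleAverage_fun_add hi1 hi2]
  have h2 := cav_ext hΩ₁ hΩ₂ hr₁ hr₂ hG₁ hG₂ hG₃ hz₀
  have h3 := cav_closed (K := closure Ω) hΩ₃.closure hr₂ hG₁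
    (fun t ht => map_circle_mem_closure hr₂ hG₂ hG₃ ht)
    (g := fun z => deriv k z / k z)
    (((hkd.deriv hU).div hkd hkne).mono hΩU)
  unfold cav at h2 h3
  rw [h2, h3, add_zero]

end Crest.Agent.R132.GS
end

-- ▼ part R132/GInterp
section

/-!
Interpolation of holomorphic functions by polynomials in an injective holomorphic function, and
polynomial facts for matrices.
-/

set_option autoImplicit false

open Filter Topology Set Metric Polynomial
open Crest.AnalysisR.NumRange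

namespace Crest.Agent.R132.GS

/-- dividing by `f - f μ` -/
theorem exists_div {W : Set ℂ} (hW : IsOpen W) {f : ℂ → ℂ} (hf : DifferentiableOn ℂ f W)
    (hinj : InjOn f W) {μ : ℂ} (hμ : μ ∈ W) {v : ℂ → ℂ} (hv : DifferentiableOn ℂ v W) :
    ∃ w : ℂ → ℂ, DifferentiableOn ℂ w W ∧ ∀ z ∈ W, v z = v μ + (f z - f μ) * w z := by
  have hk0 : ∀ z ∈ W, dslope f μ z ≠ 0 := by
    intro z hz
    by_cases hzz : z = μ
    · rw [hzz, dslope_same]; exact deriv_ne_zero_of_injOn hW hf hinj hμ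
    · rw [dslope_of_ne _ hzz, slope_def_field]
      apply div_ne_zero
      · intro h
        exact hzz (hinj hz hμ (sub_eq_zero.mp h))
      · exact sub_ne_zero.mpr hzz
  refine ⟨fun z => dslope v μ z / dslope f μ z, ?_, ?_⟩
  · exact ((Complex.differentiableOn_dslope (hW.mem_nhds hμ)).mpr hv).div
      ((Complex.differentiableOn_dslope (hW.mem_nhds hμ)).mpr hf) hk0
  · intro z hz
    have h0 := hk0 z hz
    have h1 : f z - f μ = (z - μ) * dslope f μ z := by
      have := sub_smul_dslope f μ z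
      rw [smul_eq_mul] at this
      exact this.symm
    have h2 : v z - v μ = (z - μ) * dslope v μ z := by
      have := sub_smul_dslope v μ z
      rw [smul_eq_mul] at this
      exact this.symm
    rw [h1]
    have h3 : (z - μ) * dslope f μ z * (dslope v μ z / dslope f μ z) = (z - μ) * dslope v μ z := by
      field_simp
    simp only
    rw [h3, ← h2]; ring

/-- Newton interpolation in the coordinate `f`. -/
theorem exists_interp {W : Set ℂ} (hW : IsOpen W) {f : ℂ → ℂ} (hf : DifferentiableOn ℂ f W)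
    (hinj : InjOn f W) (l : List ℂ) (hl : ∀ μ ∈ l, μ ∈ W) :
    ∀ v : ℂ → ℂ, DifferentiableOn ℂ v W →
    ∃ (P : ℂ[X]) (w : ℂ → ℂ), DifferentiableOn ℂ w W ∧
      ∀ z ∈ W, v z = P.eval (f z) + (l.map (fun μ => f z - f μ)).prod * w z := by
  induction l with
  | nil =>
    intro v hv
    exact ⟨0, v, hv, fun z _ => by simp⟩
  | cons μ l ih =>
    intro v hv
    obtain ⟨w₁, hw₁, h₁⟩ := exists_div hW hf hinj (hl μ (by simp)) hv
    obtain ⟨P, w, hw, h⟩ := ih (fun ν hν => hl ν (by simp [hν])) w₁ hw₁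
    refine ⟨C (v μ) + (X - C (f μ)) * P, w, hw, fun z hz => ?_⟩
    rw [h₁ z hz, h z hz]
    simp only [eval_add, eval_C, eval_mul, eval_sub, eval_X, List.map_cons, List.prod_cons]
    ring

/-- the finite set of eigenvalues -/
noncomputable def eigs {n : ℕ} (A : Matrix (Fin n) (Fin n) ℂ) : Finset ℂ := A.charpoly.roots.toFinset

theorem mem_eigs {n : ℕ} {A : Matrix (Fin n) (Fin n) ℂ} {μ : ℂ} :
    μ ∈ eigs A ↔ μ ∈ spectrum ℂ A := by
  rw [eigs, Multiset.mem_toFinset, Matrix.mem_spectrum_iff_isRoot_charpoly,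
    Polynomial.mem_roots (Matrix.charpoly_monic A).ne_zero]

/-- a high power of the product of linear factors kills the matrix -/
theorem aeval_eq_zero_of_dvd {n : ℕ} {A : Matrix (Fin n) (Fin n) ℂ} {Q : ℂ[X]}
    (hQ : (∏ μ ∈ eigs A, (X - C μ)) ^ n ∣ Q) : aeval A Q = 0 := by
  have hsplit : A.charpoly = (A.charpoly.roots.map (fun a => X - C a)).prod := by
    have h := (IsAlgClosed.splits A.charpoly).eq_prod_roots_of_monic (Matrix.charpoly_monic A)
    exact h
  have hdvd : A.charpoly ∣ (∏ μ ∈ eigs A, (X - C μ)) ^ n := by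
    have h1 : (∏ μ ∈ eigs A, (X - C μ)) ^ n = ((n • (eigs A).val).map (fun a => X - C a)).prod := by
      rw [Multiset.map_nsmul, Multiset.prod_nsmul]
      rfl
    rw [h1]
    conv_lhs => rw [hsplit]
    apply Multiset.prod_dvd_prod_of_le
    apply Multiset.map_le_map
    rw [Multiset.le_iff_count]
    intro a
    rw [Multiset.count_nsmul]
    by_cases ha : a ∈ A.charpoly.roots
    · have h2 : Multiset.count a (eigs A).val = 1 := by
        apply Multiset.count_eq_one_of_mem (eigs A).nodup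
        exact Multiset.mem_toFinset.mpr ha
      rw [h2, mul_one]
      calc Multiset.count a A.charpoly.roots ≤ Multiset.card A.charpoly.roots :=
            Multiset.count_le_card _ _
        _ ≤ A.charpoly.natDegree := Polynomial.card_roots' _
        _ = n := by rw [Matrix.charpoly_natDegree_eq_dim, Fintype.card_fin]
    · rw [Multiset.count_eq_zero_of_notMem ha]
      exact Nat.zero_le _
  obtain ⟨R, rfl⟩ := hdvd.trans hQ
  rw [map_mul, Matrix.aeval_self_charpoly, zero_mul]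

/-- vanishing to order `n` -/
def Van (n : ℕ) (F : ℂ → ℂ) (μ : ℂ) : Prop :=
  ∃ h : ℂ → ℂ, AnalyticAt ℂ h μ ∧ ∀ᶠ z in 𝓝 μ, F z = (z - μ) ^ n * h z

theorem Van.add {n : ℕ} {F₁ F₂ : ℂ → ℂ} {μ : ℂ} (h₁ : Van n F₁ μ) (h₂ : Van n F₂ μ) :
    Van n (fun z => F₁ z + F₂ z) μ := by
  obtain ⟨g₁, hg₁, e₁⟩ := h₁
  obtain ⟨g₂, hg₂, e₂⟩ := h₂
  refine ⟨fun z => g₁ z + g₂ z, hg₁.add hg₂, ?_⟩
  filter_upwards [e₁, e₂] with z h1 h2
  rw [h1, h2]; ring

theorem Van.mul_right {n : ℕ} {F₁ F₂ : ℂ → ℂ} {μ : ℂ} (h₁ : Van n F₁ μ)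
    (h₂ : AnalyticAt ℂ F₂ μ) : Van n (fun z => F₁ z * F₂ z) μ := by
  obtain ⟨g₁, hg₁, e₁⟩ := h₁
  refine ⟨fun z => g₁ z * F₂ z, hg₁.mul h₂, ?_⟩
  filter_upwards [e₁] with z h1
  rw [h1]; ring

theorem Van.congr {n : ℕ} {F₁ F₂ : ℂ → ℂ} {μ : ℂ} (h₁ : Van n F₁ μ)
    (h : ∀ᶠ z in 𝓝 μ, F₂ z = F₁ z) : Van n F₂ μ := by
  obtain ⟨g₁, hg₁, e₁⟩ := h₁
  refine ⟨g₁, hg₁, ?_⟩
  filter_upwards [e₁, h] with z h1 h2
  rw [h2, h1]

theorem van_of_iteratedDeriv {n : ℕ} {F₁ F₂ : ℂ → ℂ} {μ : ℂ} (h₁ : AnalyticAt ℂ F₁ μ)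
    (h₂ : AnalyticAt ℂ F₂ μ) (h : ∀ j < n, iteratedDeriv j F₁ μ = iteratedDeriv j F₂ μ) :
    Van n (fun z => F₁ z - F₂ z) μ := by
  have h3 : AnalyticAt ℂ (fun z => F₁ z - F₂ z) μ := h₁.sub h₂
  have h4 : (n : ℕ∞) ≤ analyticOrderAt (fun z => F₁ z - F₂ z) μ := by
    rw [natCast_le_analyticOrderAt_iff_iteratedDeriv_eq_zero h3]
    intro i hi
    rw [iteratedDeriv_fun_sub (h₁.contDiffAt) (h₂.contDiffAt), h i hi, sub_self]
  obtain ⟨g, hg, e⟩ := (natCast_le_analyticOrderAt h3).mp h4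
  exact ⟨g, hg, by simpa [smul_eq_mul] using e⟩

theorem pow_dvd_of_van {n : ℕ} {Q : ℂ[X]} {μ : ℂ} (h : Van n (fun z => Q.eval z) μ) :
    (X - C μ) ^ n ∣ Q := by
  by_cases hQ : Q = 0
  · rw [hQ]; exact dvd_zero _
  obtain ⟨R, hR, hnd⟩ := Q.exists_eq_pow_rootMultiplicity_mul_and_not_dvd hQ μ
  set m := Q.rootMultiplicity μ with hm
  by_cases hmn : n ≤ m
  · rw [hR]
    exact (pow_dvd_pow _ hmn).trans (dvd_mul_right _ _)
  · exfalso
    push Not at hmn
    obtain ⟨g, hg, e⟩ := h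
    have hR0 : R.eval μ ≠ 0 := by
      intro h0
      exact hnd (dvd_iff_isRoot.mpr h0)
    have h1 : ∀ᶠ z in 𝓝[≠] μ, R.eval z = (z - μ) ^ (n - m) * g z := by
      filter_upwards [mem_nhdsWithin_of_mem_nhds e, self_mem_nhdsWithin] with z hz hz'
      have hz0 : z - μ ≠ 0 := sub_ne_zero.mpr hz'
      have h2 : (z - μ) ^ m * R.eval z = (z - μ) ^ m * ((z - μ) ^ (n - m) * g z) := by
        have h3 : Q.eval z = (z - μ) ^ n * g z := hz
        have h4 : Q.eval z = (z - μ) ^ m * R.eval z := by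
          conv_lhs => rw [hR]
          simp
        rw [← h4, h3, ← mul_assoc, ← pow_add]
        congr 2
        omega
      exact mul_left_cancel₀ (pow_ne_zero _ hz0) h2
    have h5 : Tendsto (fun z => R.eval z) (𝓝[≠] μ) (𝓝 (R.eval μ)) :=
      (R.continuous.tendsto μ).mono_left nhdsWithin_le_nhds
    have h6 : Tendsto (fun z => (z - μ) ^ (n - m) * g z) (𝓝[≠] μ) (𝓝 ((μ - μ) ^ (n - m) * g μ)) := by
      have : ContinuousAt (fun z => (z - μ) ^ (n - m) * g z) μ :=
        ((continuousAt_id.sub continuousAt_const).pow _).mul hg.continuousAt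
      exact this.tendsto.mono_left nhdsWithin_le_nhds
    have h7 := tendsto_nhds_unique (h5.congr' h1) h6
    rw [sub_self, zero_pow (by omega), zero_mul] at h7
    exact hR0 h7

theorem prod_pow_dvd_of_van {n : ℕ} {Q : ℂ[X]} {s : Finset ℂ}
    (h : ∀ μ ∈ s, Van n (fun z => Q.eval z) μ) :
    (∏ μ ∈ s, (X - C μ)) ^ n ∣ Q := by
  rw [← Finset.prod_pow]
  apply Finset.prod_dvd_of_coprime
  · intro a _ b _ hab
    apply IsCoprime.pow
    exact isCoprime_X_sub_C_of_isUnit_sub (sub_ne_zero.mpr hab).isUnit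
  · intro μ hμ
    exact pow_dvd_of_van (h μ hμ)

/-- The key interpolation statement: if `v = P ∘ f + (∏ (f - f μ))^n w` then any polynomial
agreeing with `v` agrees with `P ∘ p`. -/
theorem dvd_sub_comp {n : ℕ} {A : Matrix (Fin n) (Fin n) ℂ} {W : Set ℂ} (hW : IsOpen W)
    (hspec : ∀ μ ∈ eigs A, μ ∈ W) {f v w : ℂ → ℂ} (hf : DifferentiableOn ℂ f W)
    (hv : DifferentiableOn ℂ v W) (hw : DifferentiableOn ℂ w W) {P p q : ℂ[X]}
    (hvw : ∀ z ∈ W, v z = P.eval (f z) + (∏ μ ∈ eigs A, (f z - f μ)) ^ n * w z)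
    (hp : AgreesOnSpectrum A f p) (hq : AgreesOnSpectrum A v q) :
    (∏ μ ∈ eigs A, (X - C μ)) ^ n ∣ q - P.comp p := by
  apply prod_pow_dvd_of_van
  intro μ hμ
  have hμW := hspec μ hμ
  have hμs : μ ∈ spectrum ℂ A := mem_eigs.mp hμ
  have hWn : W ∈ 𝓝 μ := hW.mem_nhds hμW
  have hpa : ∀ Q : ℂ[X], AnalyticAt ℂ (fun z => Q.eval z) μ := fun Q =>
    (Q.differentiable.analyticAt μ)
  have h1 : Van n (fun z => q.eval z - v z) μ :=
    van_of_iteratedDeriv (hpa q) (hv.analyticAt hWn) (fun j hj => hq μ hμs j hj)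
  have h2 : Van n (fun z => p.eval z - f z) μ :=
    van_of_iteratedDeriv (hpa p) (hf.analyticAt hWn) (fun j hj => hp μ hμs j hj)
  -- P ∘ f - P ∘ p
  have h3 : Van n (fun z => P.eval (f z) - P.eval (p.eval z)) μ := by
    -- P(a) - P(b) = (b - a) * S(a,b)
    have h4 : ∀ a b : ℂ, P.eval a - P.eval b =
        (b - a) * (-(∑ i ∈ Finset.range (P.natDegree + 1), P.coeff i *
          ∑ j ∈ Finset.range i, a ^ j * b ^ (i - 1 - j))) := by
      intro a b
      rw [Polynomial.eval_eq_sum_range, Polynomial.eval_eq_sum_range, ← Finset.sum_sub_distrib]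
      rw [mul_neg, ← neg_mul, neg_sub, Finset.mul_sum]
      apply Finset.sum_congr rfl
      intro i _
      have := Commute.geom_sum₂_mul (Commute.all a b) i
      rw [← mul_sub, ← this]; ring
    refine Van.congr (h2.mul_right (F₂ := fun z => (-(∑ i ∈ Finset.range (P.natDegree + 1),
      P.coeff i * ∑ j ∈ Finset.range i, (f z) ^ j * (p.eval z) ^ (i - 1 - j)))) ?_)
      (Eventually.of_forall fun z => h4 (f z) (p.eval z))
    have hfa := hf.analyticAt hWn
    apply AnalyticAt.neg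
    apply Finset.analyticAt_fun_sum
    intro i _
    apply analyticAt_const.mul
    apply Finset.analyticAt_fun_sum
    intro j _
    exact (hfa.pow _).mul ((hpa p).pow _)
  -- the remainder
  have h5 : Van n (fun z => (∏ ν ∈ eigs A, (f z - f ν)) ^ n * w z) μ := by
    have h6 : Van n (fun z => (f z - f μ) ^ n) μ := by
      refine ⟨fun z => (dslope f μ z) ^ n, ?_, Eventually.of_forall fun z => ?_⟩
      · have : DifferentiableOn ℂ (dslope f μ) W := (Complex.differentiableOn_dslope hWn).mpr hf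
        exact (this.analyticAt hWn).pow n
      · have := sub_smul_dslope f μ z
        rw [smul_eq_mul] at this
        simp only
        rw [← this, mul_pow]
    have h7 : AnalyticAt ℂ (fun z => (∏ ν ∈ (eigs A).erase μ, (f z - f ν)) ^ n * w z) μ := by
      have hfa := hf.analyticAt hWn
      apply AnalyticAt.mul _ (hw.analyticAt hWn)
      apply AnalyticAt.pow
      apply Finset.analyticAt_fun_prod
      intro ν _
      exact hfa.sub analyticAt_const
    refine Van.congr (h6.mul_right h7) (Eventually.of_forall fun z => ?_)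
    rw [← Finset.mul_prod_erase _ _ hμ, mul_pow, mul_assoc]
  have h8 := (h1.add h5).add h3
  refine Van.congr h8 ?_
  filter_upwards [hWn] with z hz
  rw [eval_sub, eval_comp, hvw z hz]
  ring

end Crest.Agent.R132.GS
end

-- ▼ part R132/GMat
section

/-!
The Poisson-type density and its moments.
-/

set_option autoImplicit false

open Filter Topology Set Metric Polynomial
open Crest.AnalysisR.NumRange
open scoped ComplexConjugate ComplexOrder Matrix

namespace Crest.Agent.R132.GS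

/-- the geometric data -/
structure Data (Ω U : Set ℂ) (f G : ℂ → ℂ) (r : ℝ) : Prop where
  hΩ₁ : IsOpen Ω
  hΩ₂ : Bornology.IsBounded Ω
  hΩ₃ : Convex ℝ Ω
  hU : IsOpen U
  hΩU : closure Ω ⊆ U
  hf₁ : DifferentiableOn ℂ f U
  hf₂ : InjOn f U
  hf₃ : f '' Ω = ball 0 1
  hr₁ : 0 < r
  hr₂ : r < 1
  hG₁ : DifferentiableOn ℂ G {t : ℂ | r < ‖t‖}
  hG₂ : Set.InjOn G {t : ℂ | r < ‖t‖}
  hG₃ : G '' {t : ℂ | 1 < ‖t‖} = (closure Ω)ᶜ

/-- differentiability of determinants -/
theorem differentiableOn_det {n : ℕ} {s : Set ℂ} {M : ℂ → Matrix (Fin n) (Fin n) ℂ}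
    (h : ∀ a b, DifferentiableOn ℂ (fun z => M z a b) s) :
    DifferentiableOn ℂ (fun z => (M z).det) s := by
  simp only [Matrix.det_apply]
  apply DifferentiableOn.fun_sum
  intro σ _
  apply DifferentiableOn.fun_const_smul
  apply DifferentiableOn.fun_finsetProd
  intro i _
  exact h _ _

theorem differentiableOn_adjugate {n : ℕ} {s : Set ℂ} {M : ℂ → Matrix (Fin n) (Fin n) ℂ}
    (h : ∀ a b, DifferentiableOn ℂ (fun z => M z a b) s) (a b : Fin n) :
    DifferentiableOn ℂ (fun z => (M z).adjugate a b) s := by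
  simp only [Matrix.adjugate_apply]
  apply differentiableOn_det
  intro i j
  by_cases hi : i = b
  · subst hi
    simp only [Matrix.updateRow_self]
    exact differentiableOn_const _
  · simp only [Matrix.updateRow_ne hi]
    exact h i j

theorem differentiableOn_inv {n : ℕ} {s : Set ℂ} {M : ℂ → Matrix (Fin n) (Fin n) ℂ}
    (h : ∀ a b, DifferentiableOn ℂ (fun z => M z a b) s) (hdet : ∀ z ∈ s, (M z).det ≠ 0)
    (a b : Fin n) : DifferentiableOn ℂ (fun z => (M z)⁻¹ a b) s := by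
  have : EqOn (fun z => (M z)⁻¹ a b) (fun z => ((M z).det)⁻¹ * (M z).adjugate a b) s := by
    intro z hz
    simp [Matrix.inv_def]
  refine DifferentiableOn.congr ?_ this
  exact ((differentiableOn_det h).inv hdet).mul (differentiableOn_adjugate h a b)

section

variable {Ω U : Set ℂ} {f G : ℂ → ℂ} {r : ℝ} (D : Data Ω U f G r)
include D

theorem Data.mem {t : ℂ} (ht : ‖t‖ = 1) : G t ∈ closure Ω :=
  map_circle_mem_closure D.hr₂ D.hG₂ D.hG₃ ht

theorem Data.norm_one {t : ℂ} (ht : ‖t‖ = 1) : ‖f (G t)‖ = 1 :=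
  norm_comp_eq_one D.hΩ₁ D.hU D.hΩU D.hf₁ D.hf₂ D.hf₃ D.hr₂ D.hG₁ D.hG₂ D.hG₃ ht

theorem Data.norm_le {z : ℂ} (hz : z ∈ closure Ω) : ‖f z‖ ≤ 1 :=
  norm_le_one_of_mem_closure D.hU D.hΩU D.hf₁ D.hf₃ hz

theorem Data.sphere_subset : sphere (0:ℂ) 1 ⊆ {t : ℂ | r < ‖t‖} := by
  intro t ht
  have : ‖t‖ = 1 := by simpa using ht
  simp only [mem_ofPred_eq, this]
  exact D.hr₂

theorem Data.contG : ContinuousOn G (sphere (0:ℂ) 1) := D.hG₁.continuousOn.mono D.sphere_subset

theorem Data.contG' : ContinuousOn (deriv G) (sphere (0:ℂ) 1) :=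
  (D.hG₁.deriv (isOpen_lt continuous_const continuous_norm)).continuousOn.mono D.sphere_subset

theorem Data.comp_cont {u : ℂ → ℂ} (hu : ContinuousOn u (closure Ω)) :
    ContinuousOn (fun t => u (G t)) (sphere (0:ℂ) 1) :=
  hu.comp D.contG (fun t ht => D.mem (by simpa using ht))

theorem Data.df_diff : DifferentiableOn ℂ (deriv f) (closure Ω) :=
  (D.hf₁.deriv D.hU).mono D.hΩU

theorem Data.f_diff : DifferentiableOn ℂ f (closure Ω) := D.hf₁.mono D.hΩU

omit D in
/-- the density `ρ(t) = t G'(t) f'(G t) / f (G t)` -/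
noncomputable def rho (f G : ℂ → ℂ) (t : ℂ) : ℂ := t * deriv G t * deriv f (G t) * (f (G t))⁻¹

theorem Data.rho_cont : ContinuousOn (rho f G) (sphere (0:ℂ) 1) := by
  unfold rho
  refine ((continuousOn_id.mul D.contG').mul (D.comp_cont D.df_diff.continuousOn)).mul ?_
  refine (D.comp_cont D.f_diff.continuousOn).inv₀ ?_
  intro t ht h
  have h1 := D.norm_one (t := t) (by simpa using ht)
  rw [h] at h1
  simp at h1

theorem Data.f_ne {t : ℂ} (ht : ‖t‖ = 1) : f (G t) ≠ 0 := by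
  intro h
  have h1 := D.norm_one ht
  rw [h] at h1
  simp at h1

theorem Data.inv_eq_conj {t : ℂ} (ht : ‖t‖ = 1) : (f (G t))⁻¹ = conj (f (G t)) := by
  rw [Complex.inv_def, Complex.normSq_eq_norm_sq, D.norm_one ht]
  simp

theorem Data.rho_mul {t : ℂ} (ht : ‖t‖ = 1) : rho f G t * f (G t) = t * deriv G t * deriv f (G t) := by
  unfold rho
  rw [mul_assoc, inv_mul_cancel₀ (D.f_ne ht), mul_one]

theorem Data.rho_eq {t : ℂ} (ht : ‖t‖ = 1) :
    ∃ x : ℝ, 0 ≤ x ∧ rho f G t = (x : ℂ) := by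
  obtain ⟨h1, h2⟩ := rho_real D.hΩ₁ D.hΩ₂ D.hU D.hΩU D.hf₁ D.hf₂ D.hf₃ D.hr₂ D.hG₁ D.hG₂ D.hG₃ ht
  refine ⟨_, h2, ?_⟩
  unfold rho
  rw [D.inv_eq_conj ht, mul_comm]
  apply Complex.ext
  · simp
  · simp only [Complex.ofReal_im]
    exact h1

theorem Data.conj_rho {t : ℂ} (ht : ‖t‖ = 1) : conj (rho f G t) = rho f G t := by
  obtain ⟨x, _, hx⟩ := D.rho_eq ht
  rw [hx, Complex.conj_ofReal]

theorem Data.cav_rho : cav (rho f G) = 1 :=
  Crest.Agent.R132.GS.cav_rho D.hΩ₁ D.hΩ₂ D.hΩ₃ D.hU D.hΩU D.hf₁ D.hf₂ D.hf₃ D.hr₁ D.hr₂ D.hG₁ D.hG₂ D.hG₃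

/-- `avg ρ h u(G) = 0` for `u` holomorphic -/
theorem Data.cav_zero {u : ℂ → ℂ} (hu : DifferentiableOn ℂ u (closure Ω)) :
    cav (fun t => rho f G t * f (G t) * u (G t)) = 0 := by
  have h := cav_closed (K := closure Ω) D.hΩ₃.closure D.hr₂ D.hG₁
    (fun t ht => D.mem ht) (g := fun z => deriv f z * u z) (D.df_diff.mul hu)
  rw [← h]
  apply Real.circleAverage_congr_sphere
  intro t ht
  have ht' : ‖t‖ = 1 := by simpa using ht
  simp only
  rw [D.rho_mul ht']; ring

omit D in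
theorem cav_add {F₁ F₂ : ℂ → ℂ} (h₁ : ContinuousOn F₁ (sphere (0:ℂ) 1))
    (h₂ : ContinuousOn F₂ (sphere (0:ℂ) 1)) :
    cav (fun t => F₁ t + F₂ t) = cav F₁ + cav F₂ :=
  Real.circleAverage_fun_add (h₁.circleIntegrable zero_le_one) (h₂.circleIntegrable zero_le_one)

omit D in
theorem cav_congr {F₁ F₂ : ℂ → ℂ} (h : ∀ t : ℂ, ‖t‖ = 1 → F₁ t = F₂ t) : cav F₁ = cav F₂ := by
  apply Real.circleAverage_congr_sphere
  intro t ht
  exact h t (by simpa using ht)

omit D in
theorem cav_const_mul (c : ℂ) (F : ℂ → ℂ) : cav (fun t => c * F t) = c * cav F := by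
  have := Real.circleAverage_fun_smul (𝕜 := ℂ) (a := c) (f := F) (c := 0) (R := 1)
  simpa [smul_eq_mul] using this

omit D in
theorem cav_sum {ι : Type*} (s : Finset ι) {F : ι → ℂ → ℂ}
    (h : ∀ i ∈ s, ContinuousOn (F i) (sphere (0:ℂ) 1)) :
    cav (fun t => ∑ i ∈ s, F i t) = ∑ i ∈ s, cav (F i) :=
  Real.circleAverage_fun_sum (fun i hi => (h i hi).circleIntegrable zero_le_one)

omit D in
theorem cav_conj (F : ℂ → ℂ) : cav (fun t => conj (F t)) = conj (cav F) := by
  unfold cav Real.circleAverage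
  have h1 : ∫ θ in (0:ℝ)..2 * Real.pi, conj (F (circleMap 0 1 θ)) =
      conj (∫ θ in (0:ℝ)..2 * Real.pi, F (circleMap 0 1 θ)) := by
    rw [intervalIntegral.integral_of_le (by positivity), intervalIntegral.integral_of_le (by positivity),
      integral_conj]
  rw [h1]
  simp only [Complex.real_smul, map_mul, Complex.conj_ofReal]

variable {n : ℕ} {C : Matrix (Fin n) (Fin n) ℂ}

omit D in
/-- the resolvent-type function `E(z) = (1 - f(z) Cᴴ)⁻¹` -/
noncomputable def Emat (f : ℂ → ℂ) (C : Matrix (Fin n) (Fin n) ℂ) (z : ℂ) :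
    Matrix (Fin n) (Fin n) ℂ := (1 - f z • Cᴴ)⁻¹

/-- `1 - w Cᴴ` is invertible for `‖w‖ ≤ 1`. -/
def Inv (C : Matrix (Fin n) (Fin n) ℂ) : Prop := ∀ w : ℂ, ‖w‖ ≤ 1 → (1 - w • Cᴴ).det ≠ 0

theorem Data.E_diff (hC : Inv C) (a b : Fin n) :
    DifferentiableOn ℂ (fun z => Emat f C z a b) (closure Ω) := by
  unfold Emat
  apply differentiableOn_inv
  · intro i j
    simp only [Matrix.sub_apply, Matrix.smul_apply, smul_eq_mul]
    exact (differentiableOn_const _).sub (D.f_diff.mul_const _)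
  · intro z hz
    exact hC _ (D.norm_le hz)

theorem Data.E_mul (hC : Inv C) {z : ℂ} (hz : z ∈ closure Ω) :
    (1 - f z • Cᴴ) * Emat f C z = 1 :=
  Matrix.mul_nonsing_inv _ (isUnit_iff_ne_zero.mpr (hC _ (D.norm_le hz)))

theorem Data.mul_E (hC : Inv C) {z : ℂ} (hz : z ∈ closure Ω) :
    Emat f C z * (1 - f z • Cᴴ) = 1 :=
  Matrix.nonsing_inv_mul _ (isUnit_iff_ne_zero.mpr (hC _ (D.norm_le hz)))

theorem Data.E_eq (hC : Inv C) {z : ℂ} (hz : z ∈ closure Ω) :
    Emat f C z = 1 + f z • (Cᴴ * Emat f C z) := by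
  have := D.E_mul hC hz
  rw [sub_mul, one_mul, Matrix.smul_mul] at this
  rw [← this]; abel

/-- `h Eᴴ = h + C Eᴴ` on the circle -/
theorem Data.hE_eq (hC : Inv C) {t : ℂ} (ht : ‖t‖ = 1) :
    f (G t) • (Emat f C (G t))ᴴ = f (G t) • (1 : Matrix (Fin n) (Fin n) ℂ) +
      C * (Emat f C (G t))ᴴ := by
  have h1 := congrArg Matrix.conjTranspose (D.mul_E hC (D.mem ht))
  rw [Matrix.conjTranspose_mul, Matrix.conjTranspose_one, Matrix.conjTranspose_sub,
    Matrix.conjTranspose_one, Matrix.conjTranspose_smul, Matrix.conjTranspose_conjTranspose,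
    sub_mul, one_mul, Matrix.smul_mul] at h1
  have h2 : (Emat f C (G t))ᴴ = 1 + star (f (G t)) • (C * (Emat f C (G t))ᴴ) := by
    rw [← h1]; abel
  have h3 : f (G t) * star (f (G t)) = 1 := by
    rw [Complex.star_def, Complex.mul_conj, Complex.normSq_eq_norm_sq, D.norm_one ht]; simp
  conv_lhs => rw [h2]
  rw [smul_add, smul_smul, h3, one_smul]

/-- positivity of the Poisson density -/
theorem Data.psd (hC : Inv C) (hCC : (1 - Cᴴ * C).PosSemidef) {t : ℂ} (ht : ‖t‖ = 1) :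
    (Emat f C (G t) + (Emat f C (G t))ᴴ - 1).PosSemidef := by
  set E := Emat f C (G t) with hE
  set h := f (G t) with hh
  have h1 := D.mul_E hC (D.mem ht)
  have h2 := congrArg Matrix.conjTranspose h1
  rw [Matrix.conjTranspose_mul, Matrix.conjTranspose_one] at h2
  rw [← hE, ← hh] at h1 h2
  have hN : (1 - Cᴴ * C) = (1 - h • Cᴴ) + (1 - h • Cᴴ)ᴴ - (1 - h • Cᴴ) * (1 - h • Cᴴ)ᴴ := by
    have h3 : h * star h = 1 := by
      rw [Complex.star_def, Complex.mul_conj, Complex.normSq_eq_norm_sq, D.norm_one ht]; simp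
    rw [Matrix.conjTranspose_sub, Matrix.conjTranspose_one, Matrix.conjTranspose_smul,
      Matrix.conjTranspose_conjTranspose, sub_mul, mul_sub, mul_sub, one_mul, mul_one, one_mul,
      Matrix.smul_mul, Matrix.mul_smul, smul_smul, h3, one_smul]
    abel
  have h4 : E + Eᴴ - 1 = E * (1 - Cᴴ * C) * Eᴴ := by
    rw [hN, mul_sub, mul_add, sub_mul, add_mul, h1, one_mul, mul_assoc E _ Eᴴ, h2, mul_one,
      ← mul_assoc, h1, one_mul, h2]
    abel
  rw [h4]
  exact hCC.mul_mul_conjTranspose_same E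

end

end Crest.Agent.R132.GS
end

-- ▼ part R132/GFun
section

/-!
Moments of the density.
-/

set_option autoImplicit false

open Filter Topology Set Metric Polynomial
open Crest.AnalysisR.NumRange
open scoped ComplexConjugate ComplexOrder Matrix

namespace Crest.Agent.R132.GS

variable {Ω U : Set ℂ} {f G : ℂ → ℂ} {r : ℝ} (D : Data Ω U f G r)
variable {n : ℕ} {C : Matrix (Fin n) (Fin n) ℂ}

include D

theorem Data.E_cont (hC : Inv C) (a b : Fin n) :
    ContinuousOn (fun t => Emat f C (G t) a b) (sphere (0:ℂ) 1) :=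
  D.comp_cont (D.E_diff hC a b).continuousOn

theorem Data.EH_cont (hC : Inv C) (a b : Fin n) :
    ContinuousOn (fun t => (Emat f C (G t))ᴴ a b) (sphere (0:ℂ) 1) := by
  simp only [Matrix.conjTranspose_apply]
  exact (D.E_cont hC b a).star

theorem Data.base_cont {u : ℂ → ℂ} (hu : DifferentiableOn ℂ u (closure Ω)) :
    ContinuousOn (fun t => rho f G t * u (G t)) (sphere (0:ℂ) 1) :=
  D.rho_cont.mul (D.comp_cont hu.continuousOn)

theorem Data.cav_E (hC : Inv C) {u : ℂ → ℂ} (hu : DifferentiableOn ℂ u (closure Ω)) (a b : Fin n) :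
    cav (fun t => rho f G t * u (G t) * Emat f C (G t) a b) =
      cav (fun t => rho f G t * u (G t)) * (1 : Matrix (Fin n) (Fin n) ℂ) a b := by
  have h1 : cav (fun t => rho f G t * u (G t) * Emat f C (G t) a b) =
      cav (fun t => (1 : Matrix (Fin n) (Fin n) ℂ) a b * (rho f G t * u (G t)) +
        rho f G t * f (G t) * (u (G t) * ∑ k, Cᴴ a k * Emat f C (G t) k b)) := by
    apply cav_congr
    intro t ht
    have h2 := D.E_eq hC (D.mem ht)
    have h3 : Emat f C (G t) a b = (1 : Matrix (Fin n) (Fin n) ℂ) a b +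
        f (G t) * ∑ k, Cᴴ a k * Emat f C (G t) k b := by
      conv_lhs => rw [h2]
      simp only [Matrix.add_apply, Matrix.smul_apply, Matrix.mul_apply, smul_eq_mul]
    rw [h3]; ring
  have hd : DifferentiableOn ℂ (fun z => u z * ∑ k, Cᴴ a k * Emat f C z k b) (closure Ω) := by
    apply hu.mul
    apply DifferentiableOn.fun_sum
    intro k _
    exact (D.E_diff hC k b).const_mul _
  rw [h1, cav_add, cav_const_mul, D.cav_zero hd, add_zero, mul_comm]
  · exact continuousOn_const.mul (D.base_cont hu)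
  · exact (D.rho_cont.mul (D.comp_cont D.f_diff.continuousOn)).mul (D.comp_cont hd.continuousOn)

omit D in
/-- the functional `J(u) = avg ρ u(G) Eᴴ` -/
noncomputable def J (f G : ℂ → ℂ) (C : Matrix (Fin n) (Fin n) ℂ) (u : ℂ → ℂ) :
    Matrix (Fin n) (Fin n) ℂ :=
  Matrix.of fun a b => cav (fun t => rho f G t * u (G t) * (Emat f C (G t))ᴴ a b)

theorem Data.J_one (hC : Inv C) : J f G C (fun _ => 1) = 1 := by
  ext a b
  simp only [J, Matrix.of_apply]
  have h1 : cav (fun t => rho f G t * 1 * (Emat f C (G t))ᴴ a b) =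
      conj (cav (fun t => rho f G t * (fun _ => (1:ℂ)) (G t) * (Emat f C (G t)) b a)) := by
    rw [← cav_conj]
    apply cav_congr
    intro t ht
    rw [map_mul, map_mul, D.conj_rho ht]
    simp
  rw [h1, D.cav_E hC (differentiableOn_const 1) b a]
  have h2 : cav (fun t => rho f G t * (fun _ => (1:ℂ)) (G t)) = 1 := by
    refine Eq.trans ?_ D.cav_rho
    apply cav_congr
    intro t _
    simp
  rw [h2, one_mul]
  by_cases hab : a = b
  · subst hab; simp
  · rw [Matrix.one_apply_ne hab, Matrix.one_apply_ne (Ne.symm hab)]; simp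

theorem Data.J_cont (hC : Inv C) {u : ℂ → ℂ} (hu : DifferentiableOn ℂ u (closure Ω)) (a b : Fin n) :
    ContinuousOn (fun t => rho f G t * u (G t) * (Emat f C (G t))ᴴ a b) (sphere (0:ℂ) 1) :=
  (D.base_cont hu).mul (D.EH_cont hC a b)

theorem Data.J_add (hC : Inv C) {u₁ u₂ : ℂ → ℂ} (h₁ : DifferentiableOn ℂ u₁ (closure Ω))
    (h₂ : DifferentiableOn ℂ u₂ (closure Ω)) :
    J f G C (fun z => u₁ z + u₂ z) = J f G C u₁ + J f G C u₂ := by
  ext a b
  simp only [J, Matrix.of_apply, Matrix.add_apply]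
  rw [← cav_add (D.J_cont hC h₁ a b) (D.J_cont hC h₂ a b)]
  apply cav_congr
  intro t _
  ring

omit D in
theorem J_const_mul (c : ℂ) (u : ℂ → ℂ) :
    J f G C (fun z => c * u z) = c • J f G C u := by
  ext a b
  simp only [J, Matrix.of_apply, Matrix.smul_apply, smul_eq_mul]
  rw [← cav_const_mul]
  apply cav_congr
  intro t _
  ring

theorem Data.J_congr {u₁ u₂ : ℂ → ℂ} (h : ∀ z ∈ closure Ω, u₁ z = u₂ z) :
    J f G C u₁ = J f G C u₂ := by
  ext a b
  simp only [J, Matrix.of_apply]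
  apply cav_congr
  intro t ht
  rw [h _ (D.mem ht)]

theorem Data.J_mul_f (hC : Inv C) {u : ℂ → ℂ} (hu : DifferentiableOn ℂ u (closure Ω)) :
    J f G C (fun z => f z * u z) = C * J f G C u := by
  ext a b
  simp only [J, Matrix.of_apply, Matrix.mul_apply]
  have h1 : cav (fun t => rho f G t * (f (G t) * u (G t)) * (Emat f C (G t))ᴴ a b) =
      cav (fun t => (1 : Matrix (Fin n) (Fin n) ℂ) a b * (rho f G t * f (G t) * u (G t)) +
        ∑ k, C a k * (rho f G t * u (G t) * (Emat f C (G t))ᴴ k b)) := by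
    apply cav_congr
    intro t ht
    have h2 := congrFun (congrFun (D.hE_eq hC ht) a) b
    simp only [Matrix.add_apply, Matrix.smul_apply, smul_eq_mul, Matrix.mul_apply] at h2
    have h3 : rho f G t * (f (G t) * u (G t)) * (Emat f C (G t))ᴴ a b =
        rho f G t * u (G t) * (f (G t) * (Emat f C (G t))ᴴ a b) := by ring
    rw [h3, h2, mul_add, Finset.mul_sum]
    congr 1
    · ring
    · apply Finset.sum_congr rfl
      intro k _
      ring
  rw [h1, cav_add, cav_const_mul, D.cav_zero hu, mul_zero, zero_add, cav_sum]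
  · apply Finset.sum_congr rfl
    intro k _
    rw [cav_const_mul]
  · intro k _
    exact continuousOn_const.mul (D.J_cont hC hu k b)
  · exact continuousOn_const.mul
      ((D.rho_cont.mul (D.comp_cont D.f_diff.continuousOn)).mul (D.comp_cont hu.continuousOn))
  · apply continuousOn_finsetSum
    intro k _
    exact continuousOn_const.mul (D.J_cont hC hu k b)

theorem Data.poly_diff (P : ℂ[X]) {u : ℂ → ℂ} (hu : DifferentiableOn ℂ u (closure Ω)) :
    DifferentiableOn ℂ (fun z => P.eval (f z) * u z) (closure Ω) := by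
  apply DifferentiableOn.mul _ hu
  exact P.differentiable.comp_differentiableOn D.f_diff

theorem Data.J_poly (hC : Inv C) (P : ℂ[X]) {u : ℂ → ℂ} (hu : DifferentiableOn ℂ u (closure Ω)) :
    J f G C (fun z => P.eval (f z) * u z) = aeval C P * J f G C u := by
  induction P using Polynomial.induction_on' with
  | add P Q hP hQ =>
    rw [map_add, add_mul, ← hP, ← hQ, ← D.J_add hC (D.poly_diff P hu) (D.poly_diff Q hu)]
    apply D.J_congr
    intro z _
    rw [eval_add, add_mul]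
  | monomial k c =>
    have h1 : ∀ k : ℕ, J f G C (fun z => (f z) ^ k * u z) = C ^ k * J f G C u := by
      intro k
      induction k with
      | zero => simp
      | succ k ih =>
        have h2 : J f G C (fun z => (f z) ^ (k + 1) * u z) =
            J f G C (fun z => f z * ((f z) ^ k * u z)) := by
          apply D.J_congr
          intro z _
          ring
        have h3 : DifferentiableOn ℂ (fun z => (f z) ^ k * u z) (closure Ω) :=
          (D.f_diff.pow k).mul hu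
        rw [h2, D.J_mul_f hC h3, ih, pow_succ', mul_assoc]
    have h3 : J f G C (fun z => (monomial k c).eval (f z) * u z) =
        J f G C (fun z => c * ((f z) ^ k * u z)) := by
      apply D.J_congr
      intro z _
      rw [eval_monomial]; ring
    rw [h3, J_const_mul, h1, aeval_monomial, mul_assoc, Algebra.algebraMap_eq_smul_one,
      smul_mul_assoc, one_mul]

/-- **Main functional-calculus identity** -/
theorem Data.J_main (hn : 1 ≤ n) (hC : Inv C) {A B : Matrix (Fin n) (Fin n) ℂ} {p : ℂ[X]}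
    (hCB : C = aeval B p)
    (hker : ∀ Q : ℂ[X], (∏ μ ∈ eigs A, (X - Polynomial.C μ)) ^ n ∣ Q → aeval B Q = 0)
    (hspec : ∀ μ ∈ eigs A, μ ∈ Ω) (hp : AgreesOnSpectrum A f p)
    {V : Set ℂ} (hV : IsOpen V) (hΩV : closure Ω ⊆ V) {v : ℂ → ℂ} (hv : DifferentiableOn ℂ v V)
    {q : ℂ[X]} (hq : AgreesOnSpectrum A v q) :
    J f G C v = aeval B q := by
  have hW : IsOpen (V ∩ U) := hV.inter D.hU
  have hΩW : closure Ω ⊆ V ∩ U := subset_inter hΩV D.hΩU
  have hspecW : ∀ μ ∈ eigs A, μ ∈ V ∩ U := fun μ hμ => hΩW (subset_closure (hspec μ hμ))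
  have hfW : DifferentiableOn ℂ f (V ∩ U) := D.hf₁.mono inter_subset_right
  have hvW : DifferentiableOn ℂ v (V ∩ U) := hv.mono inter_subset_left
  obtain ⟨P, w, hw, h⟩ := exists_interp hW hfW (D.hf₂.mono inter_subset_right)
    (n • (eigs A).val).toList (by
      intro μ hμ
      rw [Multiset.mem_toList] at hμ
      exact hspecW μ (Multiset.mem_of_mem_nsmul hμ)) v hvW
  have hprod : ∀ g : ℂ → ℂ, (((n • (eigs A).val).toList).map g).prod = (∏ μ ∈ eigs A, g μ) ^ n := by
    intro g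
    have h1 : (((n • (eigs A).val).toList).map g).prod = ((n • (eigs A).val).map g).prod := by
      conv_rhs => rw [← Multiset.coe_toList (n • (eigs A).val), Multiset.map_coe, Multiset.prod_coe]
    rw [h1, Multiset.map_nsmul, Multiset.prod_nsmul]
    rfl
  have hvw : ∀ z ∈ V ∩ U, v z = P.eval (f z) + (∏ μ ∈ eigs A, (f z - f μ)) ^ n * w z := by
    intro z hz
    rw [h z hz, hprod]
  have hdvd := dvd_sub_comp hW hspecW hfW hvW hw hvw hp hq
  have hwK : DifferentiableOn ℂ w (closure Ω) := hw.mono hΩW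
  set Ψ : ℂ[X] := (∏ μ ∈ eigs A, (X - Polynomial.C (f μ))) ^ n with hΨ
  have hJ : J f G C v = J f G C (fun z => P.eval (f z) * (fun _ => (1:ℂ)) z + Ψ.eval (f z) * w z) := by
    apply D.J_congr
    intro z hz
    rw [hvw z (hΩW hz), hΨ, eval_pow, eval_prod]
    simp
  rw [hJ, D.J_add hC (D.poly_diff P (differentiableOn_const 1)) (D.poly_diff Ψ hwK),
    D.J_poly hC P (differentiableOn_const 1), D.J_poly hC Ψ hwK, D.J_one hC, mul_one]
  have hΨ0 : aeval C Ψ = 0 := by
    rw [hCB, ← aeval_comp]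
    apply hker
    rw [hΨ, Polynomial.pow_comp, Polynomial.prod_comp]
    apply pow_dvd_pow_of_dvd
    apply Finset.prod_dvd_prod_of_dvd
    intro μ hμ
    have h1 : f μ = p.eval μ := by
      have := hp μ (mem_eigs.mp hμ) 0 (by omega)
      simpa using this.symm
    rw [sub_comp, X_comp, C_comp, h1]
    exact X_sub_C_dvd_sub_C_eval
  have hq' : aeval B q = aeval B (P.comp p) := by
    have := hker _ hdvd
    rw [map_sub, sub_eq_zero] at this
    exact this
  rw [hΨ0, zero_mul, add_zero, hq', hCB, aeval_comp]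

omit D in
/-- the density -/
noncomputable def Lam (f G : ℂ → ℂ) (C : Matrix (Fin n) (Fin n) ℂ) (t : ℂ) :
    Matrix (Fin n) (Fin n) ℂ :=
  rho f G t • (Emat f C (G t) + (Emat f C (G t))ᴴ - 1)

theorem Data.Lam_psd (hC : Inv C) (hCC : (1 - Cᴴ * C).PosSemidef) {t : ℂ} (ht : ‖t‖ = 1) :
    (Lam f G C t).PosSemidef := by
  obtain ⟨x, hx, hρ⟩ := D.rho_eq ht
  unfold Lam
  rw [hρ]
  exact (D.psd hC hCC ht).smul (by exact_mod_cast hx)

theorem Data.Lam_cont (hC : Inv C) (a b : Fin n) :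
    ContinuousOn (fun t => Lam f G C t a b) (sphere (0:ℂ) 1) := by
  simp only [Lam, Matrix.smul_apply, Matrix.sub_apply, Matrix.add_apply, smul_eq_mul]
  exact D.rho_cont.mul (((D.E_cont hC a b).add (D.EH_cont hC a b)).sub continuousOn_const)

theorem Data.cav_Lam (hC : Inv C) {u : ℂ → ℂ} (hu : DifferentiableOn ℂ u (closure Ω)) (a b : Fin n) :
    cav (fun t => Lam f G C t a b * u (G t)) = J f G C u a b := by
  have h1 : cav (fun t => Lam f G C t a b * u (G t)) =
      cav (fun t => (rho f G t * u (G t) * Emat f C (G t) a b +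
        (-(1 : Matrix (Fin n) (Fin n) ℂ) a b) * (rho f G t * u (G t))) +
        rho f G t * u (G t) * (Emat f C (G t))ᴴ a b) := by
    apply cav_congr
    intro t _
    simp only [Lam, Matrix.smul_apply, Matrix.sub_apply, Matrix.add_apply, smul_eq_mul]
    ring
  rw [h1, cav_add, cav_add, D.cav_E hC hu, cav_const_mul]
  · simp only [J, Matrix.of_apply]
    ring
  · exact (D.base_cont hu).mul (D.E_cont hC a b)
  · exact continuousOn_const.mul (D.base_cont hu)
  · exact ((D.base_cont hu).mul (D.E_cont hC a b)).add (continuousOn_const.mul (D.base_cont hu))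
  · exact D.J_cont hC hu a b

theorem Data.cav_Lam_one (hC : Inv C) (a b : Fin n) :
    cav (fun t => Lam f G C t a b) = (1 : Matrix (Fin n) (Fin n) ℂ) a b := by
  have h := D.cav_Lam hC (differentiableOn_const (c := (1:ℂ))) a b
  rw [D.J_one hC] at h
  rw [← h]
  apply cav_congr
  intro t _
  simp

end Crest.Agent.R132.GS
end

-- ▼ part R132/GNormP
section

/-!
Norm bounds from a positive density.
-/

set_option autoImplicit false

open Filter Topology Set Metric Polynomial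
open scoped ComplexConjugate ComplexOrder Matrix

namespace Crest.Agent.R132.GS

variable {n m : ℕ}

/-- PSD matrices are `Xᴴ X`. -/
theorem exists_factor {N : Matrix (Fin n) (Fin n) ℂ} (hN : N.PosSemidef) :
    ∃ X : Matrix (Fin n) (Fin n) ℂ, N = Xᴴ * X := by
  open scoped MatrixOrder in
  have h : 0 ≤ N := hN.nonneg
  obtain ⟨X, hX⟩ := CStarAlgebra.nonneg_iff_eq_star_mul_self.mp h
  exact ⟨X, hX⟩

/-- Frobenius square -/
noncomputable def fro (Y : Matrix (Fin n) (Fin m) ℂ) : ℝ := ∑ e, ∑ c, ‖Y e c‖ ^ 2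


theorem trace_conj_mul_self (Y : Matrix (Fin n) (Fin m) ℂ) :
    (Yᴴ * Y).trace = (fro Y : ℂ) := by
  simp only [Matrix.trace, Matrix.diag_apply, Matrix.mul_apply, Matrix.conjTranspose_apply, fro]
  push_cast
  rw [Finset.sum_comm]
  apply Finset.sum_congr rfl
  intro e _
  apply Finset.sum_congr rfl
  intro c _
  rw [Complex.star_def, Complex.conj_mul']

/-- bilinear pairing `∑_{c,d} (Yᴴ Z)_{cd} V_{cd}` -/
noncomputable def pair (Y Z : Matrix (Fin n) (Fin m) ℂ) (V : Matrix (Fin m) (Fin m) ℂ) : ℂ :=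
  ∑ c, ∑ d, (Yᴴ * Z) c d * V c d

theorem pair_eq_inner (Y Z : Matrix (Fin n) (Fin m) ℂ) (V : Matrix (Fin m) (Fin m) ℂ) :
    pair Y Z V = ∑ e, inner ℂ (WithLp.toLp 2 (fun c => Y e c) : EuclideanSpace ℂ (Fin m))
      (Matrix.toEuclideanCLM (n := Fin m) (𝕜 := ℂ) V (WithLp.toLp 2 (fun c => Z e c))) := by
  simp only [pair, Matrix.mul_apply, Matrix.conjTranspose_apply, Matrix.toEuclideanCLM_toLp,
    PiLp.inner_apply, RCLike.inner_apply, Matrix.mulVec, dotProduct]
  simp only [Finset.sum_mul]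
  rw [Finset.sum_comm' (t' := Finset.univ) (s' := fun _ => Finset.univ) (by simp)]
  have h1 : ∀ c d : Fin m, ∀ e : Fin n, star (Y e c) * Z e d * V c d =
      V c d * Z e d * (starRingEnd ℂ) (Y e c) := by
    intro c d e
    rw [Complex.star_def]; ring
  calc ∑ y, ∑ x, ∑ i, star (Y i x) * Z i y * V x y
      = ∑ y, ∑ x, ∑ i, V x y * Z i y * (starRingEnd ℂ) (Y i x) := by
        simp only [h1]
    _ = ∑ x, ∑ y, ∑ i, V x y * Z i y * (starRingEnd ℂ) (Y i x) := Finset.sum_comm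
    _ = ∑ x, ∑ i, ∑ y, V x y * Z i y * (starRingEnd ℂ) (Y i x) := by
        apply Finset.sum_congr rfl; intro x _; exact Finset.sum_comm
    _ = ∑ i, ∑ x, ∑ y, V x y * Z i y * (starRingEnd ℂ) (Y i x) := Finset.sum_comm
    _ = _ := by
        apply Finset.sum_congr rfl; intro i _
        apply Finset.sum_congr rfl; intro x _
        rfl

theorem re_pair_le {M : ℝ} (Y Z : Matrix (Fin n) (Fin m) ℂ) (V : Matrix (Fin m) (Fin m) ℂ)
    (hV : ‖Matrix.toEuclideanCLM (n := Fin m) (𝕜 := ℂ) V‖ ≤ M) :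
    (pair Y Z V).re ≤ M / 2 * (fro Y + fro Z) := by
  have hM : 0 ≤ M := (norm_nonneg _).trans hV
  rw [pair_eq_inner, Complex.re_sum, fro, fro, ← Finset.sum_add_distrib, Finset.mul_sum]
  apply Finset.sum_le_sum
  intro e _
  set y : EuclideanSpace ℂ (Fin m) := WithLp.toLp 2 (fun c => Y e c) with hy
  set z : EuclideanSpace ℂ (Fin m) := WithLp.toLp 2 (fun c => Z e c) with hz
  have h1 : ‖y‖ ^ 2 = ∑ c, ‖Y e c‖ ^ 2 := by
    rw [EuclideanSpace.norm_sq_eq]
  have h2 : ‖z‖ ^ 2 = ∑ c, ‖Z e c‖ ^ 2 := by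
    rw [EuclideanSpace.norm_sq_eq]
  rw [← h1, ← h2]
  calc (inner ℂ y (Matrix.toEuclideanCLM (n := Fin m) (𝕜 := ℂ) V z)).re
      ≤ ‖inner ℂ y (Matrix.toEuclideanCLM (n := Fin m) (𝕜 := ℂ) V z)‖ := Complex.re_le_norm _
    _ ≤ ‖y‖ * ‖Matrix.toEuclideanCLM (n := Fin m) (𝕜 := ℂ) V z‖ := norm_inner_le_norm _ _
    _ ≤ ‖y‖ * (M * ‖z‖) := by
        gcongr
        exact ((Matrix.toEuclideanCLM (n := Fin m) (𝕜 := ℂ) V).le_opNorm z).trans (by gcongr)
    _ ≤ M / 2 * (‖y‖ ^ 2 + ‖z‖ ^ 2) := by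
        nlinarith [mul_nonneg hM (sq_nonneg (‖y‖ - ‖z‖))]

/-- pointwise inequality with a PSD weight -/
theorem re_weighted_le {M : ℝ} {N : Matrix (Fin n) (Fin n) ℂ} (hN : N.PosSemidef)
    (η ξ : Matrix (Fin n) (Fin m) ℂ) (V : Matrix (Fin m) (Fin m) ℂ)
    (hV : ‖Matrix.toEuclideanCLM (n := Fin m) (𝕜 := ℂ) V‖ ≤ M) :
    (∑ c, ∑ d, (ηᴴ * N * ξ) c d * V c d).re ≤
      M / 2 * (((ηᴴ * N * η).trace).re + ((ξᴴ * N * ξ).trace).re) := by
  obtain ⟨X, rfl⟩ := exists_factor hN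
  have h1 : ∀ η ξ : Matrix (Fin n) (Fin m) ℂ, ηᴴ * (Xᴴ * X) * ξ = (X * η)ᴴ * (X * ξ) := by
    intro η ξ
    rw [Matrix.conjTranspose_mul]
    simp only [Matrix.mul_assoc]
  rw [h1, h1, h1, trace_conj_mul_self, trace_conj_mul_self, Complex.ofReal_re, Complex.ofReal_re]
  exact re_pair_le _ _ V hV

/-- `cav` and the real part -/
theorem re_cav {F : ℂ → ℂ} (hF : ContinuousOn F (sphere (0:ℂ) 1)) :
    (cav F).re = Real.circleAverage (fun t => (F t).re) 0 1 := by
  have h := Complex.reCLM.circleAverage_comp_comm (c := 0) (R := 1)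
    (hF.circleIntegrable zero_le_one)
  exact h.symm

theorem cav_re_le {F₁ F₂ : ℂ → ℂ} (h₁ : ContinuousOn F₁ (sphere (0:ℂ) 1))
    (h₂ : ContinuousOn F₂ (sphere (0:ℂ) 1)) (h : ∀ t : ℂ, ‖t‖ = 1 → (F₁ t).re ≤ (F₂ t).re) :
    (cav F₁).re ≤ (cav F₂).re := by
  rw [re_cav h₁, re_cav h₂]
  apply Real.circleAverage_mono
  · apply ContinuousOn.circleIntegrable zero_le_one
    exact Complex.continuous_re.comp_continuousOn h₁
  · apply ContinuousOn.circleIntegrable zero_le_one
    exact Complex.continuous_re.comp_continuousOn h₂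
  · intro t ht
    exact h t (by simpa using ht)

/-- The integrated inequality. -/
theorem re_sum_le {M : ℝ} {L : ℂ → Matrix (Fin n) (Fin n) ℂ} {V : ℂ → Matrix (Fin m) (Fin m) ℂ}
    (hLc : ∀ a b, ContinuousOn (fun t => L t a b) (sphere (0:ℂ) 1))
    (hVc : ∀ c d, ContinuousOn (fun t => V t c d) (sphere (0:ℂ) 1))
    (hL : ∀ t : ℂ, ‖t‖ = 1 → (L t).PosSemidef)
    (hL1 : ∀ a b, cav (fun t => L t a b) = (1 : Matrix (Fin n) (Fin n) ℂ) a b)
    (hV : ∀ t : ℂ, ‖t‖ = 1 → ‖Matrix.toEuclideanCLM (n := Fin m) (𝕜 := ℂ) (V t)‖ ≤ M)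
    {Q : Fin m → Fin m → Matrix (Fin n) (Fin n) ℂ}
    (hQ : ∀ a b c d, Q c d a b = cav (fun t => L t a b * V t c d))
    (η ξ : Matrix (Fin n) (Fin m) ℂ) :
    (∑ c, ∑ d, (ηᴴ * Q c d * ξ) c d).re ≤ M / 2 * (fro η + fro ξ) := by
  have hLHS : (∑ c, ∑ d, (ηᴴ * Q c d * ξ) c d) =
      cav (fun t => ∑ c, ∑ d, (ηᴴ * L t * ξ) c d * V t c d) := by
    rw [cav_sum]
    · apply Finset.sum_congr rfl
      intro c _
      rw [cav_sum]
      · apply Finset.sum_congr rfl
        intro d _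
        simp only [Matrix.mul_apply, Finset.sum_mul]
        rw [cav_sum]
        · apply Finset.sum_congr rfl
          intro b _
          rw [cav_sum]
          · apply Finset.sum_congr rfl
            intro a _
            rw [hQ a b c d]
            have : cav (fun t => ηᴴ c a * L t a b * ξ b d * V t c d) =
                cav (fun t => (ηᴴ c a * ξ b d) * (L t a b * V t c d)) := by
              apply cav_congr
              intro t _
              ring
            rw [this, cav_const_mul]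
            ring
          · intro a _
            exact (((continuousOn_const.mul (hLc a b)).mul continuousOn_const).mul (hVc c d))
        · intro b _
          apply continuousOn_finsetSum
          intro a _
          exact (((continuousOn_const.mul (hLc a b)).mul continuousOn_const).mul (hVc c d))
      · intro d _
        simp only [Matrix.mul_apply, Finset.sum_mul]
        apply continuousOn_finsetSum
        intro b _
        apply continuousOn_finsetSum
        intro a _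
        exact (((continuousOn_const.mul (hLc a b)).mul continuousOn_const).mul (hVc c d))
    · intro c _
      apply continuousOn_finsetSum
      intro d _
      simp only [Matrix.mul_apply, Finset.sum_mul]
      apply continuousOn_finsetSum
      intro b _
      apply continuousOn_finsetSum
      intro a _
      exact (((continuousOn_const.mul (hLc a b)).mul continuousOn_const).mul (hVc c d))
  have hcLHS : ContinuousOn (fun t => ∑ c, ∑ d, (ηᴴ * L t * ξ) c d * V t c d)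
      (sphere (0:ℂ) 1) := by
    apply continuousOn_finsetSum
    intro c _
    apply continuousOn_finsetSum
    intro d _
    simp only [Matrix.mul_apply, Finset.sum_mul]
    apply continuousOn_finsetSum
    intro b _
    apply continuousOn_finsetSum
    intro a _
    exact (((continuousOn_const.mul (hLc a b)).mul continuousOn_const).mul (hVc c d))
  have hctr : ∀ ζ : Matrix (Fin n) (Fin m) ℂ,
      ContinuousOn (fun t => (ζᴴ * L t * ζ).trace) (sphere (0:ℂ) 1) := by
    intro ζ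
    simp only [Matrix.trace, Matrix.diag_apply, Matrix.mul_apply, Finset.sum_mul]
    apply continuousOn_finsetSum
    intro c _
    apply continuousOn_finsetSum
    intro b _
    apply continuousOn_finsetSum
    intro a _
    exact ((continuousOn_const.mul (hLc a b)).mul continuousOn_const)
  have htr : ∀ ζ : Matrix (Fin n) (Fin m) ℂ,
      cav (fun t => (ζᴴ * L t * ζ).trace) = (fro ζ : ℂ) := by
    intro ζ
    rw [← trace_conj_mul_self]
    have h1 : ζᴴ * ζ = ζᴴ * (1 : Matrix (Fin n) (Fin n) ℂ) * ζ := by rw [Matrix.mul_one]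
    rw [h1]
    simp only [Matrix.trace, Matrix.diag_apply, Matrix.mul_apply, Finset.sum_mul]
    rw [cav_sum]
    · apply Finset.sum_congr rfl
      intro c _
      rw [cav_sum]
      · apply Finset.sum_congr rfl
        intro b _
        rw [cav_sum]
        · apply Finset.sum_congr rfl
          intro a _
          rw [← hL1 a b]
          have : cav (fun t => ζᴴ c a * L t a b * ζ b c) =
                cav (fun t => (ζᴴ c a * ζ b c) * (L t a b)) := by
            apply cav_congr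
            intro t _
            ring
          rw [this, cav_const_mul]
          ring
        · intro a _
          exact ((continuousOn_const.mul (hLc a b)).mul continuousOn_const)
      · intro b _
        apply continuousOn_finsetSum
        intro a _
        exact ((continuousOn_const.mul (hLc a b)).mul continuousOn_const)
    · intro c _
      apply continuousOn_finsetSum
      intro b _
      apply continuousOn_finsetSum
      intro a _
      exact ((continuousOn_const.mul (hLc a b)).mul continuousOn_const)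
  have hRHS : M / 2 * (fro η + fro ξ) =
      (cav (fun t => ((M / 2 : ℝ) : ℂ) * ((ηᴴ * L t * η).trace + (ξᴴ * L t * ξ).trace))).re := by
    rw [cav_const_mul, cav_add (hctr η) (hctr ξ), htr, htr, ← Complex.ofReal_add,
      ← Complex.ofReal_mul, Complex.ofReal_re]
  rw [hLHS, hRHS]
  apply cav_re_le hcLHS (continuousOn_const.mul ((hctr η).add (hctr ξ)))
  intro t ht
  change (∑ c, ∑ d, (ηᴴ * L t * ξ) c d * V t c d).re ≤
    (((M / 2 : ℝ) : ℂ) * ((ηᴴ * L t * η).trace + (ξᴴ * L t * ξ).trace)).re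
  rw [Complex.re_ofReal_mul, Complex.add_re]
  exact re_weighted_le (hL t ht) η ξ (V t) (hV t ht)

/-- passing from a sesquilinear bound to an operator norm bound, with a similarity. -/
theorem opNorm_le {M κ : ℝ} (hM : 0 ≤ M) (hκ : 0 < κ)
    {Q : Fin m → Fin m → Matrix (Fin n) (Fin n) ℂ}
    (h : ∀ η ξ : Matrix (Fin n) (Fin m) ℂ,
      (∑ c, ∑ d, (ηᴴ * Q c d * ξ) c d).re ≤ M / 2 * (fro η + κ * fro ξ)) :
    ‖Matrix.toEuclideanCLM (n := Fin n × Fin m) (𝕜 := ℂ)
      (Matrix.of fun (i : Fin n × Fin m) (j : Fin n × Fin m) => Q i.2 j.2 i.1 j.1)‖ ≤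
      Real.sqrt κ * M := by
  set T := Matrix.toEuclideanCLM (n := Fin n × Fin m) (𝕜 := ℂ)
      (Matrix.of fun (i : Fin n × Fin m) (j : Fin n × Fin m) => Q i.2 j.2 i.1 j.1) with hT
  apply ContinuousLinearMap.opNorm_le_bound _ (by positivity)
  intro x
  -- reshape
  set rs : EuclideanSpace ℂ (Fin n × Fin m) → Matrix (Fin n) (Fin m) ℂ :=
    fun y => Matrix.of fun a c => y (a, c) with hrs
  have hfro : ∀ y, fro (rs y) = ‖y‖ ^ 2 := by
    intro y
    rw [EuclideanSpace.norm_sq_eq, Fintype.sum_prod_type]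
    rfl
  have hin : ∀ y z : EuclideanSpace ℂ (Fin n × Fin m), inner ℂ y (T z) =
      ∑ c, ∑ d, ((rs y)ᴴ * Q c d * rs z) c d := by
    intro y z
    rw [hT, PiLp.inner_apply, Fintype.sum_prod_type, Finset.sum_comm]
    apply Finset.sum_congr rfl
    intro c _
    simp only [RCLike.inner_apply, Matrix.ofLp_toEuclideanCLM, Matrix.mulVec, dotProduct,
      Fintype.sum_prod_type, Matrix.of_apply, Matrix.mul_apply, Matrix.conjTranspose_apply,
      Finset.sum_mul, hrs]
    rw [Finset.sum_comm]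
    simp only [Complex.star_def]
    -- LHS: ∑ b, ∑ a, ∑ d ; RHS: ∑ d, ∑ b, ∑ a
    have e1 : ∀ (a b : Fin n) (d : Fin m),
        Q c d a b * z (b, d) * (starRingEnd ℂ) (y (a, c)) =
        (starRingEnd ℂ) (y (a, c)) * Q c d a b * z (b, d) := by
      intro a b d; ring
    simp only [e1]
    calc ∑ b, ∑ a, ∑ d, (starRingEnd ℂ) (y (a, c)) * Q c d a b * z (b, d)
        = ∑ b, ∑ d, ∑ a, (starRingEnd ℂ) (y (a, c)) * Q c d a b * z (b, d) := by
          apply Finset.sum_congr rfl; intro b _; exact Finset.sum_comm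
      _ = ∑ d, ∑ b, ∑ a, (starRingEnd ℂ) (y (a, c)) * Q c d a b * z (b, d) := Finset.sum_comm
  by_cases hTx : ‖T x‖ = 0
  · rw [hTx]; positivity
  by_cases hx : ‖x‖ = 0
  · have : x = 0 := norm_eq_zero.mp hx
    rw [this]; simp
  have hTx' : 0 < ‖T x‖ := lt_of_le_of_ne (norm_nonneg _) (Ne.symm hTx)
  have hx' : 0 < ‖x‖ := lt_of_le_of_ne (norm_nonneg _) (Ne.symm hx)
  have hsq : 0 < Real.sqrt κ := Real.sqrt_pos.mpr hκ
  set a : ℝ := Real.sqrt κ * ‖x‖ with ha
  set b : ℝ := ‖T x‖ with hb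
  have h1 := h (rs ((a : ℂ) • T x)) (rs ((b : ℂ) • x))
  rw [← hin, hfro, hfro] at h1
  rw [map_smul, inner_smul_left, inner_smul_right, norm_smul, norm_smul, Complex.conj_ofReal,
    inner_self_eq_norm_sq_to_K] at h1
  have h2 : ((a : ℂ) * ((b : ℂ) * (((‖T x‖ : ℝ) : ℂ)) ^ 2)).re = a * b * ‖T x‖ ^ 2 := by
    rw [show ((a : ℂ) * ((b : ℂ) * (((‖T x‖ : ℝ) : ℂ)) ^ 2)) = ((a * b * ‖T x‖ ^ 2 : ℝ) : ℂ) by
      push_cast; ring]
    exact Complex.ofReal_re _
  have h3 : ((a : ℂ) * ((b : ℂ) * ((RCLike.ofReal ‖T x‖ : ℂ)) ^ 2)).re = a * b * ‖T x‖ ^ 2 := h2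
  rw [h3] at h1
  simp only [Complex.norm_real, Real.norm_eq_abs] at h1
  have ha0 : 0 < a := by positivity
  rw [abs_of_pos ha0, abs_of_pos hTx'] at h1
  have hκs : κ = Real.sqrt κ ^ 2 := (Real.sq_sqrt hκ.le).symm
  have h4 : a * b * b ^ 2 ≤ M / 2 * ((a * b) ^ 2 + Real.sqrt κ ^ 2 * (b * ‖x‖) ^ 2) := by
    rw [← hκs]; exact h1
  have h5 : a * b * b ^ 2 ≤ M * (a * b) ^ 2 := by
    have : Real.sqrt κ ^ 2 * (b * ‖x‖) ^ 2 = (a * b) ^ 2 := by rw [ha]; ring
    rw [this] at h4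
    linarith
  have h6 : b * (a * b ^ 2) ≤ (Real.sqrt κ * M * ‖x‖) * (a * b ^ 2) := by
    calc b * (a * b ^ 2) = a * b * b ^ 2 := by ring
      _ ≤ M * (a * b) ^ 2 := h5
      _ = (Real.sqrt κ * M * ‖x‖) * (a * b ^ 2) := by rw [ha]; ring
  exact le_of_mul_le_mul_right h6 (by positivity)

end Crest.Agent.R132.GS
end

-- ▼ part R132/GSim

/-!
Similarity facts for matrices.
-/

set_option autoImplicit false

open Filter Topology Set Metric Polynomial
open Crest.AnalysisR.NumRange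
open scoped ComplexConjugate ComplexOrder Matrix

namespace Crest.Agent.R132.GS

variable {n m : ℕ}

/-- eigenvalues lie in the numerical range -/
theorem mem_numRange_of_mem_spectrum {A : Matrix (Fin n) (Fin n) ℂ} {μ : ℂ}
    (hμ : μ ∈ spectrum ℂ A) : μ ∈ numRange A := by
  rw [← Matrix.spectrum_toLpLin 2] at hμ
  have h := Module.End.hasEigenvalue_iff_mem_spectrum.mpr hμ
  obtain ⟨x, hx⟩ := h.exists_hasEigenvector
  have hx0 : x ≠ 0 := hx.2
  have hxn : ‖x‖ ≠ 0 := norm_ne_zero_iff.mpr hx0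
  refine ⟨((‖x‖ : ℂ)⁻¹) • x, ?_, ?_⟩
  · rw [norm_smul, norm_inv, Complex.norm_real, norm_norm, inv_mul_cancel₀ hxn]
  · rw [map_smul, Module.End.HasEigenvector.apply_eq_smul hx, inner_smul_left, inner_smul_right,
      inner_smul_right, inner_self_eq_norm_sq_to_K, map_inv₀, Complex.conj_ofReal]
    have h2 : ((‖x‖ : ℝ) : ℂ) ≠ 0 := by exact_mod_cast hxn
    have h3 : (RCLike.ofReal ‖x‖ : ℂ) = ((‖x‖ : ℝ) : ℂ) := rfl
    rw [h3]
    field_simp

theorem aeval_conj {S A : Matrix (Fin n) (Fin n) ℂ} (hS : IsUnit S.det) (Q : ℂ[X]) :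
    aeval (S * A * S⁻¹) Q = S * aeval A Q * S⁻¹ := by
  have h1 : S⁻¹ * S = 1 := Matrix.nonsing_inv_mul _ hS
  have h2 : S * S⁻¹ = 1 := Matrix.mul_nonsing_inv _ hS
  induction Q using Polynomial.induction_on' with
  | add P Q hP hQ => rw [map_add, map_add, hP, hQ, mul_add, add_mul]
  | monomial k c =>
    have h3 : (S * A * S⁻¹) ^ k = S * A ^ k * S⁻¹ := by
      induction k with
      | zero => rw [pow_zero, pow_zero, mul_one, h2]
      | succ k ih =>
        rw [pow_succ, ih, pow_succ]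
        calc S * A ^ k * S⁻¹ * (S * A * S⁻¹) = S * A ^ k * (S⁻¹ * S) * A * S⁻¹ := by
              simp only [mul_assoc]
          _ = S * (A ^ k * A) * S⁻¹ := by rw [h1, mul_one]; simp only [mul_assoc]
    rw [aeval_monomial, aeval_monomial, h3, Algebra.algebraMap_eq_smul_one, smul_mul_assoc, one_mul,
      smul_mul_assoc, one_mul, Matrix.mul_smul, Matrix.smul_mul]

theorem spectrum_conj {S A : Matrix (Fin n) (Fin n) ℂ} (hS : IsUnit S.det) :
    spectrum ℂ (S * A * S⁻¹) = spectrum ℂ A := by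
  have hU : IsUnit S := (Matrix.isUnit_iff_isUnit_det S).mpr hS
  obtain ⟨u, hu⟩ := hU
  have h1 : S⁻¹ = ((u⁻¹ : (Matrix (Fin n) (Fin n) ℂ)ˣ) : Matrix (Fin n) (Fin n) ℂ) := by
    rw [← hu]; exact (Matrix.coe_units_inv u).symm
  rw [h1, ← hu]
  exact spectrum.units_conjugate

/-- the set-up of an invertible Hermitian square root -/
structure Metr (T H S : Matrix (Fin n) (Fin n) ℂ) (κ : ℝ) : Prop where
  h1 : (H - 1).PosSemidef
  h2 : ((κ : ℂ) • (1 : Matrix (Fin n) (Fin n) ℂ) - H).PosSemidef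
  h3 : (H - Tᴴ * H * T).PosSemidef
  hS : S.PosSemidef
  hSS : S * S = H

variable {T H S : Matrix (Fin n) (Fin n) ℂ} {κ : ℝ}

theorem Metr.isUnit_det (M : Metr T H S κ) : IsUnit S.det := by
  have h1 : H.PosDef := by
    have : H = (H - 1) + 1 := by abel
    rw [this]
    exact Matrix.PosDef.posSemidef_add M.h1 Matrix.PosDef.one
  have h2 : IsUnit H.det := (Matrix.isUnit_iff_isUnit_det H).mp h1.isUnit
  rw [← M.hSS, Matrix.det_mul] at h2
  exact isUnit_of_mul_isUnit_left h2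

theorem Metr.herm (M : Metr T H S κ) : Sᴴ = S := M.hS.isHermitian

theorem Metr.inv_herm (M : Metr T H S κ) : (S⁻¹)ᴴ = S⁻¹ := by
  rw [Matrix.conjTranspose_nonsing_inv, M.herm]

theorem Metr.contraction (M : Metr T H S κ) :
    (1 - (S * T * S⁻¹)ᴴ * (S * T * S⁻¹)).PosSemidef := by
  have hu := M.isUnit_det
  have h1 : S⁻¹ * S = 1 := Matrix.nonsing_inv_mul _ hu
  have h2 : S * S⁻¹ = 1 := Matrix.mul_nonsing_inv _ hu
  have h3 : 1 - (S * T * S⁻¹)ᴴ * (S * T * S⁻¹) = (S⁻¹)ᴴ * (H - Tᴴ * H * T) * S⁻¹ := by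
    have e1 : S⁻¹ * (S * S) * S⁻¹ = 1 := by
      calc S⁻¹ * (S * S) * S⁻¹ = (S⁻¹ * S) * (S * S⁻¹) := by simp only [Matrix.mul_assoc]
        _ = 1 := by rw [h1, h2, Matrix.mul_one]
    have e2 : (S * T * S⁻¹)ᴴ * (S * T * S⁻¹) = S⁻¹ * (Tᴴ * (S * S) * T) * S⁻¹ := by
      rw [Matrix.conjTranspose_mul, Matrix.conjTranspose_mul, M.inv_herm, M.herm]
      simp only [Matrix.mul_assoc]
    rw [e2, M.inv_herm, ← M.hSS, Matrix.mul_sub, Matrix.sub_mul, e1]
  rw [h3]
  exact M.h3.conjTranspose_mul_mul_same S⁻¹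

theorem fro_le_of_psd {N₁ N₂ : Matrix (Fin n) (Fin n) ℂ} (h : (N₂ - N₁).PosSemidef)
    (η : Matrix (Fin n) (Fin m) ℂ) :
    ((ηᴴ * N₁ * η).trace).re ≤ ((ηᴴ * N₂ * η).trace).re := by
  have h1 : (ηᴴ * (N₂ - N₁) * η).PosSemidef := h.conjTranspose_mul_mul_same η
  have h2 := h1.trace_nonneg
  rw [Matrix.mul_sub, Matrix.sub_mul, Matrix.trace_sub] at h2
  have h3 := (Complex.le_def.mp h2).1
  simp only [Complex.zero_re, Complex.sub_re] at h3
  linarith

theorem fro_mul (S : Matrix (Fin n) (Fin n) ℂ) (η : Matrix (Fin n) (Fin m) ℂ) :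
    fro (S * η) = ((ηᴴ * (Sᴴ * S) * η).trace).re := by
  have h := trace_conj_mul_self (S * η)
  rw [Matrix.conjTranspose_mul] at h
  have h2 : ηᴴ * (Sᴴ * S) * η = ηᴴ * Sᴴ * (S * η) := by simp only [Matrix.mul_assoc]
  rw [h2, h, Complex.ofReal_re]

theorem Metr.fro_le (M : Metr T H S κ) (ξ : Matrix (Fin n) (Fin m) ℂ) :
    fro (S * ξ) ≤ κ * fro ξ := by
  rw [fro_mul, M.herm, M.hSS]
  refine (fro_le_of_psd M.h2 ξ).trans (le_of_eq ?_)
  have h1 : ξᴴ * ((κ : ℂ) • (1 : Matrix (Fin n) (Fin n) ℂ)) * ξ = (κ : ℂ) • (ξᴴ * ξ) := by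
    rw [Matrix.mul_smul, Matrix.mul_one, Matrix.smul_mul]
  rw [h1, Matrix.trace_smul, trace_conj_mul_self, smul_eq_mul, ← Complex.ofReal_mul,
    Complex.ofReal_re]

theorem Metr.le_fro (M : Metr T H S κ) (ξ : Matrix (Fin n) (Fin m) ℂ) :
    fro ξ ≤ fro (S * ξ) := by
  rw [fro_mul, M.herm, M.hSS]
  refine le_trans (le_of_eq ?_) (fro_le_of_psd M.h1 ξ)
  rw [Matrix.mul_one, trace_conj_mul_self, Complex.ofReal_re]

theorem Metr.fro_inv_le (M : Metr T H S κ) (ξ : Matrix (Fin n) (Fin m) ℂ) :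
    fro (S⁻¹ * ξ) ≤ fro ξ := by
  have h := M.le_fro (S⁻¹ * ξ)
  rwa [← Matrix.mul_assoc, Matrix.mul_nonsing_inv _ M.isUnit_det, Matrix.one_mul] at h

theorem Metr.kappa (M : Metr T H S κ) (hn : 1 ≤ n) : 1 ≤ κ := by
  have h : ((H - 1) + ((κ : ℂ) • (1 : Matrix (Fin n) (Fin n) ℂ) - H)).PosSemidef := M.h1.add M.h2
  have h2 : (H - 1) + ((κ : ℂ) • (1 : Matrix (Fin n) (Fin n) ℂ) - H) =
      ((κ : ℂ) - 1) • (1 : Matrix (Fin n) (Fin n) ℂ) := by
    rw [sub_smul, one_smul]; abel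
  rw [h2] at h
  have h3 := h.diag_nonneg (i := ⟨0, hn⟩)
  rw [Matrix.smul_apply, Matrix.one_apply_eq, smul_eq_mul, mul_one] at h3
  have h4 := (Complex.le_def.mp h3).1
  simp only [Complex.zero_re, Complex.sub_re, Complex.ofReal_re, Complex.one_re] at h4
  linarith

/-- invertibility of `1 - w Cᴴ` from the spectrum -/
theorem inv_of_spectrum {C : Matrix (Fin n) (Fin n) ℂ} (h : ∀ ν ∈ spectrum ℂ C, ‖ν‖ < 1) :
    Inv C := by
  intro w hw hdet
  have h1 : (1 - (starRingEnd ℂ w) • C).det = 0 := by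
    have h2 : (1 - (starRingEnd ℂ w) • C) = (1 - w • Cᴴ)ᴴ := by
      rw [Matrix.conjTranspose_sub, Matrix.conjTranspose_one, Matrix.conjTranspose_smul,
        Matrix.conjTranspose_conjTranspose]
      rfl
    rw [h2, Matrix.det_conjTranspose, hdet, star_zero]
  by_cases hw0 : w = 0
  · rw [hw0, zero_smul, sub_zero, Matrix.det_one] at hdet
    exact one_ne_zero hdet
  have hw1 : starRingEnd ℂ w ≠ 0 := (_root_.map_ne_zero _).mpr hw0
  have h3 : (starRingEnd ℂ w)⁻¹ ∈ spectrum ℂ C := by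
    rw [spectrum.mem_iff, Matrix.isUnit_iff_isUnit_det, isUnit_iff_ne_zero, not_not]
    have h4 : algebraMap ℂ (Matrix (Fin n) (Fin n) ℂ) (starRingEnd ℂ w)⁻¹ - C =
        (starRingEnd ℂ w)⁻¹ • (1 - (starRingEnd ℂ w) • C) := by
      rw [Algebra.algebraMap_eq_smul_one, smul_sub, smul_smul, inv_mul_cancel₀ hw1, one_smul]
    rw [h4, Matrix.det_smul, h1, mul_zero]
  have h5 := h _ h3
  rw [norm_inv, Complex.norm_conj] at h5
  have h6 : 1 ≤ ‖w‖⁻¹ := (one_le_inv₀ (norm_pos_iff.mpr hw0)).mpr hw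
  linarith

end Crest.Agent.R132.GS
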